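import Vale.Agent.N107X.U6
import Vale.Agent.P107.Bdl.B5
import Vale.Agent.P107.H15.Cone7

/-!
Bounds for early times, and the growth of the momenta for smooth admissible data.
-/

set_option linter.all false

attribute [-instance] ProperSMul.toContinuousSMul IsTopologicalTorsor.toContinuousSMul
  IdemSemiring.toCanonicallyOrderedAdd IdemSemiring.toMulLeftMono IdemSemiring.toMulRightMono
  AddQuantale.instAddLeftMono AddQuantale.instAddRightMono Quantale.instMulLeftMono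
  Quantale.instMulRightMono FiniteDimensional.rclike_to_real IsScalarTower.complexToReal
  FiniteDimensional.complexToReal

open MeasureTheory Set Filter Topology
open scoped RealInnerProductSpace ENNReal NNReal

namespace Vale.Agent.P107

open Cn

variable {T : ℝ} {f g : ℝ → E3 → E3 → ℝ} {E B E' B' : ℝ → E3 → E3}

lemma IsClassicalSolution.lSol (h : IsClassicalSolution T f E B) : LSol T f E B :=
  { f_contDiff := h.f_contDiff
    E_contDiff := h.E_contDiff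
    B_contDiff := h.B_contDiff
    vlasov := h.vlasov
    ampere := h.ampere
    faraday := h.faraday
    local_support := fun t ht _ => by
      obtain ⟨P, hP⟩ := h.compact_support t ht
      exact ⟨P, fun s hs x v _ hne => (hP s hs x v hne).2⟩ }

/-- Uniqueness of classical solutions. -/
theorem IsClassicalSolution.uniq (h : IsClassicalSolution T f E B)
    (h' : IsClassicalSolution T g E' B') (hf : ∀ x v, f 0 x v = g 0 x v) (hE : E 0 = E' 0)
    (hB : B 0 = B' 0) {t : ℝ} (ht : t ∈ Ico 0 T) (x : E3) :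
    (∀ v, f t x v = g t x v) ∧ E t x = E' t x ∧ B t x = B' t x :=
  h.lSol.finite_speed (x₀ := x) (R := t) h'.lSol
    (fun y _ => ⟨hf y, congrFun hE y, congrFun hB y⟩) ht (by simp)

lemma lip_of_fderiv {W : ℝ × E3 → E3} (hW : Differentiable ℝ W) {C : ℝ}
    (hC : ∀ t, 0 ≤ t → t ≤ 1 → ∀ x, ‖fderiv ℝ W (t, x)‖ ≤ C) (x : E3) {s t : ℝ}
    (hs : s ∈ Icc (0 : ℝ) 1) (ht : t ∈ Icc (0 : ℝ) 1) : ‖W (t, x) - W (s, x)‖ ≤ C * ‖t - s‖ := by
  refine (convex_Icc (0 : ℝ) 1).norm_image_sub_le_of_norm_hasDerivWithin_le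
    (f := fun r => W (r, x)) (f' := fun r => fderiv ℝ W (r, x) (1, 0)) (fun r _ => ?_)
    (fun r hr => ?_) hs ht
  · have h2 : HasDerivAt (fun s : ℝ => (s, x)) ((1 : ℝ), (0 : E3)) r :=
      (hasDerivAt_id _).prodMk (hasDerivAt_const _ _)
    exact ((hW (r, x)).hasFDerivAt.comp_hasDerivAt_of_eq r h2 rfl).hasDerivWithinAt
  · refine ((fderiv ℝ W (r, x)).le_opNorm _).trans ?_
    have : ‖((1 : ℝ), (0 : E3))‖ = 1 := by simp [Prod.norm_def]
    rw [this, mul_one]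
    exact hC r hr.1 hr.2 x

/-- The fields and their time derivatives are bounded for early times. -/
theorem fields_early (h : IsClassicalSolution 1 f E B)
    (hD : LE.Dat (fun z => f 0 z.1 z.2) (E 0) (B 0)) :
    ∃ C : ℝ, 0 ≤ C ∧ ∀ t ∈ Ioo (0 : ℝ) 1, ∀ x, ‖E t x‖ ≤ C ∧ ‖B t x‖ ≤ C ∧
      ‖derivWithin (fun s => E s x) (Ico 0 1) t‖ ≤ C ∧
      ‖derivWithin (fun s => B s x) (Ico 0 1) t‖ ≤ C := by
  obtain ⟨fL, EL, BL, hL⟩ := LE.exists_layer hD
  have hε : ∀ n : ℕ, (0 : ℝ) < 1 / (n + 1) := fun n => by positivity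
  choose fn En Bn hn using fun n : ℕ => LE.exists_eps hD hL (hε n)
  have hb : ∀ T : ℝ, ∃ P : ℝ, ∀ᶠ n in atTop, LE.MB P T (fn n) := fun T =>
    LE.momenta_bounded (fun _ _ _ _ hT hs => momentum_bounded hT hs) hD hL
      (LE.extend_MB hD hL) (fun f E B h T hT hb => LE.exists_limit hD hL h hT hb)
      (fun f E B h T P hT hb g hg R hR => LE.MB_of_limit hD hL h hT hb hg hR) hn T
  obtain ⟨g, E', B', hcl, hg, hE, hB, hconv⟩ := LE.exists_limit hD hL hn one_pos fun T' _ => hb T'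
  obtain ⟨P, hP⟩ := hb 1
  obtain ⟨C, hC0, hC⟩ := LE.sup_bound hD hL 1 P
  obtain ⟨C', hC0', hC'⟩ := LE.grad_bound hD hL 1 P
  have hu := fun t (ht : t ∈ Ico (0 : ℝ) 1) x =>
    h.uniq hcl (fun x v => (hg x v).symm) hE.symm hB.symm ht x
  have cE : ∀ t ∈ Ico (0 : ℝ) 1, ∀ x, Tendsto (fun n => En n (t, x)) atTop (𝓝 (E t x)) :=
    fun t ht x => by rw [(hu t ht x).2.1]; exact (hconv t x 0 ht.1 ht.2).2.1
  have cB : ∀ t ∈ Ico (0 : ℝ) 1, ∀ x, Tendsto (fun n => Bn n (t, x)) atTop (𝓝 (B t x)) :=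
    fun t ht x => by rw [(hu t ht x).2.2]; exact (hconv t x 0 ht.1 ht.2).2.2
  have key : ∀ (W : ℝ → E3 → E3) (Wn : ℕ → ℝ × E3 → E3), (∀ n, Differentiable ℝ (Wn n)) →
      (∀ t ∈ Ico (0 : ℝ) 1, ∀ x, Tendsto (fun n => Wn n (t, x)) atTop (𝓝 (W t x))) →
      (∀ᶠ n in atTop, ∀ t, 0 ≤ t → t ≤ 1 → ∀ x, ‖Wn n (t, x)‖ ≤ C ∧ ‖fderiv ℝ (Wn n) (t, x)‖ ≤ C') →
      ∀ t ∈ Ioo (0 : ℝ) 1, ∀ x, ‖W t x‖ ≤ C + C' ∧
        ‖derivWithin (fun s => W s x) (Ico 0 1) t‖ ≤ C + C' := by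
    intro W Wn hd hc hbd t ht x
    have ht' : t ∈ Ico (0 : ℝ) 1 := ⟨ht.1.le, ht.2⟩
    constructor
    · refine le_trans (le_of_tendsto (hc t ht' x).norm ?_) (le_add_of_nonneg_right hC0')
      filter_upwards [hbd] with n hn
      exact (hn t ht.1.le ht.2.le x).1
    · rw [derivWithin_of_mem_nhds (Ico_mem_nhds ht.1 ht.2)]
      refine le_trans (norm_deriv_le_of_lip' hC0' ?_) (le_add_of_nonneg_left hC0)
      filter_upwards [Ico_mem_nhds ht.1 ht.2] with s hs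
      refine le_of_tendsto ((hc s hs x).sub (hc t ht' x)).norm ?_
      filter_upwards [hbd] with n hn
      exact lip_of_fderiv (hd n) (fun r h1 h2 y => (hn r h1 h2 y).2) x ⟨ht.1.le, ht.2.le⟩
        ⟨hs.1, hs.2.le⟩
  have kE := key E En (fun n => (hn n).sE.smooth.differentiable (by simp)) cE (by
    filter_upwards [hP] with n hn' t h1 h2 x
    have a1 := hC _ _ _ _ (hε n) (hn n) 1 le_rfl hn' t x h1 h2
    have a2 := (hC' _ _ _ _ (hε n) (hn n) 1 le_rfl hn' t h1 h2).1 x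
    exact ⟨by linarith only [a1, norm_nonneg (Bn n (t, x))],
      by linarith only [a2, norm_nonneg (fderiv ℝ (Bn n) (t, x))]⟩)
  have kB := key B Bn (fun n => (hn n).sB.smooth.differentiable (by simp)) cB (by
    filter_upwards [hP] with n hn' t h1 h2 x
    have a1 := hC _ _ _ _ (hε n) (hn n) 1 le_rfl hn' t x h1 h2
    have a2 := (hC' _ _ _ _ (hε n) (hn n) 1 le_rfl hn' t h1 h2).1 x
    exact ⟨by linarith only [a1, norm_nonneg (En n (t, x))],
      by linarith only [a2, norm_nonneg (fderiv ℝ (En n) (t, x))]⟩)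
  exact ⟨C + C', add_nonneg hC0 hC0', fun t ht x =>
    ⟨(kE t ht x).1, (kB t ht x).1, (kE t ht x).2, (kB t ht x).2⟩⟩

theorem exists_ear (h : IsClassicalSolution 1 f E B)
    (hD : LE.Dat (fun z => f 0 z.1 z.2) (E 0) (B 0)) : ∃ D, Ear f E B (1 / 2) D := by
  obtain ⟨C, hC0, hC⟩ := fields_early h hD
  have hc' : ContDiff ℝ 1 (deriv (chi (1 / 2))) := contDiff_deriv_chi _
  obtain ⟨c1, hc1⟩ := (isCompact_Icc (a := (0 : ℝ)) (b := 1)).exists_bound_of_continuousOn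
    hc'.continuous.continuousOn
  obtain ⟨c2, hc2⟩ := (isCompact_Icc (a := (0 : ℝ)) (b := 1)).exists_bound_of_continuousOn
    (hc'.continuous_deriv le_rfl).continuousOn
  have c10 : 0 ≤ c1 := (norm_nonneg _).trans (hc1 0 ⟨le_rfl, zero_le_one⟩)
  have c20 : 0 ≤ c2 := (norm_nonneg _).trans (hc2 0 ⟨le_rfl, zero_le_one⟩)
  obtain ⟨R, hR⟩ := h.compact_support (1 / 2) ⟨by norm_num, by norm_num⟩
  have hK : IsCompact (Icc (0 : ℝ) (1 / 2) ×ˢ Metric.closedBall (0 : E3 × E3) R) :=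
    isCompact_Icc.prod (isCompact_closedBall _ _)
  obtain ⟨F, hF⟩ := hK.exists_bound_of_continuousOn (h.f_contDiff.continuousOn.mono
    (prod_mono (fun s hs => ⟨hs.1, by linarith only [hs.2]⟩) (subset_univ _)))
  have hF' : ∀ s ∈ Icc (0 : ℝ) (1 / 2), ∀ x v, |f s x v| ≤ |F| := by
    intro s hs x v
    by_cases hne : f s x v = 0
    · rw [hne, abs_zero]; exact abs_nonneg _
    · refine le_trans (hF (s, x, v) ⟨hs, ?_⟩) (le_abs_self F)
      rw [mem_closedBall_zero_iff, Prod.norm_def]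
      exact max_le (hR s hs x v hne).1 (hR s hs x v hne).2
  have p1 : 0 ≤ c1 * C := by positivity
  have p2 : 0 ≤ c2 * C := by positivity
  have p3 : 0 ≤ c1 * |F| := by positivity
  have p4 := abs_nonneg F
  have p5 := abs_nonneg R
  have p6 := abs_nonneg (energy0 f E B)
  have mem : ∀ {s : ℝ}, 0 < s → s ≤ 1 / 2 → s ∈ Ioo (0 : ℝ) 1 ∧ s ∈ Icc (0 : ℝ) 1 :=
    fun h1 h2 => ⟨⟨h1, by linarith only [h2]⟩, ⟨h1.le, by linarith only [h2]⟩⟩
  have k0 : ∀ {a A : ℝ} {w : E3} (i : Fin 3), ‖a‖ ≤ A → ‖w‖ ≤ C → |a * w i| ≤ A * C := by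
    intro a A w i ha hw
    rw [abs_mul]
    exact mul_le_mul ha ((abs_component_le w i).trans hw) (abs_nonneg _)
      ((norm_nonneg _).trans ha)
  refine ⟨1 + c1 * C + c2 * C + c1 * |F| + |F| + |R| + |energy0 f E B|,
    by linarith only [p1, p2, p3, p4, p5, p6], fun i p h1 h2 => ?_, fun i p h1 h2 => ?_,
    fun i p h1 h2 => ?_, fun i p h1 h2 => ?_, fun p h1 h2 v => ?_, fun s hs x v hne => ?_,
    fun x v => ?_, ?_⟩
  · have := k0 i (hc1 _ (mem h1 h2).2) (hC _ (mem h1 h2).1 p.2).1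
    linarith only [this, p2, p3, p4, p5, p6]
  · have := k0 i (hc1 _ (mem h1 h2).2) (hC _ (mem h1 h2).1 p.2).2.1
    linarith only [this, p2, p3, p4, p5, p6]
  · rw [ptd_cut h.E_contDiff hc' h1 (mem h1 h2).1.2]
    have a1 := k0 i (hc2 _ (mem h1 h2).2) (hC _ (mem h1 h2).1 p.2).1
    have a2 := k0 i (hc1 _ (mem h1 h2).2) (hC _ (mem h1 h2).1 p.2).2.2.1
    refine (abs_add_le _ _).trans ?_
    linarith only [a1, a2, p3, p4, p5, p6]
  · rw [ptd_cut h.B_contDiff hc' h1 (mem h1 h2).1.2]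
    have a1 := k0 i (hc2 _ (mem h1 h2).2) (hC _ (mem h1 h2).1 p.2).2.1
    have a2 := k0 i (hc1 _ (mem h1 h2).2) (hC _ (mem h1 h2).1 p.2).2.2.2
    refine (abs_add_le _ _).trans ?_
    linarith only [a1, a2, p3, p4, p5, p6]
  · rw [abs_mul]
    have := mul_le_mul (hc1 _ (mem h1 h2).2) (hF' p.1 ⟨h1.le, h2⟩ p.2 v) (abs_nonneg _) c10
    rw [Real.norm_eq_abs] at this
    linarith only [this, p1, p2, p4, p5, p6]
  · have := hR s hs x v hne
    have := le_abs_self R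
    constructor <;> linarith
  · have := (le_abs_self _).trans (hF' (1 / 2 / 2) ⟨by norm_num, by norm_num⟩ x v)
    linarith only [this, p1, p2, p3, p5, p6]
  · have := le_abs_self (energy0 f E B)
    linarith only [this, p1, p2, p3, p4, p5]

/-- The growth of the momenta. -/
theorem momentum_growth {f₀ : E3 × E3 → ℝ} {E₀ B₀ : E3 → E3} (hD : LE.Dat f₀ E₀ B₀) :
    ∃ C : ℝ, ∀ (T : ℝ) (f : ℝ → E3 → E3 → ℝ) (E B : ℝ → E3 → E3), IsClassicalSolution T f E B →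
      (∀ x v, f 0 x v = f₀ (x, v)) → E 0 = E₀ → B 0 = B₀ → ∀ t ∈ Ico 0 T, ∀ x v, f t x v ≠ 0 →
        ‖v‖ ≤ Real.exp (Real.exp (C * (1 + t) ^ 35)) := by
  obtain ⟨g, E', B', hg, g0, E0, B0⟩ :=
    LE.global_existence (fun _ _ _ _ hT hs => momentum_bounded hT hs) hD
  obtain ⟨D, hEar⟩ := exists_ear (hg 1 one_pos) (by
    have : (fun z : E3 × E3 => g 0 z.1 z.2) = f₀ := funext fun z => g0 z.1 z.2
    rw [this, E0, B0]
    exact hD)
  obtain ⟨C, hC⟩ := growth_T D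
  refine ⟨C, fun T f E B h f0 e0 b0 t ht x v hne => ?_⟩
  have hu := h.uniq (hg T (ht.1.trans_lt ht.2)) (fun x v => by rw [f0, g0]) (e0.trans E0.symm)
    (b0.trans B0.symm) ht x
  rw [hu.1 v] at hne
  exact hC (1 + t) g E' B' (1 / 2) (hg _ (by linarith only [ht.1])) (by norm_num)
    (by linarith only [ht.1]) (by linarith only [ht.1]) hEar t ⟨ht.1, by linarith only []⟩ x v hne

end Vale.Agent.P107
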