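import Vale.Agent.N107X.Defs
import Vale.Agent.N107X.U7

/-!
Comparison of the definitions with those used in the proofs.
-/

open MeasureTheory Set Function Filter Topology
open scoped ContDiff

namespace Vale.Agent.N107X

open Vale.Agent.P107 (IsClassicalSolution)

lemma cross_eq (a b : V) : cross a b = P107.cross a b := rfl

lemma pd_eq {F : V → V} {x : V} (hF : DifferentiableAt ℝ F x) (i j : Fin 3) :
    P107.pd i (fun y => F y j) x = pd F x i j := by
  have h := ((EuclideanSpace.proj j : V →L[ℝ] ℝ).hasFDerivAt.comp x hF.hasFDerivAt).fderiv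
  exact congrArg (fun L : V →L[ℝ] ℝ => L (EuclideanSpace.single i 1)) h

lemma div_eq {F : V → V} {x : V} (hF : DifferentiableAt ℝ F x) : div F x = P107.div F x := by
  simp only [div, P107.div, pd_eq hF, Fin.sum_univ_three]

lemma curl_eq {F : V → V} {x : V} (hF : DifferentiableAt ℝ F x) : curl F x = P107.curl F x := by
  simp only [curl, P107.curl, pd_eq hF]

lemma sub_time {T : EReal} {S : ℝ} (hS : (S : EReal) ≤ T) : Ico 0 S ⊆ Time T :=
  fun _ ht => ⟨ht.1, lt_of_lt_of_le (EReal.coe_lt_coe_iff.2 ht.2) hS⟩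

lemma time_eq {T : EReal} {S t : ℝ} (hS : (S : EReal) ≤ T) (ht : t < S) :
    Time T =ᶠ[𝓝 t] Ico 0 S := by
  filter_upwards [Iio_mem_nhds ht] with s hs
  exact propext ⟨fun h => ⟨h.1, hs⟩, fun h => sub_time hS h⟩

lemma exists_real {T : EReal} {t : ℝ} (ht : t ∈ Time T) : ∃ S : ℝ, t < S ∧ (S : EReal) ≤ T := by
  obtain ⟨S, h1, h2⟩ := EReal.lt_iff_exists_real_btwn.1 ht.2
  exact ⟨S, EReal.coe_lt_coe_iff.1 h1, h2.le⟩

lemma slice {I : Set ℝ} {F : ℝ → V → V} (h : ContDiffOn ℝ 1 (uncurry F) (I ×ˢ univ)) {t : ℝ}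
    (ht : t ∈ I) (x : V) : DifferentiableAt ℝ (F t) x := by
  have h1 : ContDiffOn ℝ 1 (fun z : V => F t z) univ :=
    h.comp (f := fun z : V => (t, z)) (by fun_prop) (fun z _ => ⟨ht, mem_univ _⟩)
  exact (contDiffOn_univ.1 h1).differentiable (by norm_num) x

theorem Solution.classical {T : EReal} {f : ℝ → V × V → ℝ} {E B : ℝ → V → V}
    (h : Solution T f E B) {S : ℝ} (hS : (S : EReal) ≤ T) :
    IsClassicalSolution S (fun t x v => f t (x, v)) E B := by
  obtain ⟨⟨f1, f2, f3⟩, hE, hB, eq⟩ := h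
  have sub := sub_time hS
  have sub' : ∀ X : Type, Ico 0 S ×ˢ (univ : Set X) ⊆ Time T ×ˢ univ :=
    fun X => Set.prod_mono sub Subset.rfl
  refine ⟨fun t ht x v => f2 t (sub ht) (x, v), f1.mono (sub' _), hE.1.mono (sub' _),
    hB.1.mono (sub' _),
    fun t ht x v => ?_, fun t ht x => ?_, fun t ht x => ?_, fun t ht x => ?_, fun t ht x => ?_,
    fun t ht => (hE.2 t (sub ht)).1, fun t ht => (hB.2 t (sub ht)).1,
    fun t ht => (hE.2 t (sub ht)).2.mono_left (nhdsWithin_mono t sub),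
    fun t ht => (hB.2 t (sub ht)).2.mono_left (nhdsWithin_mono t sub), fun t ht => ?_⟩
  · have := (eq t (sub ht) x).1 v
    unfold Vlasov at this
    rw [derivWithin_congr_set (time_eq hS ht.2), cross_eq] at this
    exact this
  · have := (eq t (sub ht) x).2.1
    rw [derivWithin_congr_set (time_eq hS ht.2), curl_eq (slice hB.1 (sub ht) x)] at this
    exact this
  · have := (eq t (sub ht) x).2.2.1
    rw [derivWithin_congr_set (time_eq hS ht.2), curl_eq (slice hE.1 (sub ht) x)] at this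
    exact this
  · have := (eq t (sub ht) x).2.2.2.1
    rw [div_eq (slice hE.1 (sub ht) x)] at this
    exact this
  · have := (eq t (sub ht) x).2.2.2.2
    rw [div_eq (slice hB.1 (sub ht) x)] at this
    exact this
  · obtain ⟨K, hK, hs⟩ := f3 0 t fun s hs => sub ⟨hs.1, hs.2.trans_lt ht.2⟩
    obtain ⟨R, hR⟩ := hK.isBounded.exists_norm_le
    refine ⟨R, fun s hs' x v hne => ?_⟩
    have := hR (x, v) (hs s hs' hne)
    rw [Prod.norm_def, max_le_iff] at this
    exact this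

lemma le_top' (S : ℝ) : (S : EReal) ≤ ⊤ := le_top

lemma contDiffOn_top {X Y : Type} [NormedAddCommGroup X] [NormedSpace ℝ X] [NormedAddCommGroup Y]
    [NormedSpace ℝ Y] {φ : ℝ × X → Y} (h : ∀ S, 0 < S → ContDiffOn ℝ 1 φ (Ico 0 S ×ˢ univ)) :
    ContDiffOn ℝ 1 φ (Time ⊤ ×ˢ univ) := by
  intro z hz
  have h0 : 0 ≤ z.1 := hz.1.1
  refine (h (z.1 + 1) (by linarith) z ⟨⟨h0, by linarith⟩, mem_univ _⟩).mono_of_mem_nhdsWithin ?_
  have : {y : ℝ × X | y.1 < z.1 + 1} ∈ 𝓝 z :=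
    (isOpen_lt continuous_fst continuous_const).mem_nhds (by simp)
  filter_upwards [self_mem_nhdsWithin, mem_nhdsWithin_of_mem_nhds this] with y h1 h2
  exact ⟨⟨h1.1.1, h2⟩, mem_univ _⟩

lemma field_top {F : ℝ → V → V}
    (h1 : ∀ S, 0 < S → ContDiffOn ℝ 1 (fun z : ℝ × V => F z.1 z.2) (Ico 0 S ×ˢ univ))
    (h2 : ∀ S, 0 < S → ∀ t ∈ Ico 0 S, MemLp (F t) 2 volume)
    (h3 : ∀ S, 0 < S → ∀ t ∈ Ico 0 S,
      Tendsto (fun s => eLpNorm (fun x => F s x - F t x) 2 volume) (𝓝[Ico 0 S] t) (𝓝 0)) :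
    Field (Time ⊤) F := by
  refine ⟨contDiffOn_top h1, fun t ht =>
    ⟨h2 (t + 1) (by linarith [ht.1]) t ⟨ht.1, by linarith⟩, ?_⟩⟩
  have h4 := h3 (t + 1) (by linarith [ht.1]) t ⟨ht.1, by linarith⟩
  rwa [← nhdsWithin_eq_iff_eventuallyEq.2 (time_eq (le_top' (t + 1)) (by linarith))] at h4

theorem solution_top {g : ℝ → V → V → ℝ} {E B : ℝ → V → V}
    (h : ∀ S, 0 < S → IsClassicalSolution S g E B) :
    Solution ⊤ (fun t z => g t z.1 z.2) E B := by
  have hE := field_top (fun S hS => (h S hS).E_contDiff) (fun S hS => (h S hS).E_memLp)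
    (fun S hS => (h S hS).E_cont)
  have hB := field_top (fun S hS => (h S hS).B_contDiff) (fun S hS => (h S hS).B_memLp)
    (fun S hS => (h S hS).B_cont)
  have k : ∀ t ∈ Time ⊤, IsClassicalSolution (t + 1) g E B ∧ t ∈ Ico 0 (t + 1) ∧
      Time ⊤ =ᶠ[𝓝 t] Ico 0 (t + 1) := fun t ht =>
    ⟨h _ (by linarith [ht.1]), ⟨ht.1, by linarith⟩, time_eq (le_top' _) (by linarith)⟩
  refine ⟨⟨contDiffOn_top fun S hS => (h S hS).f_contDiff,
    fun t ht z => (k t ht).1.f_nonneg t (k t ht).2.1 z.1 z.2, fun a b hab => ?_⟩, hE, hB,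
    fun t ht x => ⟨fun v => ?_, ?_, ?_, ?_, ?_⟩⟩
  · rcases lt_or_ge b a with h1 | h1
    · exact ⟨∅, isCompact_empty, fun t ht => absurd (ht.1.trans ht.2) (not_le.2 h1)⟩
    have hb := hab (right_mem_Icc.2 h1)
    obtain ⟨R, hR⟩ := (k b hb).1.compact_support b (k b hb).2.1
    refine ⟨Metric.closedBall 0 R, isCompact_closedBall _ _, fun t ht z hz => ?_⟩
    have := hR t ⟨(hab ht).1, ht.2⟩ z.1 z.2 hz
    rw [mem_closedBall_zero_iff, Prod.norm_def]
    exact max_le this.1 this.2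
  · unfold Vlasov
    rw [derivWithin_congr_set (k t ht).2.2, cross_eq]
    exact (k t ht).1.vlasov t (k t ht).2.1 x v
  · rw [derivWithin_congr_set (k t ht).2.2, curl_eq (slice hB.1 ht x)]
    exact (k t ht).1.ampere t (k t ht).2.1 x
  · rw [derivWithin_congr_set (k t ht).2.2, curl_eq (slice hE.1 ht x)]
    exact (k t ht).1.faraday t (k t ht).2.1 x
  · rw [div_eq (slice hE.1 ht x)]
    exact (k t ht).1.gauss t (k t ht).2.1 x
  · rw [div_eq (slice hB.1 ht x)]
    exact (k t ht).1.gauss_mag t (k t ht).2.1 x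

theorem Admissible.dat {f₀ : V × V → ℝ} {E₀ B₀ : V → V} (h : Admissible f₀ E₀ B₀) :
    P107.LE.Dat f₀ E₀ B₀ := by
  obtain ⟨h1, h2, h3, hE, hB, h4⟩ := h
  refine ⟨h1, h2, h3, ⟨hE.1.1, hE.1.2⟩, ⟨hB.1.1, hB.1.2⟩, hE.2, hB.2, fun x => ?_, fun x => ?_⟩
  · rw [← div_eq (hE.1.1.differentiable (by simp) x)]
    exact (h4 x).1
  · rw [← div_eq (hB.1.1.differentiable (by simp) x)]
    exact (h4 x).2

end Vale.Agent.N107X
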