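import Mathlib

/-!
The three-dimensional one-species relativistic Vlasov-Maxwell system: smooth admissible data and
classical solutions.
-/

open MeasureTheory Set Function Filter Topology
open scoped ContDiff

namespace Vale.Agent.N107X

section
variable {X Y : Type} [NormedAddCommGroup X] [NormedSpace ℝ X] [NormedAddCommGroup Y]
  [NormedSpace ℝ Y]

/-- The directional derivative `(w · ∇) F (x)`. -/
noncomputable def D (F : X → Y) (x w : X) : Y := fderiv ℝ F x w

/-- `F` is `C¹` on `I × X`. -/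
def C1 (I : Set ℝ) (F : ℝ → X → Y) : Prop := ContDiffOn ℝ 1 (uncurry F) (I ×ˢ univ)

/-- `F` is smooth and bounded together with all its derivatives. -/
def SmoothBounded (F : X → Y) : Prop :=
  ContDiff ℝ ∞ F ∧ ∀ n : ℕ, ∃ C : ℝ, ∀ x, ‖iteratedFDeriv ℝ n F x‖ ≤ C

end

/-- `F` belongs to `C(I; L²)`. -/
def CL2 {X Y : Type} [MeasureSpace X] [NormedAddCommGroup Y] (I : Set ℝ) (F : ℝ → X → Y) : Prop :=
  ∀ t ∈ I, MemLp (F t) 2 ∧ Tendsto (fun s => eLpNorm (F s - F t) 2) (𝓝[I] t) (𝓝 0)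

/-- Euclidean three-space. -/
abbrev V : Type := EuclideanSpace ℝ (Fin 3)

/-- The velocity `u(v) = v / √(1 + |v|²)`. -/
noncomputable def vel (v : V) : V := (√(1 + ‖v‖ ^ 2))⁻¹ • v

/-- The component `aᵢ`. -/
def co (a : V) (i : Fin 3) : ℝ := a i

/-- The cross product. -/
def cross (a b : V) : V :=
  !₂[co a 1 * co b 2 - co a 2 * co b 1, co a 2 * co b 0 - co a 0 * co b 2,
    co a 0 * co b 1 - co a 1 * co b 0]

/-- The partial derivative `∂ᵢ Fⱼ (x)`. -/
noncomputable def pd (F : V → V) (x : V) (i j : Fin 3) : ℝ :=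
  co (D F x (EuclideanSpace.single i 1)) j

/-- The divergence. -/
noncomputable def div (F : V → V) (x : V) : ℝ := pd F x 0 0 + pd F x 1 1 + pd F x 2 2

/-- The curl. -/
noncomputable def curl (F : V → V) (x : V) : V :=
  !₂[pd F x 1 2 - pd F x 2 1, pd F x 2 0 - pd F x 0 2, pd F x 0 1 - pd F x 1 0]

/-- The charge density `∫ g(x,v) dv`. -/
noncomputable def rho (g : V × V → ℝ) (x : V) : ℝ := ∫ v, g (x, v)

/-- The current density `∫ u(v) g(x,v) dv`. -/
noncomputable def cur (g : V × V → ℝ) (x : V) : V := ∫ v, g (x, v) • vel v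

/-- A smooth square integrable field, bounded together with all its derivatives. -/
def DataField (F : V → V) : Prop := SmoothBounded F ∧ MemLp F 2

/-- A smooth admissible datum. -/
def Admissible (f₀ : V × V → ℝ) (E₀ B₀ : V → V) : Prop :=
  ContDiff ℝ ∞ f₀ ∧ HasCompactSupport f₀ ∧ (∀ z, 0 ≤ f₀ z) ∧ DataField E₀ ∧ DataField B₀ ∧
    ∀ x, div E₀ x = rho f₀ x ∧ div B₀ x = 0

/-- The time interval `[0,T)`, where `T = ∞` is allowed. -/
def Time (T : EReal) : Set ℝ := {t | 0 ≤ t ∧ (t : EReal) < T}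

/-- A `C¹` field on `I × ℝ³` which belongs to `C(I; L²)`. -/
def Field (I : Set ℝ) (F : ℝ → V → V) : Prop := C1 I F ∧ CL2 I F

/-- A nonnegative `C¹` density whose support stays in a compact set on compact time intervals. -/
def Density (I : Set ℝ) (f : ℝ → V × V → ℝ) : Prop :=
  C1 I f ∧ (∀ t ∈ I, ∀ z, 0 ≤ f t z) ∧
    ∀ a b, Icc a b ⊆ I → ∃ K, IsCompact K ∧ ∀ t ∈ Icc a b, support (f t) ⊆ K

/-- The Vlasov equation at `(t, x, v)`. -/
def Vlasov (I : Set ℝ) (f : ℝ → V × V → ℝ) (E B : ℝ → V → V) (t : ℝ) (x v : V) : Prop :=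
  derivWithin (fun s => f s (x, v)) I t + D (fun y => f t (y, v)) x (vel v)
    + D (fun w => f t (x, w)) v (E t x + cross (vel v) (B t x)) = 0

/-- The Maxwell equations at `(t, x)`. -/
def Maxwell (I : Set ℝ) (f : ℝ → V × V → ℝ) (E B : ℝ → V → V) (t : ℝ) (x : V) : Prop :=
  derivWithin (fun s => E s x) I t - curl (B t) x = -cur (f t) x ∧
  derivWithin (fun s => B s x) I t + curl (E t) x = 0 ∧
  div (E t) x = rho (f t) x ∧ div (B t) x = 0

/-- `(f, E, B)` is a classical solution on `[0,T)`. -/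
def Solution (T : EReal) (f : ℝ → V × V → ℝ) (E B : ℝ → V → V) : Prop :=
  Density (Time T) f ∧ Field (Time T) E ∧ Field (Time T) B ∧
    ∀ t ∈ Time T, ∀ x, (∀ v, Vlasov (Time T) f E B t x v) ∧ Maxwell (Time T) f E B t x

end Vale.Agent.N107X
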