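import Vale.Agent.P107.Bdl.B2

/-!
The mass estimates of the a priori bound, with explicit constants.
-/

set_option linter.all false

attribute [-instance] ProperSMul.toContinuousSMul IsTopologicalTorsor.toContinuousSMul
  IdemSemiring.toCanonicallyOrderedAdd IdemSemiring.toMulLeftMono IdemSemiring.toMulRightMono
  AddQuantale.instAddLeftMono AddQuantale.instAddRightMono Quantale.instMulLeftMono
  Quantale.instMulRightMono FiniteDimensional.rclike_to_real IsScalarTower.complexToReal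
  FiniteDimensional.complexToReal

open MeasureTheory Set Filter Topology
open scoped RealInnerProductSpace ENNReal NNReal

namespace Vale.Agent.P107

open Vale.Agent.P107.Ar

variable {T : ℝ} {f : ℝ → E3 → E3 → ℝ} {E B : ℝ → E3 → E3}

/-- A statement with explicit constants. -/
def UEn (T : ℝ) (f : ℝ → E3 → E3 → ℝ) (E B : ℝ → E3 → E3) (M : ℝ≥0) : Prop :=
    ∀ t ∈ Ico 0 T,
      (∫⁻ x, ENNReal.ofReal (‖E t x‖ ^ 2) ≤ M) ∧ (∫⁻ x, ENNReal.ofReal (‖B t x‖ ^ 2) ≤ M) ∧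
      (∫⁻ x, ∫⁻ v, ENNReal.ofReal (q v * f t x v) ≤ M)

/-- A statement with explicit constants. -/
def UFx (T : ℝ) (f : ℝ → E3 → E3 → ℝ) (E B : ℝ → E3 → E3) (ta : ℝ) (M : ℝ≥0) : Prop :=
    ∀ s ∈ Ico ta T, ∀ x : E3,
      coneInt ta T f s x (fun z v => ENNReal.ofReal (q v * al (dir z) (u v))) ≤ M ∧
      ∫⁻ z, (Metric.closedBall (0 : E3) (s - ta)).indicator (fun z => ENNReal.ofReal
        (‖E (s - ‖z‖) (x + z) - cross (dir z) (B (s - ‖z‖) (x + z))‖ ^ 2)) z ≤ M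

/-- A bound of the density. -/
def USp (T : ℝ) (f : ℝ → E3 → E3 → ℝ) (ta : ℝ) (F₀ : ℝ≥0) : Prop :=
    ∀ t ∈ Ico ta T, ∀ x v, f t x v ≤ F₀

/-- A statement with explicit constants. -/
def UCnt (T : ℝ) (f : ℝ → E3 → E3 → ℝ) (E B : ℝ → E3 → E3) (M : ℝ≥0) : Prop :=
    ∀ a b : ℝ, 0 < a → a ≤ b → b < T → ∀ S : Set (ℝ × E3 × E3), MeasurableSet S →
      ∀ (ℓ : ℝ≥0∞) (Q : ℝ), 0 < Q →
      (∀ X V : ℝ → E3, IsChar E B X V a b → f a (X a) (V a) ≠ 0 →
        volume {τ | τ ∈ Icc a b ∧ (τ, X τ, V τ) ∈ S} ≤ ℓ ∧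
        ((∃ τ ∈ Icc a b, (τ, X τ, V τ) ∈ S) → Q ≤ q (V a))) →
      ∫⁻ τ in Icc a b, ∫⁻ x, ∫⁻ v, S.indicator (fun _ => ENNReal.ofReal (f τ x v)) (τ, x, v)
        ≤ ℓ * M * ENNReal.ofReal Q⁻¹

/-- A statement with explicit constants. -/
def UBasic (T : ℝ) (f : ℝ → E3 → E3 → ℝ) (E B : ℝ → E3 → E3) (t₀ : ℝ) (C : ℝ≥0) : Prop :=
    ∀ (th c₁ : ℝ) (p j : ℕ) (X V : ℝ → E3) (t₁ t₂ : ℝ),
      Ctx T f E B t₀ th c₁ p j X V t₁ t₂ → ∀ k m l i n : ℕ,
      (mass (t₀ / 2) T f X t₁ t₂ (cellAN (max T 1) p V t₁ t₂ k m l i)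
          ≤ C * ENNReal.ofReal (dl c₁ p j * (1 / 8) ^ k * (1 / 4) ^ m * (1 / 4) ^ l * qq p i ^ 3) ∧
        mass (t₀ / 2) T f X t₁ t₂ (cellAN (max T 1) p V t₁ t₂ k m l i)
          ≤ C * ENNReal.ofReal (dl c₁ p j * 4 ^ l / qq p i) ∧
        mass (t₀ / 2) T f X t₁ t₂ (cellAN (max T 1) p V t₁ t₂ k m l i)
          ≤ C * ENNReal.ofReal ((dl c₁ p j + (1 / 2) ^ k) * 4 ^ m / qq p i)) ∧
      (mass (t₀ / 2) T f X t₁ t₂ (cellD (max T 1) p V t₁ t₂ k m n i)
          ≤ C * ENNReal.ofReal (dl c₁ p j * (1 / 8) ^ k * (1 / 4) ^ m * (1 / 4) ^ n * qq p i ^ 3) ∧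
        mass (t₀ / 2) T f X t₁ t₂ (cellD (max T 1) p V t₁ t₂ k m n i)
          ≤ C * ENNReal.ofReal (dl c₁ p j * 4 ^ m / qq p i) ∧
        mass (t₀ / 2) T f X t₁ t₂ (cellD (max T 1) p V t₁ t₂ k m n i)
          ≤ C * ENNReal.ofReal ((dl c₁ p j + (1 / 2) ^ k) * 4 ^ m / qq p i))

/-- A statement with explicit constants. -/
def UStay (T : ℝ) (f : ℝ → E3 → E3 → ℝ) (E B : ℝ → E3 → E3) (t₀ : ℝ) (C : ℝ≥0) (p₀ : ℕ) : Prop :=
    ∀ (th c₁ : ℝ) (p j : ℕ) (X V : ℝ → E3) (t₁ t₂ : ℝ), p₀ ≤ p →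
      Ctx T f E B t₀ th c₁ p j X V t₁ t₂ → ∀ k m l i n : ℕ,
      (m + 4 ≤ l → gd p j i ((1 / 2) ^ m) →
        mass (t₀ / 2) T f X t₁ t₂ (cellAN (max T 1) p V t₁ t₂ k m l i)
          ≤ C * ENNReal.ofReal (8 ^ m * (1 / 2) ^ k * KK c₁ p j i k / qq p i)) ∧
      (l + 4 ≤ m → gd p j i ((1 / 2) ^ l) →
        mass (t₀ / 2) T f X t₁ t₂ (cellAN (max T 1) p V t₁ t₂ k m l i)
          ≤ C * ENNReal.ofReal (4 ^ m * 2 ^ l * (1 / 2) ^ k * KK c₁ p j i k / qq p i)) ∧
      (m ≤ n + 4 → gd p j i ((1 / 2) ^ n) →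
        mass (t₀ / 2) T f X t₁ t₂ (cellD (max T 1) p V t₁ t₂ k m n i)
          ≤ C * ENNReal.ofReal (2 ^ m * 4 ^ n * (1 / 2) ^ k * KK c₁ p j i k / qq p i))

/-- A statement with explicit constants. -/
def UMass (T : ℝ) (f : ℝ → E3 → E3 → ℝ) (E B : ℝ → E3 → E3) (t₀ : ℝ) (C : ℝ≥0) (p₀ : ℕ) : Prop :=
    ∀ (th c₁ : ℝ) (p j : ℕ) (X V : ℝ → E3) (t₁ t₂ : ℝ), p₀ ≤ p →
      Ctx T f E B t₀ th c₁ p j X V t₁ t₂ → ∀ k m l i n : ℕ,
      (m + 4 ≤ l → mass (t₀ / 2) T f X t₁ t₂ (cellAN (max T 1) p V t₁ t₂ k m l i)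
          ≤ C * ENNReal.ofReal (nA c₁ p j i k m l)) ∧
      (l + 4 ≤ m → mass (t₀ / 2) T f X t₁ t₂ (cellAN (max T 1) p V t₁ t₂ k m l i)
          ≤ C * ENNReal.ofReal (nN c₁ p j i k m l)) ∧
      (m ≤ n + 4 → mass (t₀ / 2) T f X t₁ t₂ (cellD (max T 1) p V t₁ t₂ k m n i)
          ≤ C * ENNReal.ofReal (nD c₁ p j i k m n))

open Classical in
/-- A statement with explicit constants. -/
def UDT (T : ℝ) (f : ℝ → E3 → E3 → ℝ) (E B : ℝ → E3 → E3) (t₀ : ℝ) (C : ℝ≥0) (p₀ : ℕ) : Prop :=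
    ∀ (th c₁ : ℝ) (p j : ℕ) (X V : ℝ → E3) (t₁ t₂ : ℝ), p₀ ≤ p →
      Ctx T f E B t₀ th c₁ p j X V t₁ t₂ →
      pathInt (t₀ / 2) T f X t₁ t₂ (kerT j (Ar.ee p j) V)
        ≤ C * (∑' (k : ℕ) (m : ℕ) (l : ℕ) (i : ℕ), if rA p j i m l then
            ENNReal.ofReal (4 ^ k * tA p j i m l * nA c₁ p j i k m l) else 0)
        + C * (∑' (k : ℕ) (m : ℕ) (l : ℕ) (i : ℕ), if rN p j i m l then
            ENNReal.ofReal (4 ^ k * tN p j i m l * nN c₁ p j i k m l) else 0)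
        + C * (∑' (k : ℕ) (m : ℕ) (n : ℕ) (i : ℕ), if rD p j i m n then
            ENNReal.ofReal (4 ^ k * tD p j i m n * nD c₁ p j i k m n) else 0)

/-- A statement with explicit constants. -/
def UCs (T : ℝ) (f : ℝ → E3 → E3 → ℝ) (t₀ : ℝ) (C : ℝ≥0) : Prop :=
    ∀ (X : ℝ → E3) (t₁ t₂ : ℝ), t₀ ≤ t₁ → t₁ ≤ t₂ → t₂ < T →
      ContinuousOn X (Icc t₁ t₂) → ∀ (c : Set (ℝ × E3 × E3)), MeasurableSet c →
      ∀ (ν : ℝ≥0∞), (∀ s z, volume {v | (s, z, v) ∈ c} ≤ ν) →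
      ∀ (W : ℝ → E3 → ℝ≥0∞), Measurable (Function.uncurry W) →
      ∀ (A : Set (ℝ × E3)), MeasurableSet A → (∀ s z v, (s, z, v) ∈ c → (s, z) ∈ A) →
      pathInt (t₀ / 2) T f X t₁ t₂ (fun s z v => c.indicator (fun _ => W s z) (s, z, v))
        ≤ C * (∫⁻ s in Icc t₁ t₂, ∫⁻ z, A.indicator (fun _ => W s z ^ 2) (s, z)) ^ (1 / 2 : ℝ)
          * (ν * mass (t₀ / 2) T f X t₁ t₂ c) ^ (1 / 2 : ℝ)

theorem energy_bound_u (h : IsClassicalSolution T f E B) :
    UEn T f E B (2 * (energy0 f E B).toNNReal) := by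
  intro t ht
  have h1 := h.energy_le ht
  have hM : ((2 * (energy0 f E B).toNNReal : ℝ≥0) : ℝ≥0∞) = 2 * ENNReal.ofReal (energy0 f E B) := by
    push_cast
    rfl
  rw [hM]
  have h2 : ∫⁻ x, ENNReal.ofReal (‖E t x‖ ^ 2)
      ≤ 2 * ∫⁻ x, ENNReal.ofReal ((‖E t x‖ ^ 2 + ‖B t x‖ ^ 2) / 2) := by
    rw [← lintegral_const_mul' _ _ (by norm_num)]
    refine lintegral_mono fun x => ofReal_le_two_mul ?_
    nlinarith only []
  have h3 : ∫⁻ x, ENNReal.ofReal (‖B t x‖ ^ 2)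
      ≤ 2 * ∫⁻ x, ENNReal.ofReal ((‖E t x‖ ^ 2 + ‖B t x‖ ^ 2) / 2) := by
    rw [← lintegral_const_mul' _ _ (by norm_num)]
    refine lintegral_mono fun x => ofReal_le_two_mul ?_
    nlinarith only []
  have h4 : 2 * ∫⁻ x, ENNReal.ofReal ((‖E t x‖ ^ 2 + ‖B t x‖ ^ 2) / 2)
      ≤ 2 * ENNReal.ofReal (energy0 f E B) := by
    gcongr
    exact le_self_add.trans h1
  refine ⟨h2.trans h4, h3.trans h4, ?_⟩
  rw [h.lintegral_kin ht]
  refine (le_add_self.trans h1).trans ?_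
  rw [two_mul]
  exact le_self_add

theorem cone_flux_u (h : IsClassicalSolution T f E B) {ta : ℝ} (h0 : 0 < ta) :
    UFx T f E B ta (2 * (energy0 f E B).toNNReal) := by
  intro s hs x
  have hM : ((2 * (energy0 f E B).toNNReal : ℝ≥0) : ℝ≥0∞) = 2 * ENNReal.ofReal (energy0 f E B) := by
    push_cast
    rfl
  rw [hM]
  constructor
  · -- the particle part
    have h1 := Flux.particle_full h h0 hs.2 x
    have hr : Measurable fun p : E3 × E3 => ‖p.1 - x‖ := by (clear * -; fun_prop)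
    have hms : MeasurableSet {p : E3 × E3 | 0 < ‖p.1 - x‖ ∧ ‖p.1 - x‖ < s - ta} :=
      (measurableSet_lt measurable_const hr).inter (measurableSet_lt hr measurable_const)
    rw [← lintegral_indicator hms, Measure.volume_eq_prod, lintegral_prod _
      ((Flux.measurable_particle h s x).indicator hms).aemeasurable] at h1
    rw [← lintegral_add_left_eq_self _ x] at h1
    refine le_trans ?_ (h1.trans (by rw [two_mul]; exact le_self_add))
    unfold coneInt
    refine lintegral_mono_ae ?_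
    filter_upwards [Flux.ae_good_z (s - ta)] with z hz
    refine lintegral_mono fun v => ?_
    have hz0 : 0 < ‖z‖ := norm_pos_iff.2 hz.1
    by_cases hzs : ‖z‖ < s - ta
    · have hmem : (x + z, v) ∈ {p : E3 × E3 | 0 < ‖p.1 - x‖ ∧ ‖p.1 - x‖ < s - ta} := by
        simp only [mem_ofPred_eq, add_sub_cancel_left]
        exact ⟨hz0, hzs⟩
      rw [indicator_of_mem hmem]
      have ht : s - ‖z‖ ∈ Ioo 0 T := ⟨by linarith only [h0, hzs], by linarith only [hz0, hs.2]⟩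
      simp only [add_sub_cancel_left]
      rw [Flux.fp_trf ht]
      unfold fl Flux.fp
      simp only [add_sub_cancel_left]
      rw [if_pos ⟨by linarith only [hzs], ht.2⟩, ← ENNReal.ofReal_mul
        (mul_nonneg (q_pos _).le (Flux.al_dir_pos _ _).le)]
    · have hlt : s - ta < ‖z‖ := lt_of_le_of_ne (not_lt.1 hzs) (Ne.symm hz.2)
      unfold fl
      rw [if_neg (by rintro ⟨a, -⟩; linarith only [ta, s, z, hlt, a]), mul_zero]
      exact bot_le
  · -- the field part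
    have h1 := Flux.field_full h h0 hs.2 x
    have hr : Measurable fun y : E3 => ‖y - x‖ := by (clear * -; fun_prop)
    have hms : MeasurableSet {y : E3 | 0 < ‖y - x‖ ∧ ‖y - x‖ < s - ta} :=
      (measurableSet_lt measurable_const hr).inter (measurableSet_lt hr measurable_const)
    rw [← lintegral_indicator hms, ← lintegral_add_left_eq_self _ x] at h1
    have h2 := mul_le_mul_right h1 2
    rw [← lintegral_const_mul' _ _ (by norm_num)] at h2
    refine le_trans (lintegral_mono_ae ?_) h2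
    filter_upwards [Flux.ae_good_z (s - ta)] with z hz
    have hz0 : 0 < ‖z‖ := norm_pos_iff.2 hz.1
    by_cases hzs : ‖z‖ < s - ta
    · have hmem : x + z ∈ {y : E3 | 0 < ‖y - x‖ ∧ ‖y - x‖ < s - ta} := by
        simp only [mem_ofPred_eq, add_sub_cancel_left]
        exact ⟨hz0, hzs⟩
      have hmem2 : z ∈ Metric.closedBall (0 : E3) (s - ta) := by
        rw [mem_closedBall_zero_iff]
        exact hzs.le
      rw [indicator_of_mem hmem, indicator_of_mem hmem2]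
      have ht : s - ‖z‖ ∈ Ioo 0 T := ⟨by linarith only [h0, hzs], by linarith only [hz0, hs.2]⟩
      simp only [add_sub_cancel_left]
      have e1 : Flux.fa (Flux.tr T E) (Flux.tr T B) x (s - ‖z‖) (x + z) =
          Flux.fa E B x (s - ‖z‖) (x + z) := by
        unfold Flux.fa
        rw [Flux.tr_eq E ht, Flux.tr_eq B ht]
      rw [e1]
      have h3 := Flux.good_le E B x (s - ‖z‖) (x + z)
      rw [add_sub_cancel_left] at h3
      exact ofReal_le_two_mul h3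
    · have hlt : s - ta < ‖z‖ := lt_of_le_of_ne (not_lt.1 hzs) (Ne.symm hz.2)
      rw [indicator_of_notMem (s := Metric.closedBall (0 : E3) (s - ta)) (by
        rw [mem_closedBall_zero_iff, not_le]
        exact hlt)]
      exact bot_le

theorem sup_bound_u (h : IsClassicalSolution T f E B) {ta : ℝ} (h0 : 0 < ta) {F₀ : ℝ≥0}
    (hF : ∀ x v, f ta x v ≤ F₀) : USp T f ta F₀ := by
  intro t ht x v
  obtain ⟨X, V, -, -, hXt, hVt, -, -, hf⟩ := exists_characteristic h h0 ht.1 ht.2 x v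
  have h1 : f ta (X ta) (V ta) = f t x v := hf ta ⟨le_refl _, ht.1⟩
  rw [← h1]
  exact hF _ _

theorem counting_u (h : IsClassicalSolution T f E B) {M : ℝ≥0} (hM : UEn T f E B M) :
    UCnt T f E B M := by
  intro a b ha hab hb S hS ℓ Q hQ hchar
  have hsub : Icc a b ⊆ Ico 0 T := fun s hs => ⟨(ha.trans_le hs.1).le, hs.2.trans_lt hb⟩
  have haab : a ∈ Icc a b := ⟨le_rfl, hab⟩
  -- the support
  obtain ⟨R, hR⟩ := h.compact_support b ⟨(ha.trans_le hab).le, hb⟩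
  have hsupp : ∀ s ∈ Icc a b, ∀ x v, R < ‖x‖ → f s x v = 0 := by
    intro s hs x v hx
    by_contra hne
    have := (hR s ⟨(ha.trans_le hs.1).le, hs.2⟩ x v hne).1
    linarith only [hx, this]
  obtain ⟨e, β, K, hF, hagree, hex⟩ := exists_cut_field h ha hb (R + 2 * (b - a))
  have hK := hF.K_nonneg
  choose A hA hAτ using hex
  -- forward flow from time `a`
  set Φ : ℝ → E3 × E3 → E3 × E3 := fun τ z => A a haab z (projIcc a b hab τ) with hΦ
  have hΦe : ∀ τ ∈ Icc a b, ∀ z, Φ τ z = A a haab z τ := by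
    intro τ hτ z
    simp only [hΦ, projIcc_of_mem hab hτ]
  have hΦc : Continuous fun y : ℝ × (E3 × E3) => Φ y.1 y.2 := by
    have h1 := continuous_prod_of_continuous_lipschitzWith (fun y : (E3 × E3) × ℝ => Φ y.2 y.1)
      (Real.exp ((1 + 3 * K) * (b - a))).toNNReal ?_ ?_
    · exact h1.comp continuous_swap
    · intro z
      have hc : ContinuousOn (A a haab z) (Icc a b) := fun t ht =>
        (hA a haab z t ht).continuousWithinAt
      exact (continuousOn_iff_continuous_domRestrict.1 hc).comp continuous_projIcc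
    · intro τ
      refine LipschitzWith.of_dist_le_mul fun z z' => ?_
      set t : ℝ := (projIcc a b hab τ : ℝ) with ht
      have htm : t ∈ Icc a b := (projIcc a b hab τ).2
      have := (hA a haab z).dist_le hF (hA a haab z') htm
      rw [hAτ, hAτ] at this
      rw [Real.coe_toNNReal _ (Real.exp_pos _).le, mul_comm]
      refine this.trans ?_
      gcongr
      exact htm.2
  -- the forward flow inverts the backward flow
  have hinv : ∀ τ (hτ : τ ∈ Icc a b) z, Φ τ (A τ hτ z a) = z := by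
    intro τ hτ z
    rw [hΦe τ hτ]
    have := (hA a haab (A τ hτ z a)).dist_le hF (hA τ hτ z) hτ
    rw [hAτ, hAτ, dist_self, zero_mul] at this
    exact dist_le_zero.1 this
  -- position of the trajectories
  have hpos : ∀ z, ∀ τ ∈ Icc a b, ‖(A a haab z τ).1 - z.1‖ ≤ b - a := by
    intro z τ hτ
    have h1 : ∀ s ∈ Icc a b, HasDerivWithinAt (fun s => (A a haab z s).1)
        (u (A a haab z s).2) (Icc a b) s := fun s hs => (hA a haab z s hs).fst
    have h2 := (convex_Icc a b).norm_image_sub_le_of_norm_hasDerivWithin_le (C := 1) h1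
      (fun s _ => (norm_u_lt_one _).le) haab hτ
    rw [hAτ, one_mul, Real.norm_eq_abs] at h2
    refine h2.trans ?_
    rw [abs_of_nonneg (by linarith only [hτ.1])]
    linarith only [hτ.2]
  -- true characteristics
  have hchar' : ∀ z : E3 × E3, ‖z.1‖ ≤ R + (b - a) →
      IsChar E B (fun s => (A a haab z s).1) (fun s => (A a haab z s).2) a b := by
    intro z hz
    refine ⟨fun s hs => (hA a haab z s hs).fst, fun s hs => ?_⟩
    have h1 : HasDerivWithinAt (fun s => (A a haab z s).2)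
        (lor (e s (A a haab z s).1) (β s (A a haab z s).1) (A a haab z s).2) (Icc a b) s :=
      (hA a haab z s hs).snd
    have h2 : ‖(A a haab z s).1‖ ≤ R + 2 * (b - a) := by
      have h3 := hpos z s hs
      have h4 := norm_le_norm_add_norm_sub' (A a haab z s).1 z.1
      linarith only [hz, h3, h4]
    rw [(hagree s _ h2).1, (hagree s _ h2).2] at h1
    exact h1
  have hconst : ∀ z, ∀ τ ∈ Icc a b, f τ (Φ τ z).1 (Φ τ z).2 = f a z.1 z.2 := by
    intro z τ hτ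
    rw [hΦe τ hτ]
    rcases le_or_gt ‖z.1‖ (R + (b - a)) with hz | hz
    · have h1 := h.const_along ha hb (hchar' z hz).hX (hchar' z hz).hV hτ haab
      simp only [hAτ] at h1
      exact h1
    · have h3 := hpos z τ hτ
      have h4 := norm_le_norm_add_norm_sub (A a haab z τ).1 z.1
      rw [hsupp τ hτ _ _ (by linarith only [hz, h3, h4]), hsupp a haab _ _ (by linarith only [hab, hz])]
  -- the integrand
  set g : ℝ × (E3 × E3) → ℝ≥0∞ := fun y =>
    ENNReal.ofReal (f (projIcc a b hab y.1) y.2.1 y.2.2) with hg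
  have hgm : Measurable g := by
    apply Measurable.ennreal_ofReal
    apply Continuous.measurable
    have h1 : Continuous fun y : ℝ × (E3 × E3) => ((projIcc a b hab y.1 : ℝ), y.2) :=
      ((continuous_subtype_val.comp continuous_projIcc).comp continuous_fst).prodMk continuous_snd
    exact h.f_contDiff.continuousOn.comp_continuous h1
      (fun y => ⟨hsub (projIcc a b hab y.1).2, mem_univ _⟩)
  have hge : ∀ τ ∈ Icc a b, ∀ z : E3 × E3, g (τ, z) = ENNReal.ofReal (f τ z.1 z.2) := by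
    intro τ hτ z
    simp only [hg, projIcc_of_mem hab hτ]
  set G : ℝ × (E3 × E3) → ℝ≥0∞ := S.indicator g with hGdef
  have hGm : Measurable G := hgm.indicator hS
  have e1 : ∫⁻ τ in Icc a b, ∫⁻ x, ∫⁻ v, S.indicator (fun _ => ENNReal.ofReal (f τ x v)) (τ, x, v)
      = ∫⁻ τ in Icc a b, ∫⁻ z, G (τ, z) ∂((volume : Measure E3).prod (volume : Measure E3)) := by
    refine setLIntegral_congr_fun measurableSet_Icc fun τ hτ => ?_
    have hGτ : Measurable fun z : E3 × E3 => G (τ, z) :=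
      hGm.comp (measurable_const.prodMk measurable_id)
    rw [lintegral_prod _ hGτ.aemeasurable]
    refine lintegral_congr fun x => lintegral_congr fun v => ?_
    simp only [hGdef, indicator]
    split_ifs
    · exact (hge τ hτ (x, v)).symm
    · rfl
  rw [e1]
  -- Liouville
  have e2 : ∫⁻ τ in Icc a b, ∫⁻ z, G (τ, z) ∂((volume : Measure E3).prod (volume : Measure E3))
      ≤ ∫⁻ τ in Icc a b, ∫⁻ z, G (τ, Φ τ z) ∂((volume : Measure E3).prod (volume : Measure E3)) := by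
    refine setLIntegral_mono' measurableSet_Icc fun τ hτ => ?_
    have h1 := (hF.back_nonExp hτ (hA τ hτ) (hAτ τ hτ)).lintegral_le
      (F := fun z => G (τ, Φ τ z)) (hGm.comp (measurable_const.prodMk
        (hΦc.comp (continuous_const.prodMk continuous_id)).measurable))
    refine le_trans (le_of_eq ?_) h1
    refine lintegral_congr fun z => ?_
    rw [hinv]
  refine e2.trans ?_
  have hGΦ : Measurable fun y : ℝ × (E3 × E3) => G (y.1, Φ y.1 y.2) :=
    hGm.comp (measurable_fst.prodMk hΦc.measurable)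
  rw [lintegral_lintegral_swap (f := fun τ z => G (τ, Φ τ z)) hGΦ.aemeasurable]
  -- bound for each trajectory
  have e3 : ∀ z : E3 × E3, ∫⁻ τ in Icc a b, G (τ, Φ τ z)
      ≤ ℓ * ENNReal.ofReal Q⁻¹ * ENNReal.ofReal (q z.2 * f a z.1 z.2) := by
    intro z
    have h1 : ∫⁻ τ in Icc a b, G (τ, Φ τ z)
        = ∫⁻ τ in Icc a b, {τ | (τ, Φ τ z) ∈ S}.indicator
            (fun _ => ENNReal.ofReal (f a z.1 z.2)) τ := by
      refine setLIntegral_congr_fun measurableSet_Icc fun τ hτ => ?_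
      by_cases hm : (τ, Φ τ z) ∈ S
      · rw [hGdef, indicator_of_mem hm, indicator_of_mem (show τ ∈ {τ | (τ, Φ τ z) ∈ S} from hm),
          hge τ hτ, hconst z τ hτ]
      · rw [hGdef, indicator_of_notMem hm,
          indicator_of_notMem (show τ ∉ {τ | (τ, Φ τ z) ∈ S} from hm)]
    have hSm : MeasurableSet {τ | (τ, Φ τ z) ∈ S} := by
      have hc : Continuous fun τ => (τ, Φ τ z) :=
        continuous_id.prodMk (hΦc.comp (continuous_id.prodMk continuous_const))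
      exact hc.measurable hS
    rw [h1, lintegral_indicator hSm, setLIntegral_const, Measure.restrict_apply hSm]
    by_cases hf0 : f a z.1 z.2 = 0
    · rw [hf0, ENNReal.ofReal_zero, zero_mul]
      exact zero_le
    have hz : ‖z.1‖ ≤ R + (b - a) := by
      have := (hR a ⟨ha.le, hab⟩ _ _ hf0).1
      linarith only [hab, this]
    obtain ⟨k1, k2⟩ := hchar _ _ (hchar' z hz) (by simpa only [hAτ] using hf0)
    have hset : {τ | (τ, Φ τ z) ∈ S} ∩ Icc a b
        = {τ | τ ∈ Icc a b ∧ (τ, (A a haab z τ).1, (A a haab z τ).2) ∈ S} := by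
      ext τ
      simp only [mem_inter_iff, mem_ofPred_eq]
      constructor
      · rintro ⟨h2, h3⟩
        rw [hΦe τ h3] at h2
        exact ⟨h3, h2⟩
      · rintro ⟨h3, h2⟩
        rw [hΦe τ h3]
        exact ⟨h2, h3⟩
    rw [hset]
    by_cases hne : ∃ τ ∈ Icc a b, (τ, (A a haab z τ).1, (A a haab z τ).2) ∈ S
    · have h5 := k2 hne
      simp only [hAτ] at h5
      have hfn : 0 ≤ f a z.1 z.2 := h.f_nonneg a (hsub haab) _ _
      have h6 : ENNReal.ofReal (f a z.1 z.2)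
          ≤ ENNReal.ofReal Q⁻¹ * ENNReal.ofReal (q z.2 * f a z.1 z.2) := by
        rw [← ENNReal.ofReal_mul (by positivity)]
        refine ENNReal.ofReal_le_ofReal ?_
        rw [← mul_assoc]
        refine le_mul_of_one_le_left hfn ?_
        rw [inv_mul_eq_div, one_le_div hQ]
        exact h5
      calc ENNReal.ofReal (f a z.1 z.2) * _
          ≤ (ENNReal.ofReal Q⁻¹ * ENNReal.ofReal (q z.2 * f a z.1 z.2)) * ℓ := by (clear * - k1 h6; gcongr)
        _ = _ := by ring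
    · have h7 : {τ | τ ∈ Icc a b ∧ (τ, (A a haab z τ).1, (A a haab z τ).2) ∈ S} = ∅ := by
        ext τ
        simp only [mem_ofPred_eq, mem_empty_iff_false, iff_false]
        rintro ⟨h8, h9⟩
        exact hne ⟨τ, h8, h9⟩
      rw [h7, measure_empty, mul_zero]
      exact zero_le
  refine (lintegral_mono e3).trans ?_
  have hqm : Measurable fun z : E3 × E3 => ENNReal.ofReal (q z.2 * f a z.1 z.2) :=
    ((continuous_q.comp continuous_snd).mul (h.f_slice (hsub haab)).continuous).measurable.ennreal_ofReal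
  rw [lintegral_const_mul _ hqm, lintegral_prod _ hqm.aemeasurable]
  calc ℓ * ENNReal.ofReal Q⁻¹ * _ ≤ ℓ * ENNReal.ofReal Q⁻¹ * M := by
        gcongr
        exact (hM a (hsub haab)).2.2
    _ = _ := by ring

namespace MSt

/-- A statement with explicit constants. -/
def UCore (T : ℝ) (f : ℝ → E3 → E3 → ℝ) (E B : ℝ → E3 → E3) (t₀ : ℝ) (M : ℝ≥0) (p₀ : ℕ) : Prop :=
    ∀ (th c₁ : ℝ) (p j : ℕ) (X V : ℝ → E3) (t₁ t₂ : ℝ), p₀ ≤ p →
      Ctx T f E B t₀ th c₁ p j X V t₁ t₂ → ∀ (R φ : ℝ) (m i : ℕ) (c : Set (ℝ × E3 × E3)),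
      MeasurableSet c → 0 < R → 0 < φ → 12 * i ≤ 5 * p → Ar.ee p i ≤ φ / 64 →
      Ar.ee p i ≤ 1 / 16 → Ar.ee p j ≤ φ / 128 → Cell R p m i φ V t₁ t₂ c →
      mass (t₀ / 2) T f X t₁ t₂ c ≤ M * ENNReal.ofReal (2 * 4 ^ m *
        (1 + (dl c₁ p j + R) / dl c₁ p i) * ell R φ m * (qq p i / 4)⁻¹)

lemma core_u (h : IsClassicalSolution T f E B) {t₀ : ℝ} (h0 : 0 < t₀) {M : ℝ≥0}
    (hM : UCnt T f E B M) {R0 : ℝ}
    (hR0 : ∀ s ∈ Icc 0 t₀, ∀ x v, f s x v ≠ 0 → ‖x‖ ≤ R0 ∧ ‖v‖ ≤ R0) {p₀ : ℕ}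
    (hp₀ : 4 * (1 + R0) ≤ p₀) : UCore T f E B t₀ M p₀ := by
  intro th c₁ p j X V t₁ t₂ hp ctx R φ m i c hcm hR hφ hi hei hei' hej hc
  have hqi := qq_pos' p i
  have hdi : 0 < dl c₁ p i := by
    unfold dl
    have := ctx.hc₁
    positivity
  have hdj : 0 < dl c₁ p j := by
    unfold dl
    have := ctx.hc₁
    positivity
  have h2T : t₂ < T := ctx.h2.trans_lt ctx.hth
  obtain ⟨S, hSm, hS, hle⟩ := cell_transfer h (ta := t₀ / 2) (by linarith only [h0]) (X := X)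
    (U := fun s => u (V s)) ctx.h12 h2T ctx.hchar.hX
    (continuous_u.comp_continuousOn (hasDeriv_of_char ctx.hchar)) (fun s _ => norm_u_lt_one _)
    hR c hcm (fun y hy => (hc y hy).2.1)
  set g : ℝ → ℝ≥0∞ := fun τ => ∫⁻ x, ∫⁻ v, S.indicator (fun _ => ENNReal.ofReal (f τ x v)) (τ, x, v)
    with hg
  have hℓ0 : 0 ≤ ell R φ m := by unfold ell; (clear * - hR hφ; positivity)
  -- early times do not contribute
  have hg0 : ∀ τ, τ < t₀ → g τ = 0 := by
    intro τ hτ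
    have hz : ∀ x v, S.indicator (fun _ => ENNReal.ofReal (f τ x v)) (τ, x, v) = 0 := by
      intro x v
      by_cases hy : (τ, x, v) ∈ S
      · rw [indicator_of_mem hy]
        obtain ⟨hta, _, s, _, _, hsc⟩ := hS _ hy
        have hq1 := (hc _ hsc).2.2.2.1.1
        simp only at hta hq1
        by_cases hne : f τ x v = 0
        · rw [hne, ENNReal.ofReal_zero]
        · exfalso
          have h1 := (hR0 τ ⟨by linarith only [hτ, hta], hτ.le⟩ x v hne).2
          have h2 := q_le_one_add_norm v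
          have h3 := qq_large hi
          have h4 : (p₀ : ℝ) ≤ p := by exact_mod_cast hp
          linarith only [hp₀, hq1, h1, h2, h3, h4]
      · rw [indicator_of_notMem hy]
    simp only [hg, hz, lintegral_zero]
  have hmain : ∫⁻ τ in Icc (max (t₀ / 2) (t₁ - R)) (t₂ - R / 2), g τ
      ≤ ENNReal.ofReal (1 + (dl c₁ p j + R) / dl c₁ p i) *
        (ENNReal.ofReal (ell R φ m) * M * ENNReal.ofReal (qq p i / 4)⁻¹) := by
    by_cases hlt : max t₀ (t₁ - R) ≤ t₂ - R / 2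
    · have h1 : ∫⁻ τ in Icc (max (t₀ / 2) (t₁ - R)) (t₂ - R / 2), g τ
          ≤ ∫⁻ τ in Icc (max t₀ (t₁ - R)) (t₂ - R / 2), g τ := by
        rw [← lintegral_indicator measurableSet_Icc, ← lintegral_indicator measurableSet_Icc]
        refine lintegral_mono fun τ => ?_
        by_cases hτ : τ ∈ Icc (max (t₀ / 2) (t₁ - R)) (t₂ - R / 2)
        · rw [indicator_of_mem hτ]
          by_cases hτ0 : τ < t₀
          · rw [hg0 τ hτ0]
            exact zero_le
          · rw [indicator_of_mem]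
            exact ⟨max_le (not_lt.1 hτ0) ((le_max_right _ _).trans hτ.1), hτ.2⟩
        · rw [indicator_of_notMem hτ]
          exact zero_le
      refine h1.trans ?_
      refine (split_windows g hlt hdi
        (ENNReal.ofReal (ell R φ m) * M * ENNReal.ofReal (qq p i / 4)⁻¹) ?_).trans ?_
      · intro a b ha hab hb hlen
        have ha0 : t₀ ≤ a := (le_max_left _ _).trans ha
        have hbt : b ≤ t₂ := by linarith only [hR, hb]
        exact hM a b (h0.trans_le ha0) hab (hbt.trans_lt h2T) S hSm _ _ (by positivity)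
          (fun X' V' hch hf => window ctx hR hφ hi hei hei' hej hc
            (fun y hy => (hS y hy).2.2) ha0 hab (hbt.trans ctx.h2) hlen hch hf)
      · refine mul_le_mul_left ?_ _
        apply ENNReal.ofReal_le_ofReal
        have h2 : t₂ - R / 2 - max t₀ (t₁ - R) ≤ dl c₁ p j + R := by
          have h3 := le_max_right t₀ (t₁ - R)
          have h4 := ctx.hlen
          linarith only [hR, h3, h4]
        (clear * - hdi h2; gcongr)
    · have h1 : ∫⁻ τ in Icc (max (t₀ / 2) (t₁ - R)) (t₂ - R / 2), g τ = 0 := by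
        rw [← lintegral_indicator measurableSet_Icc]
        have hz : ∀ τ, (Icc (max (t₀ / 2) (t₁ - R)) (t₂ - R / 2)).indicator g τ = 0 := by
          intro τ
          by_cases hτ : τ ∈ Icc (max (t₀ / 2) (t₁ - R)) (t₂ - R / 2)
          · rw [indicator_of_mem hτ]
            apply hg0
            by_contra hcon
            apply hlt
            have h2 : max t₀ (t₁ - R) ≤ τ :=
              max_le (not_lt.1 hcon) ((le_max_right _ _).trans hτ.1)
            exact h2.trans hτ.2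
          · rw [indicator_of_notMem hτ]
        simp only [hz, lintegral_zero]
      rw [h1]
      exact zero_le
  refine (mass_le_path (fun y hy => (hc y hy).2.2.1)).trans ?_
  refine (mul_le_mul_right (hle.trans hmain) _).trans (le_of_eq ?_)
  have hw0 : 0 ≤ 1 + (dl c₁ p j + R) / dl c₁ p i := by positivity
  have hm0 : (0 : ℝ) ≤ 2 * 4 ^ m := by positivity
  generalize (2 * 4 ^ m : ℝ) = A at hm0 ⊢
  generalize 1 + (dl c₁ p j + R) / dl c₁ p i = W at hw0 ⊢
  rw [ENNReal.ofReal_mul (mul_nonneg (mul_nonneg hm0 hw0) hℓ0),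
    ENNReal.ofReal_mul (mul_nonneg hm0 hw0), ENNReal.ofReal_mul hm0]
  ring

end MSt

open MSt in
theorem mass_stay_u {t₀ : ℝ} {M : ℝ≥0} {p₀ : ℕ} (hcore : UCore T f E B t₀ M p₀) :
    UStay T f E B t₀ (M * (88000 * (max T 1) ^ 2).toNNReal) p₀ := by
  intro th c₁ p j X V t₁ t₂ hp ctx k m l i n
  have hT1 : 1 ≤ max T 1 := le_max_right _ _
  have hT0 : 0 < max T 1 := by linarith only [hT1]
  have hV := hasDeriv_of_char ctx.hchar
  have hR : 0 < max T 1 * (1 / 2) ^ k := by positivity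
  refine ⟨?_, ?_, ?_⟩
  · intro hml hg
    obtain ⟨he1, he2, he3⟩ := gd_small hg
    have hpos : (0 : ℝ) < (1 / 2) ^ m := by positivity
    refine (hcore th c₁ p j X V t₁ t₂ hp ctx (max T 1 * (1 / 2) ^ k) ((1 / 2) ^ m / 2) m i _
      (MSt.measurableSet_cellAN ctx.h12 hV k m l i) hR (by positivity) hg.1 (by linarith only [he1, hpos]) he3
      (by linarith only [he2, hpos]) (cell_A ctx hT0 hml hg)).trans ?_
    refine fin_le ctx.hc₁ hT1 (by positivity) (ell_AN hR le_rfl) ?_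
    rw [two_pow_sq, two_pow_cube]
    have : (0 : ℝ) < (2 ^ m) ^ 3 := by positivity
    nlinarith only [this]
  · intro hml hg
    obtain ⟨he1, he2, he3⟩ := gd_small hg
    have hpos : (0 : ℝ) < (1 / 2) ^ l := by positivity
    refine (hcore th c₁ p j X V t₁ t₂ hp ctx (max T 1 * (1 / 2) ^ k) ((1 / 2) ^ l / 2) m i _
      (MSt.measurableSet_cellAN ctx.h12 hV k m l i) hR (by positivity) hg.1 (by linarith only [he1, hpos]) he3
      (by linarith only [he2, hpos]) (cell_N ctx hT0 hml hg)).trans ?_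
    refine fin_le ctx.hc₁ hT1 (by positivity) (ell_AN hR (by omega)) ?_
    have : (0 : ℝ) < 4 ^ m * 2 ^ l := by positivity
    nlinarith only [this]
  · intro hmn hg
    obtain ⟨he1, he2, he3⟩ := gd_small hg
    have hpos : (0 : ℝ) < (1 / 2) ^ n := by positivity
    refine (hcore th c₁ p j X V t₁ t₂ hp ctx (max T 1 * (1 / 2) ^ k) ((1 / 2) ^ n) m i _
      (MSt.measurableSet_cellD ctx.h12 hV k m n i) hR (by positivity) hg.1 (by linarith only [he1, hpos]) he3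
      (by linarith only [he2, hpos]) cell_D).trans ?_
    refine fin_le ctx.hc₁ hT1 (by positivity) (ell_D hR hmn) ?_
    have h1 : (4 : ℝ) ^ m * (10720 * (4 ^ n * (1 / 2) ^ m)) = 10720 * (2 ^ m * 4 ^ n) := by
      rw [half_inv, two_pow_sq m]
      field_simp
    rw [h1]
    have : (0 : ℝ) < 2 ^ m * 4 ^ n := by positivity
    linarith only [this]

open MB in
theorem mass_basic_u (h : IsClassicalSolution T f E B) {t₀ : ℝ} (h0 : 0 < t₀) {F₀ M Me Cs Cm Cr C : ℝ≥0}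
    (hF : USp T f (t₀ / 2) F₀) (hM : UFx T f E B (t₀ / 2) M) (hMe : UEn T f E B Me)
    (hCs : ∀ (b : E3), ‖b‖ ≤ 1 → ∀ R ξ : ℝ, 0 < R → 0 ≤ ξ →
    volume {z : E3 | z ≠ 0 ∧ ‖z‖ ≤ R ∧ al (dir z) b ≤ ξ} ≤ Cs * ENNReal.ofReal (R ^ 3 * ξ))
    (hCm : ∀ (w : E3), ‖w‖ = 1 → ∀ Q ξ : ℝ, 0 < Q → 0 ≤ ξ →
    volume {v : E3 | q v ≤ Q ∧ al w (u v) ≤ ξ} ≤ Cm * ENNReal.ofReal (Q ^ 3 * ξ))
    (hCr : ∀ (b : E3) (Q φ : ℝ), 0 < Q → 0 ≤ φ →
    volume {v : E3 | q v ≤ Q ∧ ‖u v - b‖ ≤ φ} ≤ Cr * ENNReal.ofReal (Q ^ 3 * φ ^ 2))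
    (hVol : (F₀ : ℝ) * (Cm + Cr) * Cs * 8 * (max T 1) ^ 3 ≤ C) (hFl : 256 * (M : ℝ) ≤ C)
    (hSl : 4 * (Me : ℝ) * (max T 1) ≤ C) : UBasic T f E B t₀ C := by
  have hta : 0 < t₀ / 2 := by linarith only [h0]
  unfold UBasic
  set T₁ : ℝ := max T 1 with hT₁
  have hT1 : 1 ≤ T₁ := le_max_right _ _
  have hTp : 0 < T₁ := by linarith only [hT1]
  intro th c₁ p j X V t₁ t₂ hc k m l i n
  have hdl : 0 < dl c₁ p j := by
    have := hc.hc₁
    unfold dl
    (clear * - this; positivity)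
  have hlen := hc.hlen
  have h12 := hc.h12
  have hqi := qq_pos p i
  have hR : 0 < T₁ * (1 / 2 : ℝ) ^ k := by positivity
  have hR2 : T₁ * (1 / 2 : ℝ) ^ k / 2 = T₁ * (1 / 2 : ℝ) ^ (k + 1) := by ring
  have hz0 : ∀ z : E3, shellI T₁ k z → z ≠ 0 := by
    intro z hz h0
    have h1 := hz.1
    rw [h0, norm_zero] at h1
    have : 0 < T₁ * (1 / 2 : ℝ) ^ (k + 1) := by positivity
    linarith only [hR, hR2, h1]
  have ht1 : t₀ / 2 ≤ t₁ := by have := hc.ht₁; linarith only [h0, this]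
  have ht2 : t₂ < T := hc.h2.trans_lt hc.hth
  have hM' := fun s hs x => (hM s hs x).1
  have hMe' := fun t ht => (hMe t ht).2.2
  set A : ℝ → Set E3 := fun s =>
    {z | z ≠ 0 ∧ ‖z‖ ≤ T₁ * (1 / 2) ^ k ∧ al (dir z) (u (V s)) ≤ 2 * (1 / 4) ^ m} with hA
  have hAv : ∀ s ∈ Icc t₁ t₂, volume (A s)
      ≤ Cs * ENNReal.ofReal ((T₁ * (1 / 2) ^ k) ^ 3 * (2 * (1 / 4) ^ m)) :=
    fun s _ => hCs (u (V s)) (norm_u_lt_one (V s)).le _ _ hR (by positivity)
  have h8 : (1 / 8 : ℝ) ^ k = ((1 / 2) ^ k) ^ 3 := by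
    rw [← pow_mul, mul_comm, pow_mul]
    norm_num
  have h4n : (1 / 4 : ℝ) ^ n = ((1 / 2) ^ n) ^ 2 := by
    rw [← pow_mul, mul_comm, pow_mul]
    norm_num
  have hinv4 : ∀ a : ℕ, (1 / 4 : ℝ) ^ a * 4 ^ a = 1 := by
    intro a
    rw [← mul_pow]
    norm_num
  -- slices
  have hslice : ∀ c : Set (ℝ × E3 × E3), (∀ s ∈ Icc t₁ t₂, ∀ z v, (s, z, v) ∈ c →
      shellI T₁ k z ∧ alI m (al (dir z) (u (V s))) ∧ qI p i (q v)) →
      mass (t₀ / 2) T f X t₁ t₂ c
        ≤ C * ENNReal.ofReal ((dl c₁ p j + (1 / 2) ^ k) * 4 ^ m / qq p i) := by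
    intro c hcc
    have h1 := mass_le_slice h hta hMe' h12 hc.hchar c (K := 4 ^ (m + 1) / 2) (Q := qq p i / 2)
      (R := T₁ * (1 / 2) ^ k) (by positivity) (by positivity) hR (by
        intro s hs z v hv
        obtain ⟨g1, g2, g3⟩ := hcc s hs z v hv
        refine ⟨?_, by rw [hR2]; exact g1.1, g1.2, g3.1⟩
        have g4 := g2.1
        have g5 := hinv4 (m + 1)
        have g6 : (0 : ℝ) < 4 ^ (m + 1) := by positivity
        nlinarith only [g4, g5, g6])
    refine h1.trans ?_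
    rw [← ENNReal.ofReal_coe_nnreal, ← ENNReal.ofReal_coe_nnreal (p := C),
      ← ENNReal.ofReal_mul (by positivity), ← ENNReal.ofReal_mul (by positivity),
      ← ENNReal.ofReal_mul (by (clear * - hqi; positivity)), ← ENNReal.ofReal_mul (by (clear * -; positivity))]
    refine ENNReal.ofReal_le_ofReal ?_
    have g1 : (4 : ℝ) ^ (m + 1) / 2 * ((qq p i / 2)⁻¹ * Me) * (t₂ - t₁ + T₁ * (1 / 2) ^ k / 2)
        = 4 * Me * (t₂ - t₁ + T₁ * (1 / 2) ^ k / 2) * 4 ^ m / qq p i := by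
      rw [pow_succ]
      (clear * - hqi; field_simp)
    rw [g1]
    have g2 : t₂ - t₁ + T₁ * (1 / 2) ^ k / 2 ≤ T₁ * (dl c₁ p j + (1 / 2) ^ k) := by
      have g3 : (0 : ℝ) < (1 / 2) ^ k := by positivity
      nlinarith only [hlen, hR, mul_nonneg (sub_nonneg.2 hT1) hdl.le]
    calc 4 * (Me : ℝ) * (t₂ - t₁ + T₁ * (1 / 2) ^ k / 2) * 4 ^ m / qq p i
        ≤ 4 * (Me : ℝ) * (T₁ * (dl c₁ p j + (1 / 2) ^ k)) * 4 ^ m / qq p i := by (clear * - hqi g2; gcongr)
      _ = (4 * Me * T₁) * ((dl c₁ p j + (1 / 2) ^ k) * 4 ^ m / qq p i) := by ring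
      _ ≤ C * ((dl c₁ p j + (1 / 2) ^ k) * 4 ^ m / qq p i) := by (clear * - hSl hdl hqi; gcongr)
  -- fluxes
  have hflux : ∀ (c : Set (ℝ × E3 × E3)) (a b : ℕ), a ≤ b + 3 → (∀ s ∈ Icc t₁ t₂, ∀ z v,
      (s, z, v) ∈ c → (∃ a' : ℕ, a' ≤ a ∧ alI a' (al (dir z) (u v))) ∧ qI p i (q v)) →
      mass (t₀ / 2) T f X t₁ t₂ c ≤ C * ENNReal.ofReal (dl c₁ p j * 4 ^ b / qq p i) := by
    intro c a b hab hcc
    have h1 := mass_le_flux hM' X ht1 ht2 c (K := 4 ^ (b + 4) / qq p i) (by positivity) (by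
        intro s hs z v hv
        obtain ⟨⟨a', ha', g2⟩, g3⟩ := hcc s hs z v hv
        have g4 : 2 * (1 / 4 : ℝ) ^ (b + 4) ≤ al (dir z) (u v) := by
          refine le_trans ?_ g2.1.le
          have : (1 / 4 : ℝ) ^ (b + 4) ≤ (1 / 4 : ℝ) ^ (a' + 1) :=
            pow_le_pow_of_le_one (by norm_num) (by norm_num) (by omega)
          linarith only [this]
        have g5 := hinv4 (b + 4)
        have g6 : (0 : ℝ) < 4 ^ (b + 4) := by positivity
        have g7 : (qq p i / 2) * (2 * (1 / 4 : ℝ) ^ (b + 4)) ≤ q v * al (dir z) (u v) := by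
          have := q_pos v
          have := g3.1
          gcongr
        calc (1 : ℝ) = 4 ^ (b + 4) / qq p i * ((qq p i / 2) * (2 * (1 / 4 : ℝ) ^ (b + 4))) := by
              field_simp
              linarith only [g5]
          _ ≤ _ := by (clear * - hqi g7; gcongr))
    refine h1.trans ?_
    rw [← ENNReal.ofReal_coe_nnreal, ← ENNReal.ofReal_coe_nnreal (p := C),
      ← ENNReal.ofReal_mul (by positivity), ← ENNReal.ofReal_mul (by (clear * - hqi; positivity)),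
      ← ENNReal.ofReal_mul (by positivity)]
    refine ENNReal.ofReal_le_ofReal ?_
    calc (4 : ℝ) ^ (b + 4) / qq p i * M * (t₂ - t₁)
        ≤ (4 : ℝ) ^ (b + 4) / qq p i * M * dl c₁ p j := by (clear * - hlen hqi; gcongr)
      _ = (256 * M) * (dl c₁ p j * 4 ^ b / qq p i) := by
          rw [pow_add]
          ring
      _ ≤ C * (dl c₁ p j * 4 ^ b / qq p i) := by (clear * - hFl hdl hqi; gcongr)
  -- volumes
  have hvol : ∀ (c : Set (ℝ × E3 × E3)) (D : ℝ≥0) (x : ℝ), D ≤ Cm + Cr → 0 ≤ x →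
      (∀ s ∈ Icc t₁ t₂, ∀ z v, (s, z, v) ∈ c →
        shellI T₁ k z ∧ alI m (al (dir z) (u (V s)))) →
      (∀ s ∈ Icc t₁ t₂, ∀ z, z ≠ 0 →
        volume {v | (s, z, v) ∈ c} ≤ D * ENNReal.ofReal (qq p i ^ 3 * (4 * x))) →
      mass (t₀ / 2) T f X t₁ t₂ c
        ≤ C * ENNReal.ofReal (dl c₁ p j * (1 / 8) ^ k * (1 / 4) ^ m * x * qq p i ^ 3) := by
    intro c D x hD hx hcc hvv
    have h1 := mass_le_vol hF X t₁ t₂ c A _ _
      (fun s hs z v hv => by
        obtain ⟨g1, g2⟩ := hcc s hs z v hv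
        exact ⟨hz0 z g1, g1.2, g2.2⟩)
      (fun s hs z hz => hvv s hs z hz.1) hAv
    refine h1.trans ?_
    simp only [← ENNReal.ofReal_coe_nnreal]
    rw [← ENNReal.ofReal_mul (by positivity), ← ENNReal.ofReal_mul (by positivity),
      ← ENNReal.ofReal_mul (by positivity), ← ENNReal.ofReal_mul (by (clear * - hqi hx; positivity)),
      ← ENNReal.ofReal_mul (by (clear * - T hqi hx; positivity)), ← ENNReal.ofReal_mul (by positivity)]
    refine ENNReal.ofReal_le_ofReal ?_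
    have hD' : (D : ℝ) ≤ Cm + Cr := by exact_mod_cast hD
    calc (F₀ : ℝ) * (D * (qq p i ^ 3 * (4 * x)))
          * (Cs * ((T₁ * (1 / 2) ^ k) ^ 3 * (2 * (1 / 4) ^ m))) * (t₂ - t₁)
        ≤ (F₀ : ℝ) * ((Cm + Cr) * (qq p i ^ 3 * (4 * x)))
          * (Cs * ((T₁ * (1 / 2) ^ k) ^ 3 * (2 * (1 / 4) ^ m))) * dl c₁ p j := by (clear * - T hlen h12 hqi hx hD'; gcongr)
      _ = (F₀ * (Cm + Cr) * Cs * 8 * T₁ ^ 3)
          * (dl c₁ p j * ((1 / 2) ^ k) ^ 3 * (1 / 4) ^ m * x * qq p i ^ 3) := by ring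
      _ ≤ C * (dl c₁ p j * (1 / 8) ^ k * (1 / 4) ^ m * x * qq p i ^ 3) := by
          rw [h8]
          (clear * - hVol hdl hqi hx; gcongr)
  refine ⟨⟨?_, ?_, ?_⟩, ?_, ?_, ?_⟩
  · refine hvol _ Cm ((1 / 4) ^ l) (by simp) (by positivity) ?_ ?_
    · rintro s hs z v ⟨-, g1, g2, -, -⟩
      exact ⟨g1, g2⟩
    · intro s hs z hz
      refine (measure_mono ?_).trans ((hCm (dir z) (norm_dir hz) (qq p i) (2 * (1 / 4) ^ l) hqi
        (by positivity)).trans ?_)
      · rintro v ⟨-, -, -, g3, g4⟩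
        exact ⟨g4.2, g3.2⟩
      · gcongr
        norm_num
  · refine hflux _ l l (by omega) ?_
    rintro s hs z v ⟨-, -, -, g3, g4⟩
    exact ⟨⟨l, le_rfl, g3⟩, g4⟩
  · refine hslice _ ?_
    rintro s hs z v ⟨-, g1, g2, -, g4⟩
    exact ⟨g1, g2, g4⟩
  · refine hvol _ Cr ((1 / 4) ^ n) (by simp) (by positivity) ?_ ?_
    · rintro s hs z v ⟨-, g1, g2, -, -, -⟩
      exact ⟨g1, g2⟩
    · intro s hs z hz
      refine (measure_mono ?_).trans ((hCr (u (V s)) (qq p i) (2 * (1 / 2) ^ n) hqi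
        (by positivity)).trans ?_)
      · rintro v ⟨-, -, -, -, g3, g4⟩
        exact ⟨g4.2, g3.2⟩
      · gcongr
        rw [h4n, mul_pow]
        norm_num
  · refine hflux _ (m + 3) m le_rfl ?_
    rintro s hs z v ⟨-, -, -, ⟨l', g1, -, g3⟩, -, g4⟩
    exact ⟨⟨l', g1, g3⟩, g4⟩
  · refine hslice _ ?_
    rintro s hs z v ⟨-, g1, g2, -, -, g4⟩
    exact ⟨g1, g2, g4⟩

theorem mass_le_u {t₀ : ℝ} {C₁ C₂ C : ℝ≥0} {p₀ : ℕ} (hb : UBasic T f E B t₀ C₁)
    (hs : UStay T f E B t₀ C₂ p₀) (l1 : C₁ ≤ C) (l2 : C₂ ≤ C) : UMass T f E B t₀ C p₀ := by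
  intro th c₁ p j X V t₁ t₂ hp hctx k m l i n
  obtain ⟨⟨a1, a2, a3⟩, ⟨d1, d2, d3⟩⟩ := hb th c₁ p j X V t₁ t₂ hctx k m l i n
  obtain ⟨s1, s2, s3⟩ := hs th c₁ p j X V t₁ t₂ hp hctx k m l i n
  refine ⟨fun hml => ?_, fun hlm => ?_, fun hmn => ?_⟩
  · unfold nA
    refine le_mul_ofReal_min (le_mul_ofReal_min (le_mul_of_le_coe l1 a1) (le_mul_of_le_coe l1 a2))
      (le_mul_ofReal_min (le_mul_of_le_coe l1 a3) ?_)
    split_ifs with hg
    · exact le_mul_of_le_coe l2 (s1 hml hg)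
    · exact le_mul_of_le_coe l1 a3
  · unfold nN
    refine le_mul_ofReal_min (le_mul_ofReal_min (le_mul_of_le_coe l1 a1) (le_mul_of_le_coe l1 a2))
      (le_mul_ofReal_min (le_mul_of_le_coe l1 a3) ?_)
    split_ifs with hg
    · exact le_mul_of_le_coe l2 (s2 hlm hg)
    · exact le_mul_of_le_coe l1 a3
  · unfold nD
    refine le_mul_ofReal_min (le_mul_ofReal_min (le_mul_of_le_coe l1 d1) (le_mul_of_le_coe l1 d2))
      (le_mul_ofReal_min (le_mul_of_le_coe l1 d3) ?_)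
    split_ifs with hg
    · exact le_mul_of_le_coe l2 (s3 hmn hg)
    · exact le_mul_of_le_coe l1 d3

open Classical in
theorem decompT_u (h : IsClassicalSolution T f E B) {t₀ : ℝ} (h0 : 0 < t₀) (h0T : t₀ < T)
    {C : ℝ≥0} {p₀ : ℕ} (hC : UMass T f E B t₀ C p₀) : UDT T f E B t₀ (40000 * C) p₀ := by
  intro th c₁ p j X V t₁ t₂ hp hc
  have hXc : ContinuousOn X (Icc t₁ t₂) := fun s hs => (hc.hchar.hX s hs).continuousWithinAt
  have hVc : ContinuousOn V (Icc t₁ t₂) := fun s hs => (hc.hchar.hV s hs).continuousWithinAt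
  have hta : 0 < t₀ / 2 := by linarith only [h0]
  have hM := hC th c₁ p j X V t₁ t₂ hp hc
  have hZ := mass_zero h h0 h0T th c₁ p j X V t₁ t₂ hc
  have hT1 : (1 : ℝ) ≤ max T 1 := le_max_right _ _
  have hAN : ∀ k m l i, MeasurableSet (cellAN (max T 1) p V t₁ t₂ k m l i) :=
    fun k m l i => dT_meas_cellAN hc.h12 hVc _ _ _ _ _ _
  have hD : ∀ k m n i, MeasurableSet (cellD (max T 1) p V t₁ t₂ k m n i) :=
    fun k m n i => dT_meas_cellD hc.h12 hVc _ _ _ _ _ _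
  have hA := dT_family h hta hc.h12 hXc (fun _ m l i => rA p j i m l)
    (fun _ m l i => tA p j i m l) (fun k m l i => nA c₁ p j i k m l)
    (fun _ m l i => dT_tA_nonneg p j i m l)
    (fun k m l i => cellAN (max T 1) p V t₁ t₂ k m l i) hAN (C := C)
    (fun k m l i hr => (hM k m l i 0).1 hr.1)
  have hN := dT_family h hta hc.h12 hXc (fun _ m l i => rN p j i m l)
    (fun _ m l i => tN p j i m l) (fun k m l i => nN c₁ p j i k m l)
    (fun _ m l i => dT_tN_nonneg p j i m l)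
    (fun k m l i => cellAN (max T 1) p V t₁ t₂ k m l i) hAN (C := C)
    (fun k m l i hr => (hM k m l i 0).2.1 hr.1)
  have hDD := dT_family h hta hc.h12 hXc (fun _ m n i => rD p j i m n)
    (fun _ m n i => tD p j i m n) (fun k m n i => nD c₁ p j i k m n)
    (fun _ m n i => dT_tD_nonneg p j i m n)
    (fun k m n i => cellD (max T 1) p V t₁ t₂ k m n i) hD (C := C)
    (fun k m n i hr => (hM k m 0 i n).2.2 hr.1)
  refine dT_add3 (V := V) h hta hc.h12 hXc
    (dT_meas_cells (fun k m l i => if rA p j i m l then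
      ENNReal.ofReal (40000 * (4 ^ k * tA p j i m l)) else 0) _ hAN)
    (dT_meas_cells (fun k m l i => if rN p j i m l then
      ENNReal.ofReal (40000 * (4 ^ k * tN p j i m l)) else 0) _ hAN)
    (dT_meas_cells (fun k m n i => if rD p j i m n then
      ENNReal.ofReal (40000 * (4 ^ k * tD p j i m n)) else 0) _ hD) hA hN hDD ?_
  intro s hs z hz v hv hfl
  have hw : ‖dir z‖ = 1 := by
    unfold dir
    rw [norm_smul, norm_inv, norm_norm, inv_mul_cancel₀ (norm_ne_zero_iff.2 hz)]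
  obtain ⟨k, m, i, ⟨l, hl, hy⟩ | ⟨l, hl, hy⟩ | ⟨n, hy⟩⟩ := cover hc hs hz hv hfl
  · have hr : rA p j i m l := by
      refine ⟨hl, ?_⟩
      by_contra hcon
      rw [(hZ k m l i 0).1 hcon] at hy
      exact hy
    have h1 := dT_ker_A (j := j) hw hy.2.2.2.2 hy.2.2.1 hy.2.2.2.1 hl
    have h2 := dT_ofReal hT1 hy.2.1 (dT_tA_nonneg p j i m l) h1
    have h3 := dT_le_cells (c := fun k m l i => if rA p j i m l then
      ENNReal.ofReal (40000 * (4 ^ k * tA p j i m l)) else 0) hy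
    simp only [if_pos hr] at h3
    calc kerT j (Ar.ee p j) V s z v ≤ _ := h2
      _ ≤ _ := h3
      _ ≤ _ := le_trans le_self_add le_self_add
  · have hr : rN p j i m l := by
      refine ⟨hl, ?_⟩
      by_contra hcon
      rw [(hZ k m l i 0).1 hcon] at hy
      exact hy
    have h1 := dT_ker_N (j := j) hw hy.2.2.2.2 hy.2.2.1 hy.2.2.2.1 hl
    have h2 := dT_ofReal hT1 hy.2.1 (dT_tN_nonneg p j i m l) h1
    have h3 := dT_le_cells (c := fun k m l i => if rN p j i m l then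
      ENNReal.ofReal (40000 * (4 ^ k * tN p j i m l)) else 0) hy
    simp only [if_pos hr] at h3
    calc kerT j (Ar.ee p j) V s z v ≤ _ := h2
      _ ≤ _ := h3
      _ ≤ _ := le_trans le_add_self le_self_add
  · have hr : rD p j i m n := by
      by_contra hcon
      rw [(hZ k m 0 i n).2 hcon] at hy
      exact hy
    obtain ⟨hs', hzk, hm, ⟨l, hl1, hl2, hl⟩, hn, hq⟩ := hy
    have h1 := dT_ker_D (j := j) hw hq (hc.hq s hs).1 hm hl hl1 hl2 hn
    have h2 := dT_ofReal hT1 hzk (dT_tD_nonneg p j i m n) h1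
    have h3 := dT_le_cells (c := fun k m n i => if rD p j i m n then
      ENNReal.ofReal (40000 * (4 ^ k * tD p j i m n)) else 0)
      (S := fun k m n i => cellD (max T 1) p V t₁ t₂ k m n i) (y := (s, z, v)) (k := k) (m := m)
      (l := n) (i := i) ⟨hs', hzk, hm, ⟨l, hl1, hl2, hl⟩, hn, hq⟩
    simp only [if_pos hr] at h3
    calc kerT j (Ar.ee p j) V s z v ≤ _ := h2
      _ ≤ _ := h3
      _ ≤ _ := le_add_self

theorem cs_cell_u (h : IsClassicalSolution T f E B) {t₀ : ℝ} (h0 : 0 < t₀) {F₀ : ℝ≥0}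
    (hF₀ : USp T f (t₀ / 2) F₀) : UCs T f t₀ (F₀ ^ (1 / 2 : ℝ)) := by
  intro X t₁ t₂ ht₁ h12 h2T hX c hc ν hν W hW A hA hcA
  -- a continuous extension of the path
  set X' : ℝ → E3 := IccExtend h12 ((Icc t₁ t₂).domRestrict X) with hX'
  have hX'c : Continuous X' := hX.domRestrict.Icc_extend'
  have hXX : ∀ s ∈ Icc t₁ t₂, X' s = X s := fun s hs => by
    rw [hX', IccExtend_of_mem h12 _ hs]
    rfl
  set F : ℝ × E3 × E3 → ℝ≥0∞ := fun y =>
    fl (t₀ / 2) T f (y.1 - ‖y.2.1‖) (X' y.1 + y.2.1) y.2.2 with hF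
  have hFm : Measurable F := by
    have hΨ : Continuous fun y : ℝ × E3 × E3 => (y.1 - ‖y.2.1‖, X' y.1 + y.2.1, y.2.2) := by
      have : Continuous fun y : ℝ × E3 × E3 => X' y.1 := hX'c.comp continuous_fst
      (clear * - hX'c; fun_prop)
    exact (measurable_fl h (ta := t₀ / 2) (by linarith only [h0])).comp hΨ.measurable
  set g : ℝ × E3 → ℝ≥0∞ := fun y => ∫⁻ v, c.indicator (fun _ => (1 : ℝ≥0∞)) (y.1, y.2, v) *
    F (y.1, y.2, v) with hg
  have hcm : Measurable (c.indicator (fun _ => (1 : ℝ≥0∞))) := measurable_const.indicator hc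
  have hassoc : Measurable fun y : (ℝ × E3) × E3 => (y.1.1, y.1.2, y.2) := by fun_prop
  have hgm : Measurable g := by
    have h1 : Measurable fun y : (ℝ × E3) × E3 =>
        c.indicator (fun _ => (1 : ℝ≥0∞)) (y.1.1, y.1.2, y.2) * F (y.1.1, y.1.2, y.2) :=
      (hcm.comp hassoc).mul (hFm.comp hassoc)
    exact h1.lintegral_prod_right'
  set a : ℝ × E3 → ℝ≥0∞ := A.indicator (Function.uncurry W) with ha
  have ham : Measurable a := hW.indicator hA
  -- the two integrals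
  have e1 : pathInt (t₀ / 2) T f X t₁ t₂ (fun s z v => c.indicator (fun _ => W s z) (s, z, v)) =
      ∫⁻ s in Icc t₁ t₂, ∫⁻ z, a (s, z) * g (s, z) := by
    unfold pathInt coneInt
    refine setLIntegral_congr_fun measurableSet_Icc fun s hs => ?_
    refine lintegral_congr fun z => ?_
    have e2 : ∀ v, c.indicator (fun _ => W s z) (s, z, v) * fl (t₀ / 2) T f (s - ‖z‖) (X s + z) v =
        a (s, z) * (c.indicator (fun _ => (1 : ℝ≥0∞)) (s, z, v) * F (s, z, v)) := by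
      intro v
      by_cases hv : (s, z, v) ∈ c
      · have hA' := hcA s z v hv
        rw [indicator_of_mem hv, indicator_of_mem hv, ha, indicator_of_mem hA', one_mul, hF]
        simp only [hXX s hs]
        rfl
      · rw [indicator_of_notMem hv, indicator_of_notMem hv, zero_mul, zero_mul, mul_zero]
    simp_rw [e2]
    rw [lintegral_const_mul]
    exact (hcm.comp (by fun_prop : Measurable fun v : E3 => (s, z, v))).mul
      (hFm.comp (by fun_prop : Measurable fun v : E3 => (s, z, v)))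
  have e3 : mass (t₀ / 2) T f X t₁ t₂ c = ∫⁻ s in Icc t₁ t₂, ∫⁻ z, g (s, z) := by
    unfold mass pathInt coneInt
    refine setLIntegral_congr_fun measurableSet_Icc fun s hs => ?_
    refine lintegral_congr fun z => ?_
    refine lintegral_congr fun v => ?_
    simp only [hF, hXX s hs]
  set μ : Measure (ℝ × E3) := (volume.restrict (Icc t₁ t₂)).prod volume with hμ
  have p1 : ∫⁻ s in Icc t₁ t₂, ∫⁻ z, a (s, z) * g (s, z) = ∫⁻ y, a y * g y ∂μ := by
    have ham' : Measurable fun y => a y * g y := ham.mul hgm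
    rw [hμ, lintegral_prod _ ham'.aemeasurable]
  have p2 : ∫⁻ s in Icc t₁ t₂, ∫⁻ z, g (s, z) = ∫⁻ y, g y ∂μ := by
    rw [hμ, lintegral_prod _ hgm.aemeasurable]
  have p3 : ∫⁻ s in Icc t₁ t₂, ∫⁻ z, A.indicator (fun _ => W s z ^ 2) (s, z) =
      ∫⁻ y, a y ^ (2 : ℝ) ∂μ := by
    rw [hμ, lintegral_prod _ (ham.pow_const 2).aemeasurable]
    refine lintegral_congr fun s => lintegral_congr fun z => ?_
    by_cases hy : (s, z) ∈ A
    · rw [indicator_of_mem hy, ha, indicator_of_mem hy, ENNReal.rpow_two]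
      rfl
    · rw [indicator_of_notMem hy, ha, indicator_of_notMem hy, ENNReal.zero_rpow_of_pos (by norm_num)]
  have hgle : ∀ y, g y ≤ F₀ * ν := by
    intro y
    calc g y ≤ ∫⁻ v, c.indicator (fun _ => (1 : ℝ≥0∞)) (y.1, y.2, v) * F₀ := by
          refine lintegral_mono fun v => ?_
          gcongr
          exact fl_le_of_sup hF₀ _ _ _
      _ = F₀ * ∫⁻ v, c.indicator (fun _ => (1 : ℝ≥0∞)) (y.1, y.2, v) := by
          simp_rw [mul_comm _ (F₀ : ℝ≥0∞)]
          rw [lintegral_const_mul' _ _ ENNReal.coe_ne_top]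
      _ ≤ F₀ * ν := by
          gcongr
          have hset : MeasurableSet {v : E3 | (y.1, y.2, v) ∈ c} :=
            hc.preimage (by fun_prop : Measurable fun v : E3 => (y.1, y.2, v))
          have e4 : ∀ v, c.indicator (fun _ => (1 : ℝ≥0∞)) (y.1, y.2, v) =
              {v : E3 | (y.1, y.2, v) ∈ c}.indicator (fun _ => (1 : ℝ≥0∞)) v := by
            intro v
            by_cases hv : (y.1, y.2, v) ∈ c
            · rw [indicator_of_mem hv, indicator_of_mem (by exact hv)]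
            · rw [indicator_of_notMem hv, indicator_of_notMem (by exact hv)]
          simp_rw [e4]
          rw [lintegral_indicator_const hset, one_mul]
          exact hν _ _
  have hg2 : ∫⁻ y, g y ^ (2 : ℝ) ∂μ ≤ F₀ * (ν * mass (t₀ / 2) T f X t₁ t₂ c) := by
    rw [e3, p2, ← mul_assoc, ← lintegral_const_mul _ hgm]
    refine lintegral_mono fun y => ?_
    rw [ENNReal.rpow_two, pow_two]
    exact mul_le_mul_left (hgle y) _
  rw [e1, p1, p3]
  have hpq : (2 : ℝ).HolderConjugate 2 := Real.HolderConjugate.two_two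
  have hCS := ENNReal.lintegral_mul_le_Lp_mul_Lq μ hpq ham.aemeasurable hgm.aemeasurable
  refine hCS.trans ?_
  have hlast : (∫⁻ y, g y ^ (2 : ℝ) ∂μ) ^ (1 / 2 : ℝ) ≤
      ((F₀ ^ (1 / 2 : ℝ) : ℝ≥0) : ℝ≥0∞) * (ν * mass (t₀ / 2) T f X t₁ t₂ c) ^ (1 / 2 : ℝ) := by
    refine (ENNReal.rpow_le_rpow hg2 (by norm_num)).trans ?_
    rw [ENNReal.mul_rpow_of_nonneg _ _ (by norm_num), ENNReal.coe_rpow_of_nonneg _ (by norm_num)]
  calc (∫⁻ y, a y ^ (2 : ℝ) ∂μ) ^ (1 / 2 : ℝ) * (∫⁻ y, g y ^ (2 : ℝ) ∂μ) ^ (1 / 2 : ℝ) ≤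
      (∫⁻ y, a y ^ (2 : ℝ) ∂μ) ^ (1 / 2 : ℝ) *
        (((F₀ ^ (1 / 2 : ℝ) : ℝ≥0) : ℝ≥0∞) * (ν * mass (t₀ / 2) T f X t₁ t₂ c) ^ (1 / 2 : ℝ)) := by
        (clear * - hlast; gcongr)
    _ = _ := by ring

end Vale.Agent.P107

namespace Vale.Agent.P107.DecS

open Vale.Agent.P107.Ar

variable {T : ℝ} {f : ℝ → E3 → E3 → ℝ} {E B : ℝ → E3 → E3}

/-- A statement with explicit constants. -/
def UWg (T : ℝ) (E B : ℝ → E3 → E3) (ta : ℝ) (M : ℝ≥0) : Prop :=
    ∀ (X : ℝ → E3) (t₁ t₂ : ℝ), ta ≤ t₁ → t₁ ≤ t₂ → t₂ < T →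
      ∫⁻ s in Icc t₁ t₂, ∫⁻ z, Wg T ta E B X s z ^ 2 ≤ M * ENNReal.ofReal (t₂ - t₁)

/-- A statement with explicit constants. -/
def UGB (T : ℝ) (B : ℝ → E3 → E3) (ta : ℝ) (M : ℝ≥0) : Prop :=
    ∀ a b : ℝ, ∫⁻ τ in Icc a b, ∫⁻ y, GB T ta B τ y ≤ M * ENNReal.ofReal (b - a)

/-- A statement with explicit constants. -/
def UShell (T : ℝ) (f : ℝ → E3 → E3 → ℝ) (E B : ℝ → E3 → E3) (ta : ℝ) (M : ℝ≥0) : Prop :=
    ∀ {t₀ th c₁ : ℝ} {p j : ℕ} {X V : ℝ → E3} {t₁ t₂ : ℝ},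
      Ctx T f E B t₀ th c₁ p j X V t₁ t₂ → ∀ {X' V' : ℝ → E3},
      (∀ s ∈ Icc t₁ t₂, X s = X' s) → (∀ s ∈ Icc t₁ t₂, V s = V' s) → ∀ r R : ℝ, 0 ≤ r →
      ∫⁻ s in Icc t₁ t₂, ∫⁻ z, {y : ℝ × E3 | r < ‖y.2‖ ∧ ‖y.2‖ ≤ R}.indicator (fun y =>
        ENNReal.ofReal (al (dir y.2) (u (V' y.1))) * Wb T ta B X' y.1 y.2 ^ 2) (s, z)
      ≤ M * ENNReal.ofReal (t₂ - t₁ + (R - r))

open Classical in
/-- A statement with explicit constants. -/
def UBet (T : ℝ) (f : ℝ → E3 → E3 → ℝ) (E B : ℝ → E3 → E3) (ta : ℝ) (L : ℝ≥0) : Prop :=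
    ∀ {t₀ th c₁ : ℝ} {p j : ℕ} {X V : ℝ → E3} {t₁ t₂ : ℝ},
      Ctx T f E B t₀ th c₁ p j X V t₁ t₂ → ∀ {X' V' : ℝ → E3}, Continuous X' → Continuous V' →
      (∀ s ∈ Icc t₁ t₂, X s = X' s) → (∀ s ∈ Icc t₁ t₂, V s = V' s) →
      (∀ k, dl c₁ p j < (1 / 2 : ℝ) ^ k →
        ∑' m, bet T ta B X' V' (max T 1) t₁ t₂ k m ≤
          L * ENNReal.ofReal (dl c₁ p j + (1 / 2) ^ k)) ∧
      ∑' (k : ℕ) (m : ℕ), (if (1 / 2 : ℝ) ^ k ≤ dl c₁ p j then
          bet T ta B X' V' (max T 1) t₁ t₂ k m else 0) ≤ L * ENNReal.ofReal (dl c₁ p j)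

lemma Wg_budget_u {ta : ℝ} (h0 : 0 < ta) {M : ℝ≥0} (hM : UFx T f E B ta M) : UWg T E B ta M := by
  intro X t₁ t₂ ht₁ h12 ht₂
  calc ∫⁻ s in Icc t₁ t₂, ∫⁻ z, Wg T ta E B X s z ^ 2 ≤ ∫⁻ _ in Icc t₁ t₂, (M : ℝ≥0∞) := by
        refine setLIntegral_mono' measurableSet_Icc fun s hs => ?_
        have hs' : s ∈ Ico ta T := ⟨ht₁.trans hs.1, hs.2.trans_lt ht₂⟩
        refine le_trans (lintegral_mono fun z => ?_) (hM s hs' (X s)).2
        unfold Wg
        by_cases hz : ta ≤ s - ‖z‖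
        · have hmem : z ∈ Metric.closedBall (0 : E3) (s - ta) := by
            rw [mem_closedBall_zero_iff]; linarith only [hz]
          have hτ : s - ‖z‖ ∈ Ioo 0 T := ⟨by linarith only [ta, h0, s, z, hz], by linarith [norm_nonneg z, hs'.2]⟩
          rw [indicator_of_mem hmem, if_pos hz, ofReal_sq (norm_nonneg _), Flux.tr_eq E hτ,
            Flux.tr_eq B hτ]
        · rw [if_neg hz]
          simp
    _ = M * ENNReal.ofReal (t₂ - t₁) := by
        rw [lintegral_const, Measure.restrict_apply MeasurableSet.univ, univ_inter,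
          Real.volume_Icc]

lemma GB_budget_u (ta : ℝ) {M : ℝ≥0} (hM : UEn T f E B M) : UGB T B ta M := by
  intro a b
  calc ∫⁻ τ in Icc a b, ∫⁻ y, GB T ta B τ y ≤ ∫⁻ _ in Icc a b, (M : ℝ≥0∞) := by
        refine lintegral_mono fun τ => ?_
        unfold GB
        by_cases hτ : ta ≤ τ
        · simp only [if_pos hτ]
          by_cases hτT : τ ∈ Ioo 0 T
          · refine le_trans (le_of_eq ?_) (hM τ ⟨hτT.1.le, hτT.2⟩).2.1
            refine lintegral_congr fun y => ?_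
            rw [Flux.tr_eq B hτT]
          · have : ∀ y, Flux.tr T B τ y = 0 := by
              intro y
              unfold Flux.tr
              rw [indicator_of_notMem]
              exact fun hm => hτT hm.1
            simp only [this]
            simp
        · simp only [if_neg hτ]
          simp
    _ = M * ENNReal.ofReal (b - a) := by
        rw [lintegral_const, Measure.restrict_apply MeasurableSet.univ, univ_inter,
          Real.volume_Icc]

lemma shell_budget_u (h : IsClassicalSolution T f E B) {ta : ℝ} {M : ℝ≥0} (hM : UGB T B ta M) :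
    UShell T f E B ta M := by
  intro t₀ th c₁ p j X V t₁ t₂ hc X' V' hXX hVV r R hr
  have hVc : ContinuousOn V (Icc t₁ t₂) := fun s hs => (hc.hchar.hV s hs).continuousWithinAt
  have h1 := shell_transfer_gen (U := fun s => u (V s)) hc.h12 hc.hchar.hX
    (continuous_u.comp_continuousOn hVc) (fun s _ => norm_u_lt_one _) hr (R := R) (GB T ta B)
    (measurable_GB h ta)
  have h2 := hM (t₁ - R) (t₂ - r)
  have e1 : t₂ - r - (t₁ - R) = t₂ - t₁ + (R - r) := by ring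
  rw [e1] at h2
  refine le_trans (le_of_eq ?_) (h1.trans h2)
  refine setLIntegral_congr_fun measurableSet_Icc fun s hs => ?_
  refine lintegral_congr fun z => ?_
  by_cases hz : r < ‖z‖ ∧ ‖z‖ ≤ R
  · have m1 : (s, z) ∈ {y : ℝ × E3 | r < ‖y.2‖ ∧ ‖y.2‖ ≤ R} := hz
    have m2 : z ∈ {z : E3 | r < ‖z‖ ∧ ‖z‖ ≤ R} := hz
    rw [indicator_of_mem m1, indicator_of_mem m2, Wb_sq, ← hXX s hs, ← hVV s hs]
  · have m1 : (s, z) ∉ {y : ℝ × E3 | r < ‖y.2‖ ∧ ‖y.2‖ ≤ R} := hz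
    have m2 : z ∉ {z : E3 | r < ‖z‖ ∧ ‖z‖ ≤ R} := hz
    rw [indicator_of_notMem m1, indicator_of_notMem m2]

open Classical in
theorem bet_budget_u (h : IsClassicalSolution T f E B) {ta : ℝ} {M : ℝ≥0}
    (hM : UShell T f E B ta M) : UBet T f E B ta ((M + 1) * (2 * max T 1).toNNReal) := by
  unfold UBet
  set T₁ : ℝ := max T 1 with hT₁
  have hT1 : 1 ≤ T₁ := le_max_right _ _
  have hT0 : 0 < T₁ := lt_of_lt_of_le one_pos hT1
  intro t₀ th c₁ p j X V t₁ t₂ hc X' V' hX' hV' hXX hVV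
  have hwt := measurable_wt h ta hX' hV'
  have hlen := hc.hlen
  have h12 := hc.h12
  have hL : (((M + 1) * (2 * T₁).toNNReal : ℝ≥0) : ℝ≥0∞) =
      ((M : ℝ≥0∞) + 1) * ENNReal.ofReal (2 * T₁) := by
    push_cast
    rfl
  rw [hL]
  have hML : ∀ x y : ℝ, x ≤ 2 * T₁ * y → (M : ℝ≥0∞) * ENNReal.ofReal x ≤
      ((M : ℝ≥0∞) + 1) * ENNReal.ofReal (2 * T₁) * ENNReal.ofReal y := by
    intro x y hxy
    rw [mul_assoc, ← ENNReal.ofReal_mul (by linarith only [hT1])]
    gcongr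
    exact le_self_add
  constructor
  · intro k hk
    have h1 := hM hc hXX hVV (T₁ * (1 / 2) ^ (k + 1)) (T₁ * (1 / 2) ^ k) (by positivity)
    unfold bet
    rw [tsum_lintegral2 (F := fun m y => (Akm T₁ V' k m).indicator (fun y =>
      ENNReal.ofReal (al (dir y.2) (u (V' y.1))) * Wb T ta B X' y.1 y.2 ^ 2) y)
      (fun m => hwt.indicator (measurableSet_Akm T₁ hV' k m))]
    refine le_trans (lintegral_mono fun s => lintegral_mono fun z => ?_)
      (h1.trans (hML _ _ ?_))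
    · exact tsum_indicator_le (fun m => Akm T₁ V' k m) _ _ (s, z)
        (fun m m' hm hm' => alI_unique hm.2 hm'.2) (fun m hm => hm.1)
    · rw [pow_succ]
      have h2 : (0:ℝ) < (1 / 2) ^ k := by positivity
      have h3 : 0 < T₁ * (1 / 2) ^ k := by positivity
      have h4 : dl c₁ p j ≤ T₁ * dl c₁ p j := by
        have : 0 ≤ dl c₁ p j := by linarith only [hlen, h12]
        nlinarith only [hT1, hlen, h12]
      have h5 : 0 ≤ dl c₁ p j := by linarith only [hlen, h12]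
      nlinarith only [hlen, h12, h3, h4]
  · have h1 := hM hc hXX hVV 0 (T₁ * dl c₁ p j) le_rfl
    have e1 : ∀ k m : ℕ, (if (1 / 2 : ℝ) ^ k ≤ dl c₁ p j then bet T ta B X' V' T₁ t₁ t₂ k m
        else 0) = ∫⁻ s in Icc t₁ t₂, ∫⁻ z, (if (1 / 2 : ℝ) ^ k ≤ dl c₁ p j then
          Akm T₁ V' k m else ∅).indicator (fun y =>
          ENNReal.ofReal (al (dir y.2) (u (V' y.1))) * Wb T ta B X' y.1 y.2 ^ 2) (s, z) := by
      intro k m
      by_cases hk : (1 / 2 : ℝ) ^ k ≤ dl c₁ p j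
      · simp only [if_pos hk]
        rfl
      · simp only [if_neg hk, indicator_empty, lintegral_zero]
    simp only [e1]
    rw [← ENNReal.tsum_prod (f := fun k m => ∫⁻ s in Icc t₁ t₂, ∫⁻ z,
      (if (1 / 2 : ℝ) ^ k ≤ dl c₁ p j then Akm T₁ V' k m else ∅).indicator (fun y =>
          ENNReal.ofReal (al (dir y.2) (u (V' y.1))) * Wb T ta B X' y.1 y.2 ^ 2) (s, z))]
    rw [tsum_lintegral2 (F := fun (b : ℕ × ℕ) y => (if (1 / 2 : ℝ) ^ b.1 ≤ dl c₁ p j then
      Akm T₁ V' b.1 b.2 else ∅).indicator (fun y =>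
      ENNReal.ofReal (al (dir y.2) (u (V' y.1))) * Wb T ta B X' y.1 y.2 ^ 2) y)
      (fun b => hwt.indicator (by
        by_cases hk : (1 / 2 : ℝ) ^ b.1 ≤ dl c₁ p j
        · rw [if_pos hk]; exact measurableSet_Akm T₁ hV' b.1 b.2
        · rw [if_neg hk]; exact MeasurableSet.empty))]
    have key : ∀ (b : ℕ × ℕ) (y : ℝ × E3), y ∈ (if (1 / 2 : ℝ) ^ b.1 ≤ dl c₁ p j then
        Akm T₁ V' b.1 b.2 else ∅) → (1 / 2 : ℝ) ^ b.1 ≤ dl c₁ p j ∧ y ∈ Akm T₁ V' b.1 b.2 := by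
      intro b y hy
      by_cases hk : (1 / 2 : ℝ) ^ b.1 ≤ dl c₁ p j
      · rw [if_pos hk] at hy
        exact ⟨hk, hy⟩
      · rw [if_neg hk] at hy
        exact absurd hy (notMem_empty _)
    refine le_trans (lintegral_mono fun s => lintegral_mono fun z => ?_)
      (h1.trans (hML _ _ ?_))
    · refine tsum_indicator_le (fun b : ℕ × ℕ => if (1 / 2 : ℝ) ^ b.1 ≤ dl c₁ p j then
        Akm T₁ V' b.1 b.2 else ∅) _ _ (s, z) ?_ ?_
      · intro b b' hb hb'
        have k1 := (key b _ hb).2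
        have k2 := (key b' _ hb').2
        exact Prod.ext (shellI_unique hT0 k1.1 k2.1) (alI_unique k1.2 k2.2)
      · intro b hb
        obtain ⟨k1, k2⟩ := key b _ hb
        have k3 : T₁ * (1 / 2) ^ (b.1 + 1) < ‖z‖ := k2.1.1
        have k4 : ‖z‖ ≤ T₁ * (1 / 2) ^ b.1 := k2.1.2
        refine ⟨?_, ?_⟩
        · exact lt_trans (by positivity) k3
        · exact k4.trans (mul_le_mul_of_nonneg_left k1 hT0.le)
    · have h5 : 0 ≤ dl c₁ p j := by linarith only [hlen, h12]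
      nlinarith only [hT1, hlen, h12]

end Vale.Agent.P107.DecS
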