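import Vale.Agent.N107X.U1
import Vale.Agent.P107.Bdl.B3

/-!
The decompositions of the kernel integrals, with explicit constants.
-/

set_option linter.all false

attribute [-instance] ProperSMul.toContinuousSMul IsTopologicalTorsor.toContinuousSMul
  IdemSemiring.toCanonicallyOrderedAdd IdemSemiring.toMulLeftMono IdemSemiring.toMulRightMono
  AddQuantale.instAddLeftMono AddQuantale.instAddRightMono Quantale.instMulLeftMono
  Quantale.instMulRightMono FiniteDimensional.rclike_to_real IsScalarTower.complexToReal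
  FiniteDimensional.complexToReal

open MeasureTheory Set Filter Topology
open scoped RealInnerProductSpace ENNReal NNReal

namespace Vale.Agent.P107

open Vale.Agent.P107.Ar

variable {T : ℝ} {f : ℝ → E3 → E3 → ℝ} {E B : ℝ → E3 → E3}

open Classical in
/-- A statement with explicit constants. -/
def UDS (T : ℝ) (f : ℝ → E3 → E3 → ℝ) (E B : ℝ → E3 → E3) (t₀ : ℝ) (C : ℝ≥0) (p₀ : ℕ) : Prop :=
    ∀ (th c₁ : ℝ) (p j : ℕ) (X V : ℝ → E3) (t₁ t₂ : ℝ), p₀ ≤ p →
      Ctx T f E B t₀ th c₁ p j X V t₁ t₂ →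
      pathInt (t₀ / 2) T f X t₁ t₂ (kerS j (Ar.ee p j) E B X V)
        ≤ C * (∑' (k : ℕ) (m : ℕ) (l : ℕ) (i : ℕ), if rA p j i m l then
            ENNReal.ofReal (2 ^ k * sA p j m l * (qq p i)⁻¹ * √(dl c₁ p j)
              * √(qq p i ^ 3 * (1 / 4) ^ l * nA c₁ p j i k m l)) else 0)
        + C * (∑' (k : ℕ) (m : ℕ) (l : ℕ) (i : ℕ), if rN p j i m l then
            ENNReal.ofReal (2 ^ k * sN p j m l * (qq p i)⁻¹ * √(dl c₁ p j)
              * √(qq p i ^ 3 * (1 / 4) ^ l * nN c₁ p j i k m l)) else 0)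
        + C * (∑' (k : ℕ) (m : ℕ) (n : ℕ) (i : ℕ), if rD p j i m n then
            ENNReal.ofReal (2 ^ k * sD p j m * (qq p i)⁻¹ * √(dl c₁ p j)
              * √(qq p i ^ 3 * (1 / 4) ^ n * nD c₁ p j i k m n)) else 0)
        + C * sumSb c₁ p j (fun m l i => rA p j i m l) (fun k m l i =>
            (2 ^ k * sA p j m l * (qq p i)⁻¹ * 2 ^ m * (1 / 2) ^ l) ^ 2
              * (qq p i ^ 3 * (1 / 4) ^ l * nA c₁ p j i k m l))
        + C * sumSb c₁ p j (fun m l i => rN p j i m l) (fun k m l i =>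
            (2 ^ k * sN p j m l * (qq p i)⁻¹ * 2 ^ m * (1 / 2) ^ l) ^ 2
              * (qq p i ^ 3 * (1 / 4) ^ l * nN c₁ p j i k m l))
        + C * sumSb c₁ p j (fun m n i => rD p j i m n) (fun k m n i =>
            (2 ^ k * sD p j m * (qq p i)⁻¹) ^ 2
              * (qq p i ^ 3 * (1 / 4) ^ n * nD c₁ p j i k m n))

open Classical in
/-- A statement with explicit constants. -/
def UDB (T : ℝ) (f : ℝ → E3 → E3 → ℝ) (E B : ℝ → E3 → E3) (t₀ : ℝ) (C : ℝ≥0) : Prop :=
    ∀ (th c₁ : ℝ) (p j : ℕ) (X V : ℝ → E3) (t₁ t₂ : ℝ),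
      Ctx T f E B t₀ th c₁ p j X V t₁ t₂ → ∀ s ∈ Icc t₁ t₂,
      coneInt (t₀ / 2) T f s (X s) (kerB j (Ar.ee p j) V s)
        ≤ C * (∑' (k : ℕ) (m : ℕ) (l : ℕ) (i : ℕ),
          if i ≤ p ∧ m ≤ p - j + 3 ∧ l ≤ p - i + 1 then
            ENNReal.ofReal (2 ^ k * ((1 / 4) ^ j * (1 / 2) ^ l * ((1 / 2) ^ m + Ar.ee p j)
              / DD p j m l) * min ((1 / 8) ^ k * (1 / 4) ^ m * (1 / 4) ^ l * qq p i ^ 3)
                (4 ^ l / qq p i)) else 0)

open Classical DecS in
theorem decompS_u (h : IsClassicalSolution T f E B) {t₀ : ℝ} (h0 : 0 < t₀) (h0T : t₀ < T)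
    {Ccs Mg Lb Cv Cr Cm L : ℝ≥0} {p₀ : ℕ} (hcs : UCs T f t₀ Ccs) (hMg : UWg T E B (t₀ / 2) Mg)
    (hLb : UBet T f E B (t₀ / 2) Lb)
    (hCv : ∀ (w : E3), ‖w‖ = 1 → ∀ Q ξ : ℝ, 0 < Q → 0 ≤ ξ →
    volume {v : E3 | q v ≤ Q ∧ al w (u v) ≤ ξ} ≤ Cv * ENNReal.ofReal (Q ^ 3 * ξ))
    (hCr : ∀ (b : E3) (Q φ : ℝ), 0 < Q → 0 ≤ φ →
    volume {v : E3 | q v ≤ Q ∧ ‖u v - b‖ ≤ φ} ≤ Cr * ENNReal.ofReal (Q ^ 3 * φ ^ 2))
    (hCm : UMass T f E B t₀ Cm p₀) (l1 : Ccs ≤ L) (l2 : Mg ≤ L) (l3 : Lb ≤ L) (l4 : 2 * Cv ≤ L)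
    (l5 : 4 * Cr ≤ L) (l6 : Cm ≤ L) (l7 : 1 ≤ L) : UDS T f E B t₀ (30000 * L ^ 5) p₀ := by
  have hta : 0 < t₀ / 2 := by linarith only [h0]
  have htaT : t₀ / 2 < T := by linarith only [h0, h0T]
  have hL1 : (1 : ℝ≥0∞) ≤ (L : ℝ≥0∞) := by exact_mod_cast l7
  intro th c₁ p j X V t₁ t₂ hp hc
  obtain ⟨X', V', hX', hV', hXX, hVV⟩ := exists_ext hc
  have hT1 : 1 ≤ max T 1 := le_max_right _ _
  have hT0 : 0 < max T 1 := lt_of_lt_of_le one_pos hT1
  have ht₂ : t₂ < T := lt_of_le_of_lt hc.h2 hc.hth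
  have hXc : ContinuousOn X (Icc t₁ t₂) := fun s hs => (hc.hchar.hX s hs).continuousWithinAt
  -- Cauchy-Schwarz, flux and magnetic budgets
  have hcs' : ∀ (c : Set (ℝ × E3 × E3)), MeasurableSet c →
      ∀ (ν : ℝ≥0∞), (∀ s z, volume {v | (s, z, v) ∈ c} ≤ ν) →
      ∀ (W : ℝ → E3 → ℝ≥0∞), Measurable (Function.uncurry W) →
      ∀ (A : Set (ℝ × E3)), MeasurableSet A → (∀ s z v, (s, z, v) ∈ c → (s, z) ∈ A) →
      cellInt (t₀ / 2) T f X t₁ t₂ c (fun s z _ => W s z)
        ≤ L * (∫⁻ s in Icc t₁ t₂, ∫⁻ z, A.indicator (fun _ => W s z ^ 2) (s, z)) ^ (1 / 2 : ℝ)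
          * (ν * mass (t₀ / 2) T f X t₁ t₂ c) ^ (1 / 2 : ℝ) := by
    intro c hcm ν hν W hW A hA hcA
    refine (hcs X t₁ t₂ hc.ht₁ hc.h12 ht₂ hXc c hcm ν hν W hW A hA hcA).trans ?_
    (clear * - l1; gcongr)
  have hg' : ∫⁻ s in Icc t₁ t₂, ∫⁻ z, Wg T (t₀ / 2) E B X' s z ^ 2 ≤
      L * ENNReal.ofReal (dl c₁ p j) := by
    refine (hMg X' t₁ t₂ (by linarith only [h0, hc.ht₁]) hc.h12 ht₂).trans ?_
    gcongr
    exact hc.hlen
  obtain ⟨hfar, hnear⟩ := hLb hc hX' hV' hXX hVV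
  have hfar' : ∀ k, dl c₁ p j < (1 / 2 : ℝ) ^ k →
      ∑' m, bet T (t₀ / 2) B X' V' (max T 1) t₁ t₂ k m ≤
        L * ENNReal.ofReal (dl c₁ p j + (1 / 2) ^ k) := fun k hk =>
    (hfar k hk).trans (by (clear * - l3; gcongr))
  have hnear' : ∑' (k : ℕ) (m : ℕ), (if (1 / 2 : ℝ) ^ k ≤ dl c₁ p j then
      bet T (t₀ / 2) B X' V' (max T 1) t₁ t₂ k m else 0) ≤ L * ENNReal.ofReal (dl c₁ p j) :=
    hnear.trans (by (clear * - l3; gcongr))
  -- the measurable kernel
  set g := kerS j (Ar.ee p j) (Flux.tr T E) (Flux.tr T B) X' V' with hgdef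
  have hMK : MK g := measurable_kerS h hX' hV' j (Ar.ee p j)
  have hgeq : ∀ s ∈ Icc t₁ t₂, ∀ z v : E3, fl (t₀ / 2) T f (s - ‖z‖) (X s + z) v ≠ 0 →
      kerS j (Ar.ee p j) E B X V s z v = g s z v := by
    intro s hs z v hf
    obtain ⟨f1, f2, f3⟩ := fl_ne_zero hf
    have hτ : s - ‖z‖ ∈ Ioo 0 T := ⟨by linarith only [h0, f1], f2⟩
    rw [hgdef]
    unfold kerS
    rw [Flux.tr_eq E hτ, Flux.tr_eq B hτ, ← hXX s hs, ← hVV s hs]
  rw [pathInt_congr_path (X := X) (X' := X) (fun _ _ => rfl) hgeq]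
  refine (cover_le h hc hMK).trans ?_
  have mA := fun k m l i => measurableSet_cellAN hc (max T 1) p k m l i
  have mD := fun k m n i => measurableSet_cellD hc (max T 1) p k m n i
  have hee := Tl.ee_pos p j
  -- aligned cells
  have hfA : ∀ k m l i, (if m + 4 ≤ l then cellInt (t₀ / 2) T f X t₁ t₂
      (cellAN (max T 1) p V t₁ t₂ k m l i) g else 0) ≤ if rA p j i m l then
      (30000 * (L : ℝ≥0∞) ^ 4) * ENNReal.ofReal (2 ^ k * sA p j m l * (qq p i)⁻¹ * √(dl c₁ p j)
        * √(qq p i ^ 3 * (1 / 4) ^ l * nA c₁ p j i k m l)) +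
      (30000 * (L : ℝ≥0∞) ^ 4) * (bet T (t₀ / 2) B X' V' (max T 1) t₁ t₂ k m ^ (1 / 2 : ℝ) *
        ENNReal.ofReal ((2 ^ k * sA p j m l * (qq p i)⁻¹ * 2 ^ m * (1 / 2) ^ l) ^ 2
              * (qq p i ^ 3 * (1 / 4) ^ l * nA c₁ p j i k m l)) ^ (1 / 2 : ℝ)) else 0 := by
    intro k m l i
    by_cases hr : rA p j i m l
    · rw [if_pos hr, if_pos hr.1]
      have hQ := Tl.qq_pos p i
      have hsA : 0 ≤ sA p j m l := by
        have := Tl.DD_pos p j m l
        unfold sA; positivity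
      refine cell_fin h hc hX' hV' hXX hL1 hcs' hg' (mA k m l i)
        (κ := 12) (lam := 2 * (1 / 2) ^ l) (by positivity) (by (clear * - hQ hsA; positivity)) (by (clear * - hQ hsA; positivity))
        (by norm_num) (by norm_num) (by positivity) ?_ ?_ k m ?_ ?_ ?_
      · intro s z
        refine (volAN hCv hT0 p V t₁ t₂ k m l i s z).trans ?_
        (clear * - l4; gcongr)
      · refine ((hCm th c₁ p j X V t₁ t₂ hp hc k m l i 0).1 hr.1).trans ?_
        (clear * - l6; gcongr)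
      · have h5 : 0 ≤ 2 ^ k * sA p j m l * (qq p i)⁻¹ * 2 ^ m * (1 / 2) ^ l := by (clear * - hQ hsA; positivity)
        nlinarith only [h5]
      · intro s z v hm
        refine ⟨hm.2.1, ?_⟩
        have := hm.2.2.1
        simp only at this ⊢
        rw [← hVV s hm.1]
        exact this
      · intro s hs z v hm hf
        obtain ⟨f1, f2, f3⟩ := fl_ne_zero hf
        have hτ : s - ‖z‖ ∈ Ioo 0 T := ⟨by linarith only [h0, f1], f2⟩
        rw [← hgeq s hs z v hf]
        have hcell := CK.isCell_of hT0 hm.2.1 hm.2.2.1 hm.2.2.2.1 hm.2.2.2.2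
        have hb := CK.bS_A (j := j) hcell
        refine (kerS_le (κ := 3 * sA p j m l) (by (clear * - hsA; positivity)) hT1 hm.2.1 hm.2.2.2.1.2
          hm.2.2.2.2 hb f1 hτ (hXX s hs)).trans (le_of_eq ?_)
        congr 2
        ring
    · rw [if_neg hr]
      by_cases hml : m + 4 ≤ l
      · rw [if_pos hml]
        have hne : ¬ (i ≤ p ∧ m ≤ p - j + 3 ∧ l ≤ p - i + 1) := fun hh => hr ⟨hml, hh⟩
        rw [(mass_zero h h0 h0T th c₁ p j X V t₁ t₂ hc k m l i 0).1 hne, cellInt_empty]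
      · rw [if_neg hml]
  -- nonaligned cells
  have hfN : ∀ k m l i, (if l + 4 ≤ m then cellInt (t₀ / 2) T f X t₁ t₂
      (cellAN (max T 1) p V t₁ t₂ k m l i) g else 0) ≤ if rN p j i m l then
      (30000 * (L : ℝ≥0∞) ^ 4) * ENNReal.ofReal (2 ^ k * sN p j m l * (qq p i)⁻¹ * √(dl c₁ p j)
        * √(qq p i ^ 3 * (1 / 4) ^ l * nN c₁ p j i k m l)) +
      (30000 * (L : ℝ≥0∞) ^ 4) * (bet T (t₀ / 2) B X' V' (max T 1) t₁ t₂ k m ^ (1 / 2 : ℝ) *
        ENNReal.ofReal ((2 ^ k * sN p j m l * (qq p i)⁻¹ * 2 ^ m * (1 / 2) ^ l) ^ 2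
              * (qq p i ^ 3 * (1 / 4) ^ l * nN c₁ p j i k m l)) ^ (1 / 2 : ℝ)) else 0 := by
    intro k m l i
    by_cases hr : rN p j i m l
    · rw [if_pos hr, if_pos hr.1]
      have hQ := Tl.qq_pos p i
      have hsN : 0 ≤ sN p j m l := by
        unfold sN; positivity
      refine cell_fin h hc hX' hV' hXX hL1 hcs' hg' (mA k m l i)
        (κ := 32) (lam := 2 * (1 / 2) ^ l) (by positivity) (by (clear * - hQ hsN; positivity)) (by (clear * - hQ hsN; positivity))
        (by norm_num) (by norm_num) (by positivity) ?_ ?_ k m ?_ ?_ ?_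
      · intro s z
        refine (volAN hCv hT0 p V t₁ t₂ k m l i s z).trans ?_
        (clear * - l4; gcongr)
      · refine ((hCm th c₁ p j X V t₁ t₂ hp hc k m l i 0).2.1 hr.1).trans ?_
        (clear * - l6; gcongr)
      · have h5 : 0 ≤ 2 ^ k * sN p j m l * (qq p i)⁻¹ * 2 ^ m * (1 / 2) ^ l := by (clear * - hQ hsN; positivity)
        nlinarith only [h5]
      · intro s z v hm
        refine ⟨hm.2.1, ?_⟩
        have := hm.2.2.1
        simp only at this ⊢
        rw [← hVV s hm.1]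
        exact this
      · intro s hs z v hm hf
        obtain ⟨f1, f2, f3⟩ := fl_ne_zero hf
        have hτ : s - ‖z‖ ∈ Ioo 0 T := ⟨by linarith only [h0, f1], f2⟩
        rw [← hgeq s hs z v hf]
        have hcell := CK.isCell_of hT0 hm.2.1 hm.2.2.1 hm.2.2.2.1 hm.2.2.2.2
        have hb := CK.bS_N (j := j) hcell
        refine (kerS_le (κ := 8 * sN p j m l) (by (clear * - hsN; positivity)) hT1 hm.2.1 hm.2.2.2.1.2
          hm.2.2.2.2 hb f1 hτ (hXX s hs)).trans (le_of_eq ?_)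
        congr 2
        ring
    · rw [if_neg hr]
      by_cases hml : l + 4 ≤ m
      · rw [if_pos hml]
        have hne : ¬ (i ≤ p ∧ m ≤ p - j + 3 ∧ l ≤ p - i + 1) := fun hh => hr ⟨hml, hh⟩
        rw [(mass_zero h h0 h0T th c₁ p j X V t₁ t₂ hc k m l i 0).1 hne, cellInt_empty]
      · rw [if_neg hml]
  -- diagonal cells
  have hfD : ∀ k m n i, cellInt (t₀ / 2) T f X t₁ t₂
      (cellD (max T 1) p V t₁ t₂ k m n i) g ≤ if rD p j i m n then
      (30000 * (L : ℝ≥0∞) ^ 4) * ENNReal.ofReal (2 ^ k * sD p j m * (qq p i)⁻¹ * √(dl c₁ p j)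
        * √(qq p i ^ 3 * (1 / 4) ^ n * nD c₁ p j i k m n)) +
      (30000 * (L : ℝ≥0∞) ^ 4) * (bet T (t₀ / 2) B X' V' (max T 1) t₁ t₂ k m ^ (1 / 2 : ℝ) *
        ENNReal.ofReal ((2 ^ k * sD p j m * (qq p i)⁻¹) ^ 2
              * (qq p i ^ 3 * (1 / 4) ^ n * nD c₁ p j i k m n)) ^ (1 / 2 : ℝ)) else 0 := by
    intro k m n i
    by_cases hr : rD p j i m n
    · rw [if_pos hr]
      have hQ := Tl.qq_pos p i
      have hsD : 0 ≤ sD p j m := by
        unfold sD; positivity
      refine cell_fin h hc hX' hV' hXX hL1 hcs' hg' (mD k m n i)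
        (κ := 768) (lam := 16 * (1 / 2) ^ m) (by positivity) (by (clear * - hQ hsD; positivity)) (by (clear * - hQ hsD; positivity))
        (by norm_num) (by norm_num) (by positivity) ?_ ?_ k m ?_ ?_ ?_
      · intro s z
        refine (volD hCr p V t₁ t₂ k m n i s z).trans ?_
        (clear * - l5; gcongr)
      · refine ((hCm th c₁ p j X V t₁ t₂ hp hc k m 0 i n).2.2 hr.1).trans ?_
        (clear * - l6; gcongr)
      · have h5 : (1 / 2 : ℝ) ^ m * 2 ^ m = 1 := by
          rw [← mul_pow]; norm_num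
        have h6 : 2 ^ k * sD p j m * (qq p i)⁻¹ * (16 * (1 / 2) ^ m) * 2 ^ m =
            16 * (2 ^ k * sD p j m * (qq p i)⁻¹) * ((1 / 2 : ℝ) ^ m * 2 ^ m) := by ring
        rw [h6, h5, mul_one]
      · intro s z v hm
        refine ⟨hm.2.1, ?_⟩
        have := hm.2.2.1
        simp only at this ⊢
        rw [← hVV s hm.1]
        exact this
      · intro s hs z v hm hf
        obtain ⟨f1, f2, f3⟩ := fl_ne_zero hf
        have hτ : s - ‖z‖ ∈ Ioo 0 T := ⟨by linarith only [h0, f1], f2⟩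
        rw [← hgeq s hs z v hf]
        obtain ⟨l, hl1, hl2, hl⟩ := hm.2.2.2.1
        have hcell := CK.isCell_of hT0 hm.2.1 hm.2.2.1 hl hm.2.2.2.2.2
        have hb := CK.bS_D (j := j) hcell hl1
        refine (kerS_le (κ := 192 * sD p j m) (by (clear * - hsD; positivity)) hT1 hm.2.1 hl.2
          hm.2.2.2.2.2 hb f1 hτ (hXX s hs)).trans ?_
        have hll : 2 * (1 / 2 : ℝ) ^ l ≤ 16 * (1 / 2) ^ m := by
          have h7 : (1 / 2 : ℝ) ^ (l + 3) ≤ (1 / 2) ^ m :=
            pow_le_pow_of_le_one (by norm_num) (by norm_num) hl2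
          rw [pow_add] at h7
          linarith only [h7]
        have e1 : 4 * (2 ^ k * (192 * sD p j m) * (qq p i)⁻¹) =
            768 * (2 ^ k * sD p j m * (qq p i)⁻¹) := by ring
        rw [e1]
        (clear * - hll; gcongr)
    · rw [if_neg hr, (mass_zero h h0 h0T th c₁ p j X V t₁ t₂ hc k m 0 i n).2 hr, cellInt_empty]
  have sA' := fam_sum hL1 hfA hfar' hnear'
  have sN' := fam_sum hL1 hfN hfar' hnear'
  have sD' := fam_sum hL1 hfD hfar' hnear'
  have hCc : ((30000 * L ^ 5 : ℝ≥0) : ℝ≥0∞) = 30000 * (L : ℝ≥0∞) ^ 4 * L := by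
    push_cast
    ring
  have hCd : 30000 * (L : ℝ≥0∞) ^ 4 ≤ ((30000 * L ^ 5 : ℝ≥0) : ℝ≥0∞) := by
    rw [hCc]
    calc 30000 * (L : ℝ≥0∞) ^ 4 = 30000 * (L : ℝ≥0∞) ^ 4 * 1 := (mul_one _).symm
      _ ≤ _ := by gcongr
  have hCe : ∀ x y : ℝ≥0∞, 30000 * (L : ℝ≥0∞) ^ 4 * x + 30000 * (L : ℝ≥0∞) ^ 4 * (L * y) ≤
      ((30000 * L ^ 5 : ℝ≥0) : ℝ≥0∞) * x + ((30000 * L ^ 5 : ℝ≥0) : ℝ≥0∞) * y := by
    intro x y
    refine add_le_add (by (clear * - hCd; gcongr)) (le_of_eq ?_)
    rw [hCc]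
    ring
  refine (add_le_add (add_le_add (sA'.trans (hCe _ _)) (sN'.trans (hCe _ _)))
    (sD'.trans (hCe _ _))).trans (le_of_eq ?_)
  ring

namespace DecB

/-- A statement with explicit constants. -/
def UmV (T : ℝ) (f : ℝ → E3 → E3 → ℝ) (ta : ℝ) (C : ℝ≥0) : Prop :=
    ∀ (s : ℝ) (x : E3) (p : ℕ) (b : E3) (k m l i : ℕ), ‖b‖ ≤ 1 →
      ∫⁻ y, (cell (max T 1) p b k m l i).indicator (dens T f ta s x) y
        ≤ C * ENNReal.ofReal ((1 / 8) ^ k * (1 / 4) ^ m * (1 / 4) ^ l * qq p i ^ 3)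

/-- A statement with explicit constants. -/
def UmF (T : ℝ) (f : ℝ → E3 → E3 → ℝ) (ta : ℝ) (C : ℝ≥0) : Prop :=
    ∀ s ∈ Ico ta T, ∀ (x : E3) (p : ℕ) (b : E3) (k m l i : ℕ),
      ∫⁻ y, (cell (max T 1) p b k m l i).indicator (dens T f ta s x) y
        ≤ C * ENNReal.ofReal (4 ^ l / qq p i)

lemma mass_V_u (h : IsClassicalSolution T f E B) {ta : ℝ} (h0 : 0 < ta) {F0 C1 C2 : ℝ≥0}
    (hF0 : USp T f ta F0)
    (hC1 : ∀ (b : E3), ‖b‖ ≤ 1 → ∀ R ξ : ℝ, 0 < R → 0 ≤ ξ →
    volume {z : E3 | z ≠ 0 ∧ ‖z‖ ≤ R ∧ al (dir z) b ≤ ξ} ≤ C1 * ENNReal.ofReal (R ^ 3 * ξ))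
    (hC2 : ∀ (w : E3), ‖w‖ = 1 → ∀ Q ξ : ℝ, 0 < Q → 0 ≤ ξ →
    volume {v : E3 | q v ≤ Q ∧ al w (u v) ≤ ξ} ≤ C2 * ENNReal.ofReal (Q ^ 3 * ξ)) :
    UmV T f ta (F0 * C1 * C2 * (4 * (max T 1) ^ 3).toNNReal) := by
  intro s x p b k m l i hb
  have hT1 : 0 < max T 1 := lt_max_of_lt_right one_pos
  have hqq := qq_pos p i
  have hdens : ∀ y, dens T f ta s x y ≤ F0 := by
    intro y
    unfold dens fl
    split_ifs with hy
    · have := hF0 (s - ‖y.1‖) ⟨hy.1, hy.2⟩ (x + y.1) y.2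
      rw [← ENNReal.ofReal_coe_nnreal]
      exact ENNReal.ofReal_le_ofReal this
    · exact zero_le
  have hmeas : Measurable ((cell (max T 1) p b k m l i).indicator (dens T f ta s x)) :=
    (measurable_dens h h0 s x).indicator (measurableSet_cell _ _ _ _ _ _ _)
  have e1 : ∫⁻ y, (cell (max T 1) p b k m l i).indicator (dens T f ta s x) y
      = ∫⁻ z, ∫⁻ v, (cell (max T 1) p b k m l i).indicator (dens T f ta s x) (z, v) :=
    (lintegral_lintegral (f := fun z v =>
      (cell (max T 1) p b k m l i).indicator (dens T f ta s x) (z, v)) hmeas.aemeasurable).symm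
  rw [e1]
  set Z : Set E3 := {z : E3 | z ≠ 0 ∧ ‖z‖ ≤ max T 1 * (1 / 2) ^ k ∧
    al (dir z) b ≤ 2 * (1 / 4) ^ m} with hZ
  have hZm : MeasurableSet Z := by
    have hal : Measurable fun z : E3 => al (dir z) b := by
      unfold al
      exact measurable_const.add (measurable_const.inner measurable_dir')
    exact (measurableSet_singleton (0 : E3)).compl.inter ((measurableSet_le measurable_norm
      measurable_const).inter (measurableSet_le hal measurable_const))
  have step : ∀ z, ∫⁻ v, (cell (max T 1) p b k m l i).indicator (dens T f ta s x) (z, v)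
      ≤ Z.indicator (fun _ => F0 * (C2 * ENNReal.ofReal (qq p i ^ 3 * (2 * (1 / 4) ^ l)))) z := by
    intro z
    by_cases hz : z ∈ Z
    · rw [indicator_of_mem hz]
      have hw : ‖dir z‖ = 1 := by
        unfold dir
        have hpos : 0 < ‖z‖ := norm_pos_iff.2 hz.1
        rw [norm_smul, norm_inv, norm_norm]
        field_simp
      have hvm : MeasurableSet {v : E3 | q v ≤ qq p i ∧ al (dir z) (u v) ≤ 2 * (1 / 4) ^ l} := by
        have hal : Measurable fun v : E3 => al (dir z) (u v) := by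
          unfold al
          exact measurable_const.add (continuous_u.measurable.inner measurable_const)
        exact (measurableSet_le continuous_q.measurable measurable_const).inter
          (measurableSet_le hal measurable_const)
      calc ∫⁻ v, (cell (max T 1) p b k m l i).indicator (dens T f ta s x) (z, v)
          ≤ ∫⁻ v, {v : E3 | q v ≤ qq p i ∧ al (dir z) (u v) ≤ 2 * (1 / 4) ^ l}.indicator
              (fun _ => (F0 : ℝ≥0∞)) v := by
            refine lintegral_mono fun v => ?_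
            by_cases hv : (z, v) ∈ cell (max T 1) p b k m l i
            · have hv' : v ∈ {v : E3 | q v ≤ qq p i ∧ al (dir z) (u v) ≤ 2 * (1 / 4) ^ l} :=
                ⟨hv.2.2.2.2, hv.2.2.1.2⟩
              rw [indicator_of_mem hv, indicator_of_mem hv']
              exact hdens _
            · rw [indicator_of_notMem hv]
              exact zero_le
        _ = F0 * volume {v : E3 | q v ≤ qq p i ∧ al (dir z) (u v) ≤ 2 * (1 / 4) ^ l} := by
            rw [lintegral_indicator_const hvm]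
        _ ≤ _ := by
            gcongr
            exact hC2 (dir z) hw _ _ hqq (by positivity)
    · rw [indicator_of_notMem hz]
      refine le_of_eq ?_
      have hzero : ∀ v, (cell (max T 1) p b k m l i).indicator (dens T f ta s x) (z, v) = 0 := by
        intro v
        refine indicator_of_notMem (fun hv => hz ⟨?_, hv.1.2, hv.2.1.2⟩) _
        have h1 : max T 1 * (1 / 2) ^ (k + 1) < ‖z‖ := hv.1.1
        have h2 : 0 < max T 1 * (1 / 2) ^ (k + 1) := by positivity
        exact norm_pos_iff.1 (h2.trans h1)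
      simp only [hzero, lintegral_zero]
  calc ∫⁻ z, ∫⁻ v, (cell (max T 1) p b k m l i).indicator (dens T f ta s x) (z, v)
      ≤ ∫⁻ z, Z.indicator
          (fun _ => F0 * (C2 * ENNReal.ofReal (qq p i ^ 3 * (2 * (1 / 4) ^ l)))) z :=
        lintegral_mono step
    _ = F0 * (C2 * ENNReal.ofReal (qq p i ^ 3 * (2 * (1 / 4) ^ l))) * volume Z := by
        rw [lintegral_indicator_const hZm]
    _ ≤ F0 * (C2 * ENNReal.ofReal (qq p i ^ 3 * (2 * (1 / 4) ^ l)))
        * (C1 * ENNReal.ofReal ((max T 1 * (1 / 2) ^ k) ^ 3 * (2 * (1 / 4) ^ m))) := by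
        gcongr
        exact hC1 b hb _ _ (by positivity) (by positivity)
    _ = _ := by
        have h1 : ((4 * max T 1 ^ 3).toNNReal : ℝ≥0∞) = ENNReal.ofReal (4 * max T 1 ^ 3) := rfl
        push_cast
        rw [h1]
        have h2 : ENNReal.ofReal (qq p i ^ 3 * (2 * (1 / 4) ^ l))
            * ENNReal.ofReal ((max T 1 * (1 / 2) ^ k) ^ 3 * (2 * (1 / 4) ^ m))
            = ENNReal.ofReal (4 * max T 1 ^ 3)
              * ENNReal.ofReal ((1 / 8) ^ k * (1 / 4) ^ m * (1 / 4) ^ l * qq p i ^ 3) := by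
          rw [← ENNReal.ofReal_mul (by positivity), ← ENNReal.ofReal_mul (by positivity)]
          congr 1
          rw [mul_pow, ← pow_mul, mul_comm k 3, pow_mul]
          norm_num
          ring
        calc _ = (F0 : ℝ≥0∞) * C1 * C2 * (ENNReal.ofReal (qq p i ^ 3 * (2 * (1 / 4) ^ l))
            * ENNReal.ofReal ((max T 1 * (1 / 2) ^ k) ^ 3 * (2 * (1 / 4) ^ m))) := by ring
          _ = _ := by rw [h2]; ring

lemma mass_F_u (h : IsClassicalSolution T f E B) {ta : ℝ} (h0 : 0 < ta) {M : ℝ≥0}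
    (hM : UFx T f E B ta M) : UmF T f ta (4 * M) := by
  intro s hs x p b k m l i
  have hqq := qq_pos p i
  have h1 := (hM s hs x).1
  unfold coneInt at h1
  have hmeas : Measurable fun y : E3 × E3 =>
      ENNReal.ofReal (q y.2 * al (dir y.1) (u y.2)) * fl ta T f (s - ‖y.1‖) (x + y.1) y.2 :=
    (((continuous_q.measurable.comp measurable_snd).mul measurable_al2).ennreal_ofReal).mul
      (measurable_dens h h0 s x)
  rw [lintegral_lintegral (f := fun z v =>
    ENNReal.ofReal (q v * al (dir z) (u v)) * fl ta T f (s - ‖z‖) (x + z) v)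
    hmeas.aemeasurable] at h1
  calc ∫⁻ y, (cell (max T 1) p b k m l i).indicator (dens T f ta s x) y
      ≤ ∫⁻ y : E3 × E3, ENNReal.ofReal (4 * (4 ^ l / qq p i)) *
        (ENNReal.ofReal (q y.2 * al (dir y.1) (u y.2)) * fl ta T f (s - ‖y.1‖) (x + y.1) y.2) := by
        refine lintegral_mono fun y => ?_
        by_cases hy : y ∈ cell (max T 1) p b k m l i
        · rw [indicator_of_mem hy, ← mul_assoc, ← ENNReal.ofReal_mul (by positivity)]
          have hq1 := hy.2.2.2.1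
          have ha1 := hy.2.2.1.1
          rw [pow_succ] at ha1
          have h5 : (1 : ℝ) ≤ 4 * (4 ^ l / qq p i) * (q y.2 * al (dir y.1) (u y.2)) := by
            have h6 : qq p i / 2 * (2 * ((1 / 4) ^ l * (1 / 4))) ≤ q y.2 * al (dir y.1) (u y.2) := by
              gcongr
              exact (q_pos _).le
            have h7 : ((1 : ℝ) / 4) ^ l * 4 ^ l = 1 := by
              rw [← mul_pow]; norm_num
            calc (1 : ℝ) = 4 * (4 ^ l / qq p i) * (qq p i / 2 * (2 * ((1 / 4) ^ l * (1 / 4)))) := by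
                  field_simp
                  rw [mul_comm, h7]
              _ ≤ _ := by gcongr
          calc dens T f ta s x y = ENNReal.ofReal 1 * dens T f ta s x y := by simp
            _ ≤ _ := by
              gcongr
              exact le_rfl
        · rw [indicator_of_notMem hy]
          exact zero_le
    _ = ENNReal.ofReal (4 * (4 ^ l / qq p i)) * ∫⁻ y : E3 × E3,
        (ENNReal.ofReal (q y.2 * al (dir y.1) (u y.2)) * fl ta T f (s - ‖y.1‖) (x + y.1) y.2) := by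
        rw [lintegral_const_mul _ hmeas]
    _ ≤ ENNReal.ofReal (4 * (4 ^ l / qq p i)) * M := by
        gcongr
        exact h1
    _ = _ := by
        rw [ENNReal.ofReal_mul (by norm_num)]
        push_cast
        have : ENNReal.ofReal 4 = 4 := by norm_num
        rw [this]
        ring

end DecB

open Classical DecB in
theorem decompB_u (h : IsClassicalSolution T f E B) {t₀ : ℝ} (h0 : 0 < t₀) {Cv Cf : ℝ≥0}
    (hCv : UmV T f (t₀ / 2) Cv) (hCf : UmF T f (t₀ / 2) Cf) :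
    UDB T f E B t₀ (10 * max Cv Cf) := by
  have hta : 0 < t₀ / 2 := by linarith only [h0]
  intro th c₁ p j X V t₁ t₂ hc s hs
  have hs0 : t₀ ≤ s := hc.ht₁.trans hs.1
  have hsth : s ≤ th := hs.2.trans hc.h2
  have hsT : s < T := hsth.trans_lt hc.hth
  have hT1 : 1 ≤ max T 1 := le_max_right _ _
  have hjp : j ≤ p := by
    have := hc.hj
    omega
  have he : 0 < Ar.ee p j := by
    unfold Ar.ee
    exact Real.rpow_pos_of_pos (qq_pos p j) _
  have hb1 : ‖u (V s)‖ < 1 := norm_u_lt_one _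
  set H : E3 × E3 → ℝ≥0∞ := fun y =>
    kerB j (Ar.ee p j) V s y.1 y.2 * dens T f (t₀ / 2) s (X s) y with hH
  have hHm : Measurable H := (measurable_kerB j _ V s).mul (measurable_dens h hta s (X s))
  have e1 : coneInt (t₀ / 2) T f s (X s) (kerB j (Ar.ee p j) V s) = ∫⁻ y, H y := by
    unfold coneInt
    exact lintegral_lintegral (f := fun z v => H (z, v)) hHm.aemeasurable
  -- the cover
  have cover : ∀ y, H y ≤ ∑' (k : ℕ) (m : ℕ) (l : ℕ) (i : ℕ),
      if i ≤ p ∧ m ≤ p - j + 3 ∧ l ≤ p - i + 1 then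
        (cell (max T 1) p (u (V s)) k m l i).indicator H y else 0 := by
    intro y
    by_cases hy : H y = 0
    · rw [hy]
      exact zero_le
    have hk : kerB j (Ar.ee p j) V s y.1 y.2 ≠ 0 := fun h' => hy (by simp only [hH, h', zero_mul])
    have hd : dens T f (t₀ / 2) s (X s) y ≠ 0 := fun h' => hy (by simp only [hH, h', mul_zero])
    have hz0 : y.1 ≠ 0 := by
      intro h'
      apply hk
      unfold kerB
      simp [h']
    have hfl : t₀ / 2 ≤ s - ‖y.1‖ ∧ s - ‖y.1‖ < T := by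
      by_contra hcon
      apply hd
      unfold dens fl
      rw [if_neg hcon]
    have hf : f (s - ‖y.1‖) (X s + y.1) y.2 ≠ 0 := by
      intro h'
      apply hd
      unfold dens fl
      rw [if_pos hfl, h', ENNReal.ofReal_zero]
    have hpos : 0 < ‖y.1‖ := norm_pos_iff.2 hz0
    have hw : ‖dir y.1‖ = 1 := by
      unfold dir
      rw [norm_smul, norm_inv, norm_norm]
      field_simp
    have hqv : q y.2 ≤ 2 ^ p :=
      hc.hP (s - ‖y.1‖) ⟨by linarith only [h0, hfl.1], by linarith only [hsth, hpos]⟩ _ _ hf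
    have al0 : ∀ v : E3, 0 < al (dir y.1) (u v) := fun v =>
      one_add_inner_u_pos v (dir y.1) hw.le
    have al2 : ∀ v : E3, al (dir y.1) (u v) ≤ 2 := by
      intro v
      unfold al
      have h1 := (abs_le.1 (abs_real_inner_le_norm (u v) (dir y.1))).2
      rw [hw, mul_one] at h1
      linarith only [h1, norm_u_lt_one v]
    obtain ⟨k, hk⟩ := exists_shellI (T₁ := max T 1) (by linarith only [hT1]) hz0 (by
      have : ‖y.1‖ ≤ T := by linarith only [h0, hsT, hfl.1]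
      exact this.trans (le_max_left _ _))
    obtain ⟨m, hm⟩ := exists_alI (al0 (V s)) (al2 (V s))
    obtain ⟨l, hl⟩ := exists_alI (al0 y.2) (al2 y.2)
    obtain ⟨i, hi⟩ := exists_qI (p := p) (q_pos y.2) hqv
    have hip : i ≤ p := idx_i (one_le_q _) hi
    have hlb : l ≤ p - i + 1 := idx_al (c := 1) 1 (q_pos y.2) (al_ge _ _ hw.le)
      (by rw [one_mul]; exact hi.2) one_pos (by norm_num) hip hl
    have hmb : m ≤ p - j + 3 := idx_al (c := 4) 3 (q_pos (V s)) (al_ge _ _ hw.le)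
      (hc.hq s hs).2 (by norm_num) (by norm_num) hjp hm
    have hmem : y ∈ cell (max T 1) p (u (V s)) k m l i := ⟨hk, hm, hl, hi⟩
    refine le_trans ?_ (ENNReal.le_tsum k)
    refine le_trans ?_ (ENNReal.le_tsum m)
    refine le_trans ?_ (ENNReal.le_tsum l)
    refine le_trans ?_ (ENNReal.le_tsum i)
    rw [if_pos ⟨hip, hmb, hlb⟩, indicator_of_mem hmem]
  have hmt : ∀ k m l i : ℕ, Measurable fun y => if i ≤ p ∧ m ≤ p - j + 3 ∧ l ≤ p - i + 1 then
      (cell (max T 1) p (u (V s)) k m l i).indicator H y else 0 := by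
    intro k m l i
    split_ifs
    · exact hHm.indicator (measurableSet_cell _ _ _ _ _ _ _)
    · exact measurable_const
  have e2 : ∫⁻ y, (∑' (k : ℕ) (m : ℕ) (l : ℕ) (i : ℕ),
      if i ≤ p ∧ m ≤ p - j + 3 ∧ l ≤ p - i + 1 then
        (cell (max T 1) p (u (V s)) k m l i).indicator H y else 0)
      = ∑' (k : ℕ) (m : ℕ) (l : ℕ) (i : ℕ), ∫⁻ y,
        if i ≤ p ∧ m ≤ p - j + 3 ∧ l ≤ p - i + 1 then
        (cell (max T 1) p (u (V s)) k m l i).indicator H y else 0 := by
    rw [lintegral_tsum fun k => (Measurable.tsum fun m => Measurable.tsum fun l =>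
      Measurable.tsum fun i => hmt k m l i).aemeasurable]
    refine tsum_congr fun k => ?_
    rw [lintegral_tsum fun m => (Measurable.tsum fun l =>
      Measurable.tsum fun i => hmt k m l i).aemeasurable]
    refine tsum_congr fun m => ?_
    rw [lintegral_tsum fun l => (Measurable.tsum fun i => hmt k m l i).aemeasurable]
    refine tsum_congr fun l => ?_
    rw [lintegral_tsum fun i => (hmt k m l i).aemeasurable]
  -- one cell
  have hcell : ∀ k m l i : ℕ, (∫⁻ y, if i ≤ p ∧ m ≤ p - j + 3 ∧ l ≤ p - i + 1 then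
      (cell (max T 1) p (u (V s)) k m l i).indicator H y else 0)
      ≤ (10 * max Cv Cf : ℝ≥0) * (if i ≤ p ∧ m ≤ p - j + 3 ∧ l ≤ p - i + 1 then
            ENNReal.ofReal (2 ^ k * ((1 / 4) ^ j * (1 / 2) ^ l * ((1 / 2) ^ m + Ar.ee p j)
              / DD p j m l) * min ((1 / 8) ^ k * (1 / 4) ^ m * (1 / 4) ^ l * qq p i ^ 3)
                (4 ^ l / qq p i)) else 0) := by
    intro k m l i
    split_ifs with hidx
    · set K : ℝ := 2 ^ k * ((1 / 4) ^ j * (1 / 2) ^ l * ((1 / 2) ^ m + Ar.ee p j) / DD p j m l)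
        with hK
      have hDD : 0 < DD p j m l := by unfold DD; positivity
      have hK0 : 0 ≤ K := by positivity
      have hqq := qq_pos p i
      have b1 : ∀ y ∈ cell (max T 1) p (u (V s)) k m l i,
          kerB j (Ar.ee p j) V s y.1 y.2 ≤ ENNReal.ofReal (10 * K) := by
        intro y hy
        unfold kerB
        apply ENNReal.ofReal_le_ofReal
        have h1 := inv_norm_le hT1 hy.1
        have h2 := bC_cell (p := p) (j := j) hy.2.2.1 hy.2.1
        have h3 : 0 ≤ 5 * ((1 / 4 : ℝ) ^ j * (1 / 2) ^ l * ((1 / 2) ^ m + Ar.ee p j)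
          / DD p j m l) := by positivity
        calc ‖y.1‖⁻¹ * bC ((1 / 4) ^ j) (Ar.ee p j) (dir y.1) (u y.2) (u (V s))
            ≤ ‖y.1‖⁻¹ * (5 * ((1 / 4) ^ j * (1 / 2) ^ l * ((1 / 2) ^ m + Ar.ee p j)
              / DD p j m l)) := by (clear * - h2; gcongr)
          _ ≤ (2 * 2 ^ k) * (5 * ((1 / 4) ^ j * (1 / 2) ^ l * ((1 / 2) ^ m + Ar.ee p j)
              / DD p j m l)) := by (clear * - he hDD h1; gcongr)
          _ = 10 * K := by rw [hK]; ring
      calc ∫⁻ y, (cell (max T 1) p (u (V s)) k m l i).indicator H y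
          ≤ ∫⁻ y, ENNReal.ofReal (10 * K) * (cell (max T 1) p (u (V s)) k m l i).indicator
              (dens T f (t₀ / 2) s (X s)) y := by
            refine lintegral_mono fun y => ?_
            by_cases hy : y ∈ cell (max T 1) p (u (V s)) k m l i
            · rw [indicator_of_mem hy, indicator_of_mem hy]
              simp only [hH]
              gcongr
              exact b1 y hy
            · rw [indicator_of_notMem hy]
              exact zero_le
        _ = ENNReal.ofReal (10 * K) * ∫⁻ y, (cell (max T 1) p (u (V s)) k m l i).indicator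
              (dens T f (t₀ / 2) s (X s)) y :=
            lintegral_const_mul _ ((measurable_dens h hta s (X s)).indicator
              (measurableSet_cell _ _ _ _ _ _ _))
        _ ≤ ENNReal.ofReal (10 * K) * ((max Cv Cf : ℝ≥0) * ENNReal.ofReal
              (min ((1 / 8) ^ k * (1 / 4) ^ m * (1 / 4) ^ l * qq p i ^ 3) (4 ^ l / qq p i))) := by
            gcongr
            rcases min_choice ((1 / 8 : ℝ) ^ k * (1 / 4) ^ m * (1 / 4) ^ l * qq p i ^ 3)
              (4 ^ l / qq p i) with hmin | hmin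
            · rw [hmin]
              refine (hCv s (X s) p (u (V s)) k m l i hb1.le).trans ?_
              gcongr
              exact le_max_left _ _
            · rw [hmin]
              refine (hCf s ⟨by linarith only [h0, hs0], hsT⟩ (X s) p (u (V s)) k m l i).trans ?_
              gcongr
              exact le_max_right _ _
        _ = _ := by
            rw [ENNReal.ofReal_mul (by norm_num : (0 : ℝ) ≤ 10), ENNReal.ofReal_mul hK0]
            have : ENNReal.ofReal 10 = 10 := by norm_num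
            rw [this]
            push_cast
            ring
    · simp
  rw [e1]
  calc ∫⁻ y, H y ≤ ∫⁻ y, (∑' (k : ℕ) (m : ℕ) (l : ℕ) (i : ℕ),
      if i ≤ p ∧ m ≤ p - j + 3 ∧ l ≤ p - i + 1 then
        (cell (max T 1) p (u (V s)) k m l i).indicator H y else 0) := lintegral_mono cover
    _ = _ := e2
    _ ≤ ∑' (k : ℕ) (m : ℕ) (l : ℕ) (i : ℕ), (10 * max Cv Cf : ℝ≥0) *
          (if i ≤ p ∧ m ≤ p - j + 3 ∧ l ≤ p - i + 1 then
            ENNReal.ofReal (2 ^ k * ((1 / 4) ^ j * (1 / 2) ^ l * ((1 / 2) ^ m + Ar.ee p j)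
              / DD p j m l) * min ((1 / 8) ^ k * (1 / 4) ^ m * (1 / 4) ^ l * qq p i ^ 3)
                (4 ^ l / qq p i)) else 0) :=
        ENNReal.tsum_le_tsum fun k => ENNReal.tsum_le_tsum fun m => ENNReal.tsum_le_tsum fun l =>
          ENNReal.tsum_le_tsum fun i => hcell k m l i
    _ = _ := by
        simp only [ENNReal.tsum_mul_left]

end Vale.Agent.P107
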