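import Vale.Agent.P107.Bdl.B4

/-!
The arithmetic of the cell sums, with an explicit threshold.
-/

set_option linter.all false

attribute [-instance] ProperSMul.toContinuousSMul IsTopologicalTorsor.toContinuousSMul
  IdemSemiring.toCanonicallyOrderedAdd IdemSemiring.toMulLeftMono IdemSemiring.toMulRightMono
  AddQuantale.instAddLeftMono AddQuantale.instAddRightMono Quantale.instMulLeftMono
  Quantale.instMulRightMono FiniteDimensional.rclike_to_real IsScalarTower.complexToReal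
  FiniteDimensional.complexToReal

open MeasureTheory Set Filter Topology
open scoped RealInnerProductSpace ENNReal NNReal

namespace Vale.Agent.P107.Ar

/-- The threshold condition. -/
def Big (x : ℝ) (p : ℕ) : Prop := (1 + (p : ℝ)) ^ 12 * (2 : ℝ) ^ (-(1 / 200 * (p : ℝ))) ≤ x

theorem Big.mono {x y : ℝ} {p : ℕ} (h : Big x p) (hxy : x ≤ y) : Big y p := le_trans h hxy

theorem exists_big : ∃ κ : ℝ, 0 < κ ∧ ∀ x : ℝ, 0 < x → ∀ p : ℕ, κ / x ≤ p → Big x p := by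
  obtain ⟨p₀, hp₀⟩ := Tl.slack_limit 1 one_pos 13
  refine ⟨(1 + (p₀ : ℝ)) ^ 13, by positivity, fun x hx p hp => ?_⟩
  have h0 : (0 : ℝ) < 1 + p := by positivity
  have h1 : (1 + (p : ℝ)) ^ 13 * (2 : ℝ) ^ (-(1 / 200 * (p : ℝ))) ≤ (1 + (p₀ : ℝ)) ^ 13 := by
    rcases le_total p₀ p with h | h
    · have h2 := hp₀ p h
      rw [one_mul] at h2
      exact h2.trans (one_le_pow₀ (by linarith only [Nat.cast_nonneg (α := ℝ) p₀]))
    · have h2 : (2 : ℝ) ^ (-(1 / 200 * (p : ℝ))) ≤ 1 :=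
        Real.rpow_le_one_of_one_le_of_nonpos one_le_two (by
          have : (0 : ℝ) ≤ p := Nat.cast_nonneg p
          linarith only [this])
      have h3 : (p : ℝ) ≤ p₀ := by exact_mod_cast h
      calc _ ≤ (1 + (p₀ : ℝ)) ^ 13 * 1 := by gcongr
        _ = _ := mul_one _
  unfold Big
  rw [div_le_iff₀ hx] at hp
  refine le_of_mul_le_mul_left ?_ h0
  calc (1 + (p : ℝ)) * ((1 + (p : ℝ)) ^ 12 * (2 : ℝ) ^ (-(1 / 200 * (p : ℝ))))
      = (1 + (p : ℝ)) ^ 13 * (2 : ℝ) ^ (-(1 / 200 * (p : ℝ))) := by ring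
    _ ≤ p * x := h1.trans hp
    _ ≤ (1 + (p : ℝ)) * x := by nlinarith only [hx]

open Classical in
/-- T-sums. -/
def UST (C c₁ : ℝ) (p : ℕ) : Prop :=
  ∀ j : ℕ, 12 * j ≤ 5 * p →
  (∑' (k : ℕ) (m : ℕ) (l : ℕ) (i : ℕ), if rA p j i m l then
      ENNReal.ofReal (4 ^ k * tA p j i m l * nA c₁ p j i k m l) else 0)
    ≤ ENNReal.ofReal (C * √c₁ * qq p j) ∧
  (∑' (k : ℕ) (m : ℕ) (l : ℕ) (i : ℕ), if rN p j i m l then
      ENNReal.ofReal (4 ^ k * tN p j i m l * nN c₁ p j i k m l) else 0)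
    ≤ ENNReal.ofReal (C * √c₁ * qq p j) ∧
  (∑' (k : ℕ) (m : ℕ) (n : ℕ) (i : ℕ), if rD p j i m n then
      ENNReal.ofReal (4 ^ k * tD p j i m n * nD c₁ p j i k m n) else 0)
    ≤ ENNReal.ofReal (C * √c₁ * qq p j)

open Classical in
/-- S-sums with the flux budget. -/
def USg (C c₁ : ℝ) (p : ℕ) : Prop :=
  ∀ j : ℕ, 12 * j ≤ 5 * p →
  (∑' (k : ℕ) (m : ℕ) (l : ℕ) (i : ℕ), if rA p j i m l then
      ENNReal.ofReal (2 ^ k * sA p j m l * (qq p i)⁻¹ * √(dl c₁ p j)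
        * √(qq p i ^ 3 * (1 / 4) ^ l * nA c₁ p j i k m l)) else 0)
    ≤ ENNReal.ofReal (C * √c₁ * qq p j) ∧
  (∑' (k : ℕ) (m : ℕ) (l : ℕ) (i : ℕ), if rN p j i m l then
      ENNReal.ofReal (2 ^ k * sN p j m l * (qq p i)⁻¹ * √(dl c₁ p j)
        * √(qq p i ^ 3 * (1 / 4) ^ l * nN c₁ p j i k m l)) else 0)
    ≤ ENNReal.ofReal (C * √c₁ * qq p j) ∧
  (∑' (k : ℕ) (m : ℕ) (n : ℕ) (i : ℕ), if rD p j i m n then
      ENNReal.ofReal (2 ^ k * sD p j m * (qq p i)⁻¹ * √(dl c₁ p j)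
        * √(qq p i ^ 3 * (1 / 4) ^ n * nD c₁ p j i k m n)) else 0)
    ≤ ENNReal.ofReal (C * √c₁ * qq p j)

/-- S-sums with the magnetic budget. -/
def USb (C c₁ : ℝ) (p : ℕ) : Prop :=
  ∀ j : ℕ, 12 * j ≤ 5 * p →
  sumSb c₁ p j (fun m l i => rA p j i m l) (fun k m l i =>
      (2 ^ k * sA p j m l * (qq p i)⁻¹ * 2 ^ m * (1 / 2) ^ l) ^ 2
        * (qq p i ^ 3 * (1 / 4) ^ l * nA c₁ p j i k m l))
    ≤ ENNReal.ofReal (C * √c₁ * qq p j) ∧
  sumSb c₁ p j (fun m l i => rN p j i m l) (fun k m l i =>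
      (2 ^ k * sN p j m l * (qq p i)⁻¹ * 2 ^ m * (1 / 2) ^ l) ^ 2
        * (qq p i ^ 3 * (1 / 4) ^ l * nN c₁ p j i k m l))
    ≤ ENNReal.ofReal (C * √c₁ * qq p j) ∧
  sumSb c₁ p j (fun m n i => rD p j i m n) (fun k m n i =>
      (2 ^ k * sD p j m * (qq p i)⁻¹) ^ 2
        * (qq p i ^ 3 * (1 / 4) ^ n * nD c₁ p j i k m n))
    ≤ ENNReal.ofReal (C * √c₁ * qq p j)

open Classical in
/-- The b-sum. -/
def USB (θ : ℝ) (p : ℕ) : Prop := ∀ j : ℕ, 12 * j ≤ 5 * p →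
  (∑' (k : ℕ) (m : ℕ) (l : ℕ) (i : ℕ), if i ≤ p ∧ m ≤ p - j + 3 ∧ l ≤ p - i + 1 then
      ENNReal.ofReal (2 ^ k * ((1 / 4) ^ j * (1 / 2) ^ l * ((1 / 2) ^ m + ee p j) / DD p j m l)
        * min ((1 / 8) ^ k * (1 / 4) ^ m * (1 / 4) ^ l * qq p i ^ 3) (4 ^ l / qq p i)) else 0)
    ≤ ENNReal.ofReal (θ * (ee p j * qq p j))

theorem le_sqrt_self {c : ℝ} (hc : 0 < c) (hc1 : c ≤ 1) : c ≤ √c :=
  Real.le_sqrt_of_sq_le (by nlinarith only [hc, hc1])

open Tl TT in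
theorem statT_u {c₁ : ℝ} (hc : 0 < c₁) (hc1 : c₁ ≤ 1) {p : ℕ}
    (hp : Big (c₁ ^ 5 / (24 / (1 - rr) ^ 2 * 1024 * 256)) p) : UST 16000 c₁ p := by
  intro j h12
  have hq := qq_pos p j
  have hr : 0 < 1 - rr := by have := rr_lt; linarith only [this]
  have hsl : 24 / (1 - rr) ^ 2 * Bs c₁ p j * (1 + (p : ℝ)) ^ 3 ≤ √c₁ * qq p j := by
    generalize hD : 24 / (1 - rr) ^ 2 = D at hp ⊢
    have hD0 : 0 < D := by rw [← hD]; positivity
    have h2 : D * Bs c₁ p j * (1 + (p : ℝ)) ^ 3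
        = (D * 1024 * 256 / c₁ ^ 4 * ((1 + (p : ℝ)) ^ 7 * (2 : ℝ) ^ (-(1 / 200 * (p : ℝ)))))
          * qq p j := by
      unfold Bs La
      field_simp
      ring
    rw [h2]
    have h3 : (1 + (p : ℝ)) ^ 7 ≤ (1 + (p : ℝ)) ^ 12 :=
      pow_le_pow_right₀ (by linarith only [Nat.cast_nonneg (α := ℝ) p]) (by norm_num)
    have h4 : (1 + (p : ℝ)) ^ 7 * (2 : ℝ) ^ (-(1 / 200 * (p : ℝ))) ≤ c₁ ^ 5 / (D * 1024 * 256) :=
      le_trans (by gcongr) hp
    refine mul_le_mul_of_nonneg_right ?_ hq.le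
    calc _ ≤ D * 1024 * 256 / c₁ ^ 4 * (c₁ ^ 5 / (D * 1024 * 256)) := by gcongr
      _ = c₁ := by field_simp
      _ ≤ _ := le_sqrt_self hc hc1
  have hmono : ENNReal.ofReal (1000 * √c₁ * qq p j) ≤ ENNReal.ofReal (16000 * √c₁ * qq p j) := by
    apply ENNReal.ofReal_le_ofReal
    have : 0 ≤ √c₁ * qq p j := by positivity
    nlinarith only [this]
  exact ⟨(sumA hc hc1 h12 hsl).trans hmono, (sumN hc hc1 h12 hsl).trans hmono,
    sumD hc hc1 h12 hsl⟩

namespace Sg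

open Tl

/-- The constant of the slack cells. -/
noncomputable def DS : ℝ := 2 * E 100 * (1 - E (-(1 / 100)))⁻¹ ^ 2 * 10 * 8 ^ 10

lemma DS_pos : 0 < DS := by
  have hr1 : E (-(1 / 100)) < 1 := Real.rpow_lt_one_of_one_lt_of_neg one_lt_two (by norm_num)
  have h1 : 0 < 1 - E (-(1 / 100)) := by linarith only [hr1]
  have h2 := E_pos 100
  unfold DS
  positivity

lemma asym_u {c₁ : ℝ} (hc : 0 < c₁) (hc1 : c₁ ≤ 1) {p : ℕ} (hp1 : 1 ≤ p)
    (hp : Big (c₁ ^ 11 / DS) p) :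
    2 * E (-((p : ℝ) / 200) + 10 * Real.logb 2 (La c₁ p) + 100)
      * (1 - E (-(1 / 100)))⁻¹ ^ 2 * ((p + 4) * (p + 1)) ≤ √c₁ := by
  set G : ℝ := (1 - E (-(1 / 100)))⁻¹ with hG
  have hp2 : (1 : ℝ) ≤ p := by exact_mod_cast hp1
  have hD := DS_pos
  have hp₁ : (2 * E 100 * G ^ 2 * 10 * (8 / c₁) ^ 10)
      * ((p : ℝ) ^ 12 * E (-(1 / 200)) ^ p) ≤ √c₁ := by
    have h1 : E (-(1 / 200)) ^ p = (2 : ℝ) ^ (-(1 / 200 * (p : ℝ))) := by
      rw [← E_natmul]
      unfold E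
      congr 1
      ring
    have h2 : (p : ℝ) ^ 12 * E (-(1 / 200)) ^ p ≤ c₁ ^ 11 / DS := by
      rw [h1]
      refine le_trans ?_ hp
      gcongr
      linarith only []
    have h3 : 2 * E 100 * G ^ 2 * 10 * (8 / c₁) ^ 10 = DS / c₁ ^ 10 := by
      unfold DS
      rw [← hG, div_pow]
      ring
    rw [h3]
    calc _ ≤ DS / c₁ ^ 10 * (c₁ ^ 11 / DS) := by gcongr
      _ = c₁ := by field_simp
      _ ≤ _ := le_sqrt_self hc hc1
  refine le_trans ?_ hp₁
  have e1 : E (-((p : ℝ) / 200) + 10 * Real.logb 2 (La c₁ p) + 100)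
      = E (-(1 / 200)) ^ p * La c₁ p ^ 10 * E 100 := by
    rw [E_add, E_add, ← E_natmul, ← E_logb (La_pos hc p), ← E_natmul 10, E_logb (La_pos hc p)]
    congr 2
    congr 1
    ring
  rw [e1]
  have e2 : La c₁ p ≤ 8 / c₁ * p := by
    unfold La
    rw [div_mul_eq_mul_div]
    apply div_le_div_of_nonneg_right _ hc.le
    linarith only [hp2]
  have e3 : La c₁ p ^ 10 ≤ (8 / c₁ * p) ^ 10 := pow_le_pow_left₀ (La_pos hc p).le e2 10
  have e4 : ((p : ℝ) + 4) * (p + 1) ≤ 10 * p ^ 2 := by nlinarith only [hp2]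
  have e5 := E_nonneg (-(1 / 200))
  have e6 := E_nonneg 100
  calc 2 * (E (-(1 / 200)) ^ p * La c₁ p ^ 10 * E 100) * G ^ 2 * (((p : ℝ) + 4) * (p + 1))
      ≤ 2 * (E (-(1 / 200)) ^ p * (8 / c₁ * p) ^ 10 * E 100) * G ^ 2 * (10 * p ^ 2) := by
        (clear * - hc hp2 e3 e4 e5 e6; gcongr)
    _ = (2 * E 100 * G ^ 2 * 10 * (8 / c₁) ^ 10) * ((p : ℝ) ^ 12 * E (-(1 / 200)) ^ p) := by
        ring

/-- The statement on the slack cells. -/
def USl (c₁ : ℝ) (p : ℕ) : Prop := ∀ (j : ℕ)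
    (f : ℕ → ℕ → ℕ → ℕ → ℝ≥0∞),
    (∀ k m l i : ℕ, m < p + 4 → i < p + 1 → f k m l i ≤ ENNReal.ofReal
      (2 * E ((p : ℝ) - j - p / 200 - k / 100 - l / 100 + 10 * Real.logb 2 (La c₁ p) + 100))) →
    (∀ k m l i, ¬ (m < p + 4 ∧ i < p + 1) → f k m l i = 0) →
    ∑' (k : ℕ) (m : ℕ) (l : ℕ) (i : ℕ), f k m l i ≤ ENNReal.ofReal (√c₁ * qq p j)

lemma slack_total_u {c₁ : ℝ} (hc : 0 < c₁) (hc1 : c₁ ≤ 1) {p : ℕ} (hp1 : 1 ≤ p)
    (hp : Big (c₁ ^ 11 / DS) p) : USl c₁ p := by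
  intro j f hf hf0
  have hr0 := E_nonneg (-(1 / 100))
  have hr1 : E (-(1 / 100)) < 1 := Real.rpow_lt_one_of_one_lt_of_neg one_lt_two (by norm_num)
  have h1 := slack_sum p
    (2 * E ((p : ℝ) - j - p / 200 + 10 * Real.logb 2 (La c₁ p) + 100)) (E (-(1 / 100)))
    (by have := E_nonneg ((p : ℝ) - j - p / 200 + 10 * Real.logb 2 (La c₁ p) + 100); positivity)
    hr0 hr1 f
    (fun k m l i hm hi => (hf k m l i hm hi).trans (le_of_eq (by
      rw [← E_natmul, ← E_natmul, mul_assoc 2, mul_assoc 2, ← E_add, ← E_add]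
      congr 3
      ring))) hf0
  refine h1.trans (ENNReal.ofReal_le_ofReal ?_)
  have h2 := asym_u hc hc1 hp1 hp
  have h3 : E ((p : ℝ) - j - p / 200 + 10 * Real.logb 2 (La c₁ p) + 100)
      = E (-((p : ℝ) / 200) + 10 * Real.logb 2 (La c₁ p) + 100) * qq p j := by
    rw [qq_E, ← E_add]; congr 1; ring
  rw [h3]
  have h4 : 0 < qq p j := qq_pos p j
  calc 2 * (E (-((p : ℝ) / 200) + 10 * Real.logb 2 (La c₁ p) + 100) * qq p j)
        * (1 - E (-(1 / 100)))⁻¹ ^ 2 * ((p + 4) * (p + 1))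
      = (2 * E (-((p : ℝ) / 200) + 10 * Real.logb 2 (La c₁ p) + 100)
        * (1 - E (-(1 / 100)))⁻¹ ^ 2 * ((p + 4) * (p + 1))) * qq p j := by ring
    _ ≤ √c₁ * qq p j := by gcongr

end Sg

open Classical Sg Tl in
theorem statSg_u {c₁ : ℝ} (hc : 0 < c₁) (hc1 : c₁ ≤ 1) {p : ℕ} (hp₀ : USl c₁ p) :
    USg 400001 c₁ p := by
  intro j h12
  have hX0 : 0 ≤ √c₁ * qq p j := mul_nonneg (Real.sqrt_nonneg _) (qq_pos p j).le
  have hfin : ENNReal.ofReal (400000 * √c₁ * qq p j) + ENNReal.ofReal (√c₁ * qq p j)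
      = ENNReal.ofReal (400001 * √c₁ * qq p j) := by
    rw [← ENNReal.ofReal_add (by rw [mul_assoc]; positivity) hX0]
    congr 1; ring
  have hslack := hp₀ j (fun k m l i => if m < p + 4 ∧ i < p + 1 then
    ENNReal.ofReal (2 * E (sl c₁ p j k l)) else 0)
    (fun k m l i hm hi => by rw [if_pos ⟨hm, hi⟩]; exact le_rfl)
    (fun k m l i hmi => by rw [if_neg hmi])
  refine ⟨?_, ?_, ?_⟩
  · rw [← hfin]
    refine assemble _ (fun k m l i => ENNReal.ofReal
      (E (xc c₁ p j i + 6 - (m : ℝ) / 4 - |(l : ℝ) - ((m + j : ℕ) : ℝ)| / 2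
          - ((Real.logb 2 (dl c₁ p j) - 2 * m - 2 * l + 4 * ((p : ℝ) - i))
            + (3 * m + kp c₁ p j i)) / 4
          + min ((Real.logb 2 (dl c₁ p j) - 2 * m - 2 * l + 4 * ((p : ℝ) - i)) - k)
            ((3 * m + kp c₁ p j i) + k) / 2))) _ _ _ ?_ ?_ hslack
    · intro k m l i
      by_cases hr : rA p j i m l
      · rw [if_pos hr, if_pos ⟨by have := hr.2.2.1; omega, by have := hr.2.1; omega⟩,
          ← ENNReal.ofReal_add (E_nonneg _) (mul_nonneg two_pos.le (E_nonneg _))]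
        exact ENNReal.ofReal_le_ofReal (Sg.cellA hc hc1 h12 hr)
      · rw [if_neg hr]
        exact zero_le
    · exact crit_total hc hc1 p j _ (fun m => m + j)
        (fun i m l => Real.logb 2 (dl c₁ p j) - 2 * m - 2 * l + 4 * ((p : ℝ) - i))
        (fun i m l => 3 * m + kp c₁ p j i) (fun i m l k => le_rfl)
  · rw [← hfin]
    refine assemble _ (fun k m l i => ENNReal.ofReal
      (E (xc c₁ p j i + 6 - (l : ℝ) / 4 - |(m : ℝ) - (l : ℝ)| / 2
          - ((Real.logb 2 (dl c₁ p j) - 2 * m - 2 * l + 4 * ((p : ℝ) - i))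
            + (2 * m + l + kp c₁ p j i)) / 4
          + min ((Real.logb 2 (dl c₁ p j) - 2 * m - 2 * l + 4 * ((p : ℝ) - i)) - k)
            ((2 * m + l + kp c₁ p j i) + k) / 2))) _ _ _ ?_ ?_ hslack
    · intro k m l i
      by_cases hr : rN p j i m l
      · rw [if_pos hr, if_pos ⟨by have := hr.2.2.1; omega, by have := hr.2.1; omega⟩,
          ← ENNReal.ofReal_add (E_nonneg _) (mul_nonneg two_pos.le (E_nonneg _))]
        exact ENNReal.ofReal_le_ofReal (cellN hc hc1 h12 hr)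
      · rw [if_neg hr]
        exact zero_le
    · refine le_trans (le_of_eq (tsum_congr fun i => ENNReal.tsum_comm)) ?_
      exact crit_total hc hc1 p j _ (fun m => m)
        (fun i l m => Real.logb 2 (dl c₁ p j) - 2 * m - 2 * l + 4 * ((p : ℝ) - i))
        (fun i l m => 2 * m + l + kp c₁ p j i) (fun i l m k => le_rfl)
  · rw [← hfin]
    refine assemble _ (fun k m l i => ENNReal.ofReal
      (E (xc c₁ p j i + 6 - (m : ℝ) / 4 - |(l : ℝ) - (m : ℝ)| / 2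
          - ((Real.logb 2 (dl c₁ p j) - 2 * m - 2 * l + 4 * ((p : ℝ) - i))
            + (m + 2 * l + kp c₁ p j i)) / 4
          + min ((Real.logb 2 (dl c₁ p j) - 2 * m - 2 * l + 4 * ((p : ℝ) - i)) - k)
            ((m + 2 * l + kp c₁ p j i) + k) / 2))) _ _ _ ?_ ?_ hslack
    · intro k m l i
      by_cases hr : rD p j i m l
      · rw [if_pos hr, if_pos ⟨by have := hr.2.2.1; omega, by have := hr.2.1; omega⟩,
          ← ENNReal.ofReal_add (E_nonneg _) (mul_nonneg two_pos.le (E_nonneg _))]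
        exact ENNReal.ofReal_le_ofReal (Sg.cellD hc hc1 h12 hr)
      · rw [if_neg hr]
        exact zero_le
    · exact crit_total hc hc1 p j _ (fun m => m)
        (fun i m l => Real.logb 2 (dl c₁ p j) - 2 * m - 2 * l + 4 * ((p : ℝ) - i))
        (fun i m l => m + 2 * l + kp c₁ p j i) (fun i m l k => le_rfl)

open Classical Sg Tl Sb in
theorem statSb_u {c₁ C : ℝ} (hC : 0 < C) (hc : 0 < c₁) (hc1 : c₁ ≤ 1) {p : ℕ} (hp₁ : USg C c₁ p)
    (hp₂ : USl c₁ p) : USb (C + 2501) c₁ p := by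
  intro j h12
  obtain ⟨hgA, -, hgD⟩ := hp₁ j h12
  have hX0 : 0 ≤ √c₁ * qq p j := mul_nonneg (Real.sqrt_nonneg _) (qq_pos p j).le
  have hslack := hp₂ j
    (fun k m l i => if m < p + 4 ∧ i < p + 1 then
      ENNReal.ofReal (2 * E (sl c₁ p j k l)) else 0)
    (fun k m l i hm hi => by rw [if_pos ⟨hm, hi⟩]; exact le_rfl)
    (fun k m l i hmi => by rw [if_neg hmi])
  have hfin : ∀ D : ℝ, 0 ≤ D → D ≤ C + 2500 →
      ENNReal.ofReal (D * √c₁ * qq p j) + ENNReal.ofReal (√c₁ * qq p j)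
      ≤ ENNReal.ofReal ((C + 2501) * √c₁ * qq p j) := by
    intro D hD0 hD
    rw [← ENNReal.ofReal_add (by rw [mul_assoc]; positivity) hX0]
    apply ENNReal.ofReal_le_ofReal
    nlinarith only [hX0, hD]
  have hn := qq_pos
  refine ⟨?_, ?_, ?_⟩
  · refine le_trans (add_le_add ?_ ?_) (hfin C hC.le (by linarith only []))
    · refine (near_le (r := fun m l i => rA p j i m l) (fun k m l i => ?_)
        (fun k m l i hr => nearA_term hr)).trans hgA
      have := (nA_pos (c₁ := c₁) (p := p) (j := j) (i := i) (k := k) (m := m) (l := l) hc).le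
      have := hn p i
      positivity
    · refine (far_le (r := fun m l i => rA p j i m l) (fun k m l i => ?_)
        (fun m l i hr => ⟨by have := hr.2.2.1; omega, by have := hr.2.1; omega⟩)
        (fun k m l i hfar hr => farA hc hc1 h12 hfar hr)).trans hslack
      have := (nA_pos (c₁ := c₁) (p := p) (j := j) (i := i) (k := k) (m := m) (l := l) hc).le
      have := hn p i
      positivity
  · refine le_trans (add_le_add ?_ ?_) (hfin 2500 (by norm_num) (by linarith only [hC]))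
    · exact nearN_sum hc hc1 h12 hslack
    · refine (far_le (r := fun m l i => rN p j i m l) (fun k m l i => ?_)
        (fun m l i hr => ⟨by have := hr.2.2.1; omega, by have := hr.2.1; omega⟩)
        (fun k m l i hfar hr => farN hc hc1 h12 hfar hr)).trans hslack
      have := (nN_pos (c₁ := c₁) (p := p) (j := j) (i := i) (k := k) (m := m) (l := l) hc).le
      have := hn p i
      positivity
  · refine le_trans (add_le_add ?_ ?_) (hfin C hC.le (by linarith only []))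
    · refine (near_le (r := fun m n i => rD p j i m n) (fun k m l i => ?_)
        (fun k m l i _ => nearD_term)).trans hgD
      have := (nD_pos (c₁ := c₁) (p := p) (j := j) (i := i) (k := k) (m := m) (l := l) hc).le
      have := hn p i
      positivity
    · refine (far_le (r := fun m n i => rD p j i m n) (fun k m l i => ?_)
        (fun m l i hr => ⟨by have := hr.2.2.1; omega, by have := hr.2.1; omega⟩)
        (fun k m l i hfar hr => farD hc hc1 h12 hfar hr)).trans hslack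
      have := (nD_pos (c₁ := c₁) (p := p) (j := j) (i := i) (k := k) (m := m) (l := l) hc).le
      have := hn p i
      positivity

/-- The constant of the b-sum. -/
noncomputable def DB : ℝ := 125 * 2 * (1 - (2 : ℝ) ^ (-(1 / 100 : ℝ)))⁻¹

lemma DB_pos : 0 < DB := by
  have hr1 : (2 : ℝ) ^ (-(1 / 100 : ℝ)) < 1 :=
    Real.rpow_lt_one_of_one_lt_of_neg (by norm_num) (by norm_num)
  have h1 : 0 < 1 - (2 : ℝ) ^ (-(1 / 100 : ℝ)) := by linarith only [hr1]
  unfold DB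
  positivity

open ArB in
theorem statB_u {θ : ℝ} (hθ : 0 < θ) {p : ℕ} (hp1 : 1 ≤ p) (hp : Big (θ / DB) p) : USB θ p := by
  intro j hj
  set r : ℝ := (2 : ℝ) ^ (-(1 / 100 : ℝ)) with hr
  have hr0 : 0 < r := by positivity
  have hr1 : r < 1 := Real.rpow_lt_one_of_one_lt_of_neg (by norm_num) (by norm_num)
  have hpp : ((p : ℝ) ^ 3 * r ^ p) * (125 * 2 * (1 - r)⁻¹) ≤ θ := by
    have hD := DB_pos
    have hp0 : (0 : ℝ) ≤ p := Nat.cast_nonneg p
    have h1 : r ^ p ≤ (2 : ℝ) ^ (-(1 / 200 * (p : ℝ))) := by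
      rw [hr, ← Real.rpow_natCast, ← Real.rpow_mul (by norm_num)]
      exact Real.rpow_le_rpow_of_exponent_le one_le_two (by linarith only [hp0])
    have h2 : (p : ℝ) ^ 3 ≤ (1 + (p : ℝ)) ^ 12 :=
      (pow_le_pow_left₀ hp0 (by linarith only []) 3).trans
        (pow_le_pow_right₀ (by linarith only [hp0]) (by norm_num))
    have h3 : (p : ℝ) ^ 3 * r ^ p ≤ θ / DB := le_trans (by gcongr) hp
    rw [le_div_iff₀ hD] at h3
    exact h3
  have hq : 0 < ee p j * qq p j := by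
    rw [ee_eq, qq_eq]; positivity
  set A : ℝ := 2 * r ^ p * (ee p j * qq p j) with hA
  have hA0 : 0 ≤ A := by positivity
  calc _ ≤ ∑' k : ℕ, (((p + 4 : ℕ) : ℝ≥0∞) * (((p + 4 : ℕ) : ℝ≥0∞) * (((p + 4 : ℕ) : ℝ≥0∞) *
          (ENNReal.ofReal A * ENNReal.ofReal r ^ k)))) := by
        refine ENNReal.tsum_le_tsum fun k => ?_
        have hb : ∀ m l i : ℕ, (if i ≤ p ∧ m ≤ p - j + 3 ∧ l ≤ p - i + 1 then
            ENNReal.ofReal (2 ^ k * ((1 / 4) ^ j * (1 / 2) ^ l * ((1 / 2) ^ m + ee p j) /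
              DD p j m l) * min ((1 / 8) ^ k * (1 / 4) ^ m * (1 / 4) ^ l * qq p i ^ 3)
              (4 ^ l / qq p i)) else 0) ≤ ENNReal.ofReal A * ENNReal.ofReal r ^ k := by
          intro m l i
          split_ifs with hc
          · rw [← ENNReal.ofReal_pow hr0.le, ← ENNReal.ofReal_mul hA0]
            refine ENNReal.ofReal_le_ofReal ((term_le hj).trans_eq ?_)
            rw [hA]; ring
          · exact zero_le
        refine tsum_range (fun m hm => ?_) fun m => tsum_range (fun l hl => ?_) fun l =>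
          tsum_range (fun i hi => ?_) fun i => hb m l i
        · refine ENNReal.tsum_eq_zero.mpr fun l => ENNReal.tsum_eq_zero.mpr fun i => ?_
          rw [if_neg]; omega
        · refine ENNReal.tsum_eq_zero.mpr fun i => ?_
          rw [if_neg]; omega
        · rw [if_neg]; omega
    _ = ENNReal.ofReal (((p : ℝ) + 4) ^ 3 * A * (1 - r)⁻¹) := by
        rw [ENNReal.tsum_mul_left, ENNReal.tsum_mul_left, ENNReal.tsum_mul_left,
          ENNReal.tsum_mul_left, ENNReal.tsum_geometric]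
        have h1 : (1 - ENNReal.ofReal r)⁻¹ = ENNReal.ofReal (1 - r)⁻¹ := by
          rw [ENNReal.ofReal_inv_of_pos (by linarith only [hr1]), ENNReal.ofReal_sub _ hr0.le,
            ENNReal.ofReal_one]
        have h2 : ((p + 4 : ℕ) : ℝ≥0∞) = ENNReal.ofReal ((p : ℝ) + 4) := by
          rw [← ENNReal.ofReal_natCast]; push_cast; rfl
        rw [h1, h2, ← ENNReal.ofReal_mul hA0, ← ENNReal.ofReal_mul (by positivity),
          ← ENNReal.ofReal_mul (by positivity), ← ENNReal.ofReal_mul (by positivity)]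
        congr 1
        ring
    _ ≤ ENNReal.ofReal (θ * (ee p j * qq p j)) := by
        refine ENNReal.ofReal_le_ofReal ?_
        have hp1' : (1 : ℝ) ≤ p := by exact_mod_cast hp1
        have h3 : ((p : ℝ) + 4) ^ 3 ≤ 125 * (p : ℝ) ^ 3 := by
          have h5 : (p : ℝ) + 4 ≤ 5 * p := by linarith only [hp1']
          calc ((p : ℝ) + 4) ^ 3 ≤ (5 * (p : ℝ)) ^ 3 := by (clear * - hp1 h5; gcongr)
            _ = _ := by ring
        have h1r : 0 < (1 - r)⁻¹ := inv_pos.mpr (by linarith only [hr1])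
        calc ((p : ℝ) + 4) ^ 3 * A * (1 - r)⁻¹ ≤ (125 * (p : ℝ) ^ 3) * A * (1 - r)⁻¹ := by (clear * - hr1 j hq h3; gcongr)
          _ = (((p : ℝ) ^ 3 * r ^ p) * (125 * 2 * (1 - r)⁻¹)) * (ee p j * qq p j) := by
            rw [hA]; ring
          _ ≤ θ * (ee p j * qq p j) := by gcongr

/-- All the sums, with one threshold. -/
theorem stat_u : ∃ D : ℝ, 0 < D ∧ ∀ (c₁ θ : ℝ) (p : ℕ), 0 < c₁ → c₁ ≤ 1 → 0 < θ → 1 ≤ p →
    D / c₁ ^ 11 ≤ p → D / θ ≤ p →
    UST 16000 c₁ p ∧ USg 400001 c₁ p ∧ USb (400001 + 2501) c₁ p ∧ USB θ p := by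
  obtain ⟨κ, hκ, hbig⟩ := exists_big
  have hr : 0 < 1 - Tl.rr := by have := Tl.rr_lt; linarith only [this]
  set D1 : ℝ := 24 / (1 - Tl.rr) ^ 2 * 1024 * 256 with hD1
  have h1 : 0 < D1 := by positivity
  have h2 := Sg.DS_pos
  have h3 := DB_pos
  refine ⟨κ * (D1 + Sg.DS + DB), by positivity, fun c₁ θ p hc hc1 hθ hp1 hp hp' => ?_⟩
  have key : ∀ x d : ℝ, 0 < x → 0 < d → d ≤ D1 + Sg.DS + DB →
      κ * (D1 + Sg.DS + DB) / x ≤ p → Big (x / d) p := by
    intro x d hx hd hdD hxp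
    refine hbig _ (by positivity) p (le_trans ?_ hxp)
    rw [div_div_eq_mul_div]
    gcongr
  have hSl : Sg.USl c₁ p := Sg.slack_total_u hc hc1 hp1
    (key _ _ (by positivity) h2 (by linarith only [h1, h3]) hp)
  have hSg := statSg_u hc hc1 hSl
  refine ⟨statT_u hc hc1 ((key _ _ (by positivity) h1 (by linarith only [h2, h3]) hp).mono ?_),
    hSg, statSb_u (by norm_num) hc hc1 hSg hSl,
    statB_u hθ hp1 (key _ _ hθ h3 (by linarith only [h1, h2]) hp')⟩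
  have : c₁ ^ 11 ≤ c₁ ^ 5 := pow_le_pow_of_le_one hc.le hc1 (by norm_num)
  gcongr

end Vale.Agent.P107.Ar
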