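import Vale.Agent.N107X.U2
import Vale.Agent.N107X.U3

/-!
The path bound and the main estimate, with explicit constants.
-/

set_option linter.all false

attribute [-instance] ProperSMul.toContinuousSMul IsTopologicalTorsor.toContinuousSMul
  IdemSemiring.toCanonicallyOrderedAdd IdemSemiring.toMulLeftMono IdemSemiring.toMulRightMono
  AddQuantale.instAddLeftMono AddQuantale.instAddRightMono Quantale.instMulLeftMono
  Quantale.instMulRightMono FiniteDimensional.rclike_to_real IsScalarTower.complexToReal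
  FiniteDimensional.complexToReal

open MeasureTheory Set Filter Topology
open scoped RealInnerProductSpace ENNReal NNReal

namespace Vale.Agent.P107

open Vale.Agent.P107.Ar

variable {T : ℝ} {f : ℝ → E3 → E3 → ℝ} {E B : ℝ → E3 → E3}

/-- Kernels with constant one. -/
def KOne (κ : E3 → ℝ) : Prop := ∀ z, |κ z| ≤ (‖z‖⁻¹) ^ 2 + ‖z‖⁻¹

lemma kOne_k3 (l : Fin 3) : KOne (k3 l) := by
  intro z
  unfold k3
  rw [abs_mul, abs_of_nonneg (by positivity)]
  have h := abs_component_le z l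
  rcases eq_or_ne z 0 with rfl | hz
  · simp
  · have hpos : 0 < ‖z‖ := norm_pos_iff.2 hz
    calc (‖z‖⁻¹) ^ 3 * |z l| ≤ (‖z‖⁻¹) ^ 3 * ‖z‖ := by gcongr
      _ = (‖z‖⁻¹) ^ 2 := by field_simp
      _ ≤ (‖z‖⁻¹) ^ 2 + ‖z‖⁻¹ := by
        have : 0 ≤ ‖z‖⁻¹ := by positivity
        linarith only [this]

lemma kOne_k2l (l : Fin 3) : KOne (k2l l) := by
  intro z
  unfold k2l
  rw [abs_mul, abs_of_nonneg (by positivity)]
  have h := abs_component_le z l
  rcases eq_or_ne z 0 with rfl | hz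
  · simp
  · have hpos : 0 < ‖z‖ := norm_pos_iff.2 hz
    calc (‖z‖⁻¹) ^ 2 * |z l| ≤ (‖z‖⁻¹) ^ 2 * ‖z‖ := by gcongr
      _ = ‖z‖⁻¹ := by field_simp
      _ ≤ (‖z‖⁻¹) ^ 2 + ‖z‖⁻¹ := by
        have : 0 ≤ (‖z‖⁻¹) ^ 2 := by positivity
        linarith only [this]

lemma kOne_k1 : KOne k1 := by
  intro z
  unfold k1
  rw [abs_of_nonneg (by positivity)]
  have : 0 ≤ (‖z‖⁻¹) ^ 2 := by positivity
  linarith only [this]

lemma KOne.le {κ : E3 → ℝ} (hκ : KOne κ) (hT : 1 ≤ T) {z : E3} (hz : ‖z‖ ≤ T) :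
    |κ z| ≤ 2 * T * (‖z‖⁻¹) ^ 2 := by
  have h1 : ‖z‖⁻¹ ≤ T * (‖z‖⁻¹) ^ 2 := by
    rcases eq_or_ne z 0 with rfl | h0
    · simp
    · have hpos : 0 < ‖z‖ := norm_pos_iff.2 h0
      calc ‖z‖⁻¹ = ‖z‖ * (‖z‖⁻¹) ^ 2 := by field_simp
        _ ≤ _ := by gcongr
  have h2 : (‖z‖⁻¹) ^ 2 ≤ T * (‖z‖⁻¹) ^ 2 := le_mul_of_one_le_left (by positivity) hT
  have := hκ z
  linarith only [this, h1, h2]

/-- The area of the unit sphere. -/
noncomputable def cJ : ℝ := 3 * (volume : Measure E3).real (Metric.ball 0 1)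

lemma cJ_nonneg : 0 ≤ cJ := mul_nonneg (by norm_num) measureReal_nonneg

open LE.LinB in
lemma early_br_u {t₀ D : ℝ} (hT : 1 ≤ T) {A : ℝ × E3 → ℝ} (hA : LateC T A)
    (hE : ∀ p : ℝ × E3, t₀ < p.1 → A p = 0) {κ : E3 → ℝ} (hκ : KOne κ) (hD0 : 0 ≤ D)
    (hD : ∀ p : ℝ × E3, 0 < p.1 → p.1 ≤ t₀ → |A p| ≤ D) :
    ∀ t < T, ∀ x : E3, |br t x κ A| ≤ 2 * cJ * D * T ^ 2 := by
  intro t ht x
  have hT0 : 0 ≤ T := by linarith only [hT]
  have hint : Integrable (fun z : E3 => 2 * T * D * rmaj (fun _ => 1) T ‖z‖) :=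
    (integrable_rmaj (a := fun _ => 1) monotone_const hT0).const_mul _
  unfold br
  rw [← Real.norm_eq_abs]
  refine (norm_integral_le_of_norm_le hint (ae_of_all _ fun z => ?_)).trans ?_
  · have hnn : 0 ≤ 2 * T * D * rmaj (fun _ => 1) T ‖z‖ := by
      unfold rmaj
      split_ifs <;> positivity
    by_cases h1 : t - ‖z‖ ≤ 0
    · rw [hA.vanish (rp t x z) h1, mul_zero, norm_zero]; exact hnn
    by_cases h2 : t₀ < t - ‖z‖
    · rw [hE (rp t x z) h2, mul_zero, norm_zero]; exact hnn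
    push Not at h1 h2
    have hz : ‖z‖ ≤ T := by linarith only [ht, h1]
    rw [norm_mul, Real.norm_eq_abs, Real.norm_eq_abs, rmaj, if_pos hz]
    have h3 := hκ.le hT hz
    have h4 := hD (rp t x z) h1 h2
    calc |κ z| * |A (rp t x z)| ≤ (2 * T * (‖z‖⁻¹) ^ 2) * D := by gcongr
      _ = _ := by ring
  · rw [integral_const_mul, integral_rmaj hT0]
    simp only [intervalIntegral.integral_const, sub_zero, smul_eq_mul, mul_one]
    unfold cJ
    apply le_of_eq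
    ring

open LE.LinB in
lemma early_kerV_u {t₀ D P : ℝ} (hT : 1 ≤ T) {H : ℝ × E3 → E3 → ℝ} (hH : LateV T H)
    (hE : ∀ p : ℝ × E3, t₀ < p.1 → ∀ v, H p v = 0) (hD0 : 0 ≤ D)
    (hD : ∀ p : ℝ × E3, 0 < p.1 → p.1 ≤ t₀ → ∀ v, |H p v| ≤ D)
    (hP : ∀ p : ℝ × E3, p.1 ≤ t₀ → ∀ v, P < ‖v‖ → H p v = 0) :
    ∀ t < T, ∀ x : E3, |∫ z, ∫ v, k1 z * H (rp t x z) v|
      ≤ 2 * cJ * D * (volume : Measure E3).real (Metric.closedBall 0 P) * T ^ 2 := by
  intro t ht x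
  have hT0 : 0 ≤ T := by linarith only [hT]
  refine (double_bound (t := T) (c := 2 * T * D) (P := P) (a := fun _ => 1) hT0 monotone_const
    (Φ := fun z v => k1 z * H (rp t x z) v) ?_ ?_ ?_).trans ?_
  · intro z v _ _ hz
    have hnn : 0 ≤ 2 * T * D * ((‖z‖⁻¹) ^ 2 * 1) := by positivity
    by_cases h1 : t - ‖z‖ ≤ 0
    · rw [hH.vanish (rp t x z) h1, mul_zero, abs_zero]; exact hnn
    by_cases h2 : t₀ < t - ‖z‖
    · rw [hE (rp t x z) h2, mul_zero, abs_zero]; exact hnn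
    push Not at h1 h2
    rw [abs_mul]
    have h3 := kOne_k1.le hT hz
    have h4 := hD (rp t x z) h1 h2 v
    calc |k1 z| * |H (rp t x z) v| ≤ (2 * T * (‖z‖⁻¹) ^ 2) * D := by gcongr
      _ = _ := by ring
  · intro z v hv
    by_cases h2 : t₀ < t - ‖z‖
    · rw [hE (rp t x z) h2, mul_zero]
    · rw [hP (rp t x z) (not_lt.1 h2) v hv, mul_zero]
  · intro z v hz
    rw [hH.vanish (rp t x z) (show t - ‖z‖ ≤ 0 by linarith only [ht, hz]), mul_zero]
  · simp only [intervalIntegral.integral_const, sub_zero, smul_eq_mul, mul_one]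
    unfold cJ
    apply le_of_eq
    ring

/-- Bounds for early times, which do not involve the final time. -/
structure Ear (f : ℝ → E3 → E3 → ℝ) (E B : ℝ → E3 → E3) (t₀ D : ℝ) : Prop where
  one_le : 1 ≤ D
  bE : ∀ (i : Fin 3) (p : ℝ × E3), 0 < p.1 → p.1 ≤ t₀ → |deriv (chi t₀) p.1 * E p.1 p.2 i| ≤ D
  bB : ∀ (i : Fin 3) (p : ℝ × E3), 0 < p.1 → p.1 ≤ t₀ → |deriv (chi t₀) p.1 * B p.1 p.2 i| ≤ D
  bE' : ∀ (i : Fin 3) (p : ℝ × E3), 0 < p.1 → p.1 ≤ t₀ →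
    |ptd (fun p => deriv (chi t₀) p.1 * E p.1 p.2 i) p| ≤ D
  bB' : ∀ (i : Fin 3) (p : ℝ × E3), 0 < p.1 → p.1 ≤ t₀ →
    |ptd (fun p => deriv (chi t₀) p.1 * B p.1 p.2 i) p| ≤ D
  bf : ∀ (p : ℝ × E3), 0 < p.1 → p.1 ≤ t₀ → ∀ v, |deriv (chi t₀) p.1 * f p.1 p.2 v| ≤ D
  supp : ∀ s ∈ Icc 0 t₀, ∀ x v, f s x v ≠ 0 → ‖x‖ ≤ D ∧ ‖v‖ ≤ D
  sup : ∀ x v, f (t₀ / 2) x v ≤ D
  en : energy0 f E B ≤ D

lemma DtermL_u (h : IsClassicalSolution T f E B) {t₀ D : ℝ} (h0 : 0 < t₀) (hT : 1 ≤ T)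
    (hD : Ear f E B t₀ D) : ∀ t < T, ∀ x : E3, ∀ b : E3, ‖b‖ ≤ 1 → ∀ i : Fin 3,
      |DtermL t₀ E B t x b i| ≤ 30 * cJ * D * T ^ 2 := by
  have hη4 : 0 < t₀ / 4 := by linarith only [h0]
  have hD0 : 0 ≤ D := by linarith only [hD.one_le]
  have hc' : ContDiff ℝ 1 (deriv (chi t₀)) := contDiff_deriv_chi t₀
  have hcv' : ∀ s ≤ t₀ / 4, deriv (chi t₀) s = 0 := fun s hs => deriv_chi_early h0 hs
  have LE' := fun i => late_cut h.E_contDiff hη4 hc' hcv' i
  have LB' := fun i => late_cut h.B_contDiff hη4 hc' hcv' i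
  have eE : ∀ i : Fin 3, ∀ p : ℝ × E3, t₀ < p.1 → deriv (chi t₀) p.1 * E p.1 p.2 i = 0 :=
    fun i p hp => by rw [deriv_chi_late h0 hp, zero_mul]
  have eB : ∀ i : Fin 3, ∀ p : ℝ × E3, t₀ < p.1 → deriv (chi t₀) p.1 * B p.1 p.2 i = 0 :=
    fun i p hp => by rw [deriv_chi_late h0 hp, zero_mul]
  have b1 : ∀ i j k : Fin 3, ∀ t < T, ∀ x : E3,
      |Dterm t₀ E B t x i j k| ≤ 10 * cJ * D * T ^ 2 := by
    intro i j k t ht x
    have a1 := abs_le.1 (early_br_u hT (LE' i).ptd_lateC (ptd_early (eE i)) kOne_k1 hD0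
      (hD.bE' i) t ht x)
    have a2 := abs_le.1 (early_br_u hT (LB' k).lateC (eB _) (kOne_k3 j) hD0 (hD.bB k) t ht x)
    have a3 := abs_le.1 (early_br_u hT (LB' j).lateC (eB _) (kOne_k3 k) hD0 (hD.bB j) t ht x)
    have a4 := abs_le.1 (early_br_u hT (LB' k).ptd_lateC (ptd_early (eB _)) (kOne_k2l j) hD0
      (hD.bB' k) t ht x)
    have a5 := abs_le.1 (early_br_u hT (LB' j).ptd_lateC (ptd_early (eB _)) (kOne_k2l k) hD0
      (hD.bB' j) t ht x)
    unfold Dterm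
    rw [abs_le]
    constructor <;> linarith only [a1.2, a2.2, a3.1, a4.2, a5.1, a1.1, a2.1, a3.2, a4.1, a5.2]
  have b2 : ∀ i j k : Fin 3, ∀ t < T, ∀ x : E3,
      |DtermB t₀ E B t x i j k| ≤ 10 * cJ * D * T ^ 2 := by
    intro i j k t ht x
    have a1 := abs_le.1 (early_br_u hT (LB' i).ptd_lateC (ptd_early (eB i)) kOne_k1 hD0
      (hD.bB' i) t ht x)
    have a2 := abs_le.1 (early_br_u hT (LE' k).lateC (eE _) (kOne_k3 j) hD0 (hD.bE k) t ht x)
    have a3 := abs_le.1 (early_br_u hT (LE' j).lateC (eE _) (kOne_k3 k) hD0 (hD.bE j) t ht x)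
    have a4 := abs_le.1 (early_br_u hT (LE' k).ptd_lateC (ptd_early (eE _)) (kOne_k2l j) hD0
      (hD.bE' k) t ht x)
    have a5 := abs_le.1 (early_br_u hT (LE' j).ptd_lateC (ptd_early (eE _)) (kOne_k2l k) hD0
      (hD.bE' j) t ht x)
    unfold DtermB
    rw [abs_le]
    constructor <;> linarith only [a1.1, a2.2, a3.1, a4.2, a5.1, a1.2, a2.1, a3.2, a4.1, a5.2]
  intro t ht x b hb i
  unfold DtermL
  have hbj := abs_component_le_one hb (i + 1)
  have hbk := abs_component_le_one hb (i + 2)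
  have a1 := b1 i (i + 1) (i + 2) t ht x
  have a2 := b2 (i + 2) i (i + 1) t ht x
  have a3 := b2 (i + 1) (i + 2) i t ht x
  have e : 30 * cJ * D * T ^ 2 = 10 * cJ * D * T ^ 2 + 10 * cJ * D * T ^ 2
    + 10 * cJ * D * T ^ 2 := by ring
  rw [e]
  refine (abs_add_le _ _).trans (add_le_add ((abs_sub _ _).trans (add_le_add a1 ?_)) ?_)
  · rw [abs_mul]
    calc |b (i + 1)| * |DtermB t₀ E B t x (i + 2) i (i + 1)| ≤ 1 * (10 * cJ * D * T ^ 2) := by
          (clear * - hbj a2; gcongr)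
      _ = _ := one_mul _
  · rw [abs_mul]
    calc |b (i + 2)| * |DtermB t₀ E B t x (i + 1) (i + 2) i| ≤ 1 * (10 * cJ * D * T ^ 2) := by
          (clear * - hbk a3; gcongr)
      _ = _ := one_mul _

/-- A statement with explicit constants. -/
def UKX (T : ℝ) (f : ℝ → E3 → E3 → ℝ) (E B : ℝ → E3 → E3) (t₀ R₀ : ℝ) (C : ℝ≥0) : Prop :=
    ∀ t < T, ∀ x : E3, ‖x‖ ≤ R₀ → ∀ (ε e : ℝ), 0 < ε → ε ≤ 1 →
      ∀ b c : E3, ‖b‖ < 1 → ‖c‖ < 1 → ∀ i : Fin 3,
      ENNReal.ofReal |bv t x (fun v z => kX ε e b c i (u v) z) (HS (chi t₀) f)| ≤ C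
        + coneInt (t₀ / 2) T f t x (fun z v => ENNReal.ofReal (‖z‖⁻¹
          * ‖fderiv ℝ (fun v => Psi ε e (dir z) (u v) b c) v
            (lor (E (t - ‖z‖) (x + z)) (B (t - ‖z‖) (x + z)) v)‖))

/-- A statement with explicit constants. -/
def UPB (T : ℝ) (f : ℝ → E3 → E3 → ℝ) (E B : ℝ → E3 → E3) (t₀ R₀ : ℝ) (C : ℝ≥0) : Prop :=
    ∀ (ε e : ℝ), 0 < ε → ε ≤ 1 → 0 < e → e ≤ 1 →
      ∀ (X V : ℝ → E3) (t₁ t₂ : ℝ), t₀ ≤ t₁ → t₁ ≤ t₂ → t₂ < T → IsChar E B X V t₁ t₂ →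
      (∀ s ∈ Icc t₁ t₂, ‖X s‖ ≤ R₀) →
      ∀ c : E3, ‖c‖ < 1 → 1 - ‖c‖ ^ 2 ≤ e ^ 2 →
      (∀ s ∈ Icc t₁ t₂, ‖u (V s) - c‖ ≤ e ∧ 1 - ‖u (V s)‖ ^ 2 ≤ e ^ 2) →
      ∀ Bd : ℝ≥0∞, (∀ s ∈ Icc t₁ t₂, coneInt (t₀ / 2) T f s (X s)
          (fun z v => ENNReal.ofReal (‖z‖⁻¹ * bC ε e (dir z) (u v) (u (V s)))) ≤ Bd) →
      ENNReal.ofReal ‖V t₂ - V t₁‖ ≤ C * Bd + C * ENNReal.ofReal (t₂ - t₁)
        + C * pathInt (t₀ / 2) T f X t₁ t₂ (fun s z v => ENNReal.ofReal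
            ((‖z‖⁻¹) ^ 2 * bTT ε e (dir z) (u v) (u (V s))
              + ‖z‖⁻¹ * ((q v)⁻¹ * ‖lor (E (s - ‖z‖) (X s + z)) (B (s - ‖z‖) (X s + z)) v‖
                * bS ε e (dir z) (u v) (u (V s)))))

/-- The constant of the early term. -/
noncomputable def cK (R' : ℝ) : ℝ :=
  1 + (2 * (1 + |R'|) ^ 2) * (8 + 2 * ((2 * (1 + |R'|) ^ 2) * 8))

lemma kX_term_u (h : IsClassicalSolution T f E B) {t₀ D : ℝ} (h0 : 0 < t₀) (hT : 1 ≤ T)
    (hD : Ear f E B t₀ D) (R₀ : ℝ) : UKX T f E B t₀ R₀ (Real.toNNReal (cK D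
      * (2 * cJ * D * (volume : Measure E3).real (Metric.closedBall 0 D) * T ^ 2))) := by
  have hη2 : 0 < t₀ / 2 := by linarith only [h0]
  have hη4 : 0 < t₀ / 4 := by linarith only [h0]
  have hD0 : 0 ≤ D := by linarith only [hD.one_le]
  have hc1 : ContDiff ℝ 1 (chi t₀) := (contDiff_chi t₀).of_le (by norm_num)
  have hc' : ContDiff ℝ 1 (deriv (chi t₀)) := contDiff_deriv_chi t₀
  have hcv : ∀ s ≤ t₀ / 2, chi t₀ s = 0 := fun s hs => chi_eq_zero h0 hs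
  have hcv' : ∀ s ≤ t₀ / 4, deriv (chi t₀) s = 0 := fun s hs => deriv_chi_early h0 hs
  have V0' := lateV_H0 h.f_contDiff h.compact_support hη4 hc' hcv'
  have V0a := V0'.abs
  have hR' : ∀ p : ℝ × E3, p.1 ≤ t₀ → ∀ v, D < ‖v‖ → deriv (chi t₀) p.1 * f p.1 p.2 v = 0 := by
    intro p hp v hv
    by_cases h1 : p.1 ≤ 0
    · rw [hcv' p.1 (by linarith only [h1, hη4]), zero_mul]
    · by_contra hne
      have := (hD.supp p.1 ⟨(not_le.1 h1).le, hp⟩ p.2 v (right_ne_zero_of_mul hne)).2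
      linarith only [this, hv]
  have hC1' := early_kerV_u (t₀ := t₀) (D := D) (P := D) hT V0a (fun p hp v => by
    rw [deriv_chi_late h0 hp, zero_mul, abs_zero]) hD0
    (fun p h1 h2 v => by rw [abs_abs]; exact hD.bf p h1 h2 v)
    (fun p h1 v hv => by rw [hR' p h1 v hv, abs_zero])
  set C1 : ℝ := 2 * cJ * D * (volume : Measure E3).real (Metric.closedBall 0 D) * T ^ 2 with hC1e
  have hC1 : ∀ t < T, ∀ x : E3, ‖x‖ ≤ R₀ → _ := fun t ht x _ => hC1' t ht x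
  unfold cK
  set K : ℝ := 1 + (2 * (1 + |D|) ^ 2) * (8 + 2 * ((2 * (1 + |D|) ^ 2) * 8)) with hK
  have hK0 : 0 ≤ K := by (clear * - D; positivity)
  intro t ht x hx ε e hε hε1 b c hb hc i
  -- the majorant of the early term
  set m : E3 → ℝ := fun z => K * ∫ v, k1 z * |deriv (chi t₀) (rp t x z).1
    * f (rp t x z).1 (rp t x z).2 v| with hm
  have hmint : Integrable m :=
    ((ker_k1.kerV.integrable V0a ht x).integral_prod_right).const_mul K
  have hm0 : ∀ z, 0 ≤ m z := fun z => mul_nonneg hK0 (integral_nonneg fun v =>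
    mul_nonneg (inv_nonneg.2 (norm_nonneg z)) (abs_nonneg _))
  have hmle : ∫⁻ z, ENNReal.ofReal (m z) ≤ (Real.toNNReal (K * C1) : ℝ≥0∞) := by
    rw [← ofReal_integral_eq_lintegral_ofReal hmint (ae_of_all _ hm0)]
    refine ENNReal.ofReal_le_ofReal ?_
    rw [hm, integral_const_mul]
    gcongr
    exact (le_abs_self _).trans (hC1 t ht x hx)
  have e1 : ∀ {G : E3 → ℝ}, ENNReal.ofReal |∫ z, G z| ≤ ∫⁻ z, ENNReal.ofReal |G z| := by
    intro G
    have := enorm_integral_le_lintegral_enorm (μ := (volume : Measure E3)) G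
    simpa only [Real.enorm_eq_ofReal_abs] using this
  refine le_trans ?_ (add_le_add hmle le_rfl)
  unfold coneInt
  rw [← lintegral_add_left' hmint.aestronglyMeasurable.aemeasurable.ennreal_ofReal]
  unfold bv
  refine e1.trans (lintegral_mono_ae ?_)
  filter_upwards [ae_ne_zero] with z hz
  have hτ : t - ‖z‖ < T := by linarith only [ht, norm_nonneg z]
  set g : E3 → ℝ := fun v => chi t₀ (t - ‖z‖) * f (t - ‖z‖) (x + z) v with hg
  set g' : E3 → ℝ := fun v => deriv (chi t₀) (t - ‖z‖) * f (t - ‖z‖) (x + z) v with hg'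
  set Λ : E3 → ℝ := fun v => kX ε e b c i (u v) z with hΛ
  set F : E3 → E3 := lor (E (t - ‖z‖) (x + z)) (B (t - ‖z‖) (x + z)) with hF
  have V0 := lateV_F0 h h0
  have hgC : ContDiff ℝ 1 g :=
    contDiff_slice h.f_contDiff hη2 hc1 hcv (p := (t - ‖z‖, x + z)) hτ
  have hgs : HasCompactSupport g := by
    obtain ⟨R, hR⟩ := V0.supp t ht
    refine HasCompactSupport.intro (isCompact_closedBall (0 : E3) R) fun v hv => ?_
    rw [Metric.mem_closedBall, dist_zero_right, not_le] at hv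
    exact hR (t - ‖z‖, x + z) (by simp) v hv
  have hgC' : ContDiff ℝ 1 g' :=
    contDiff_slice h.f_contDiff hη4 hc' hcv' (p := (t - ‖z‖, x + z)) hτ
  have hgs' : HasCompactSupport g' := by
    obtain ⟨R, hR⟩ := V0'.supp t ht
    refine HasCompactSupport.intro (isCompact_closedBall (0 : E3) R) fun v hv => ?_
    rw [Metric.mem_closedBall, dist_zero_right, not_le] at hv
    exact hR (t - ‖z‖, x + z) (by simp) v hv
  have hΛC : ContDiff ℝ 1 Λ := contDiff_kX_u hz hc hε b i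
  have hFC : Continuous F := (contDiff_lor _ _).continuous
  have i1 : Integrable fun v => Λ v * g' v :=
    (hΛC.continuous.mul hgC'.continuous).integrable_of_hasCompactSupport hgs'.mul_left
  have i2 : Integrable fun v => Λ v * fderiv ℝ g v (F v) := by
    refine (hΛC.continuous.mul ((hgC.continuous_fderiv (by norm_num)).clm_apply hFC)
      ).integrable_of_hasCompactSupport ?_
    refine HasCompactSupport.mul_left ?_
    refine (hgs.fderiv (𝕜 := ℝ)).mono' ?_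
    intro v hv
    by_contra hne
    have : fderiv ℝ g v = 0 := by
      by_contra h3
      exact hne (subset_tsupport _ h3)
    rw [Function.mem_support, this] at hv
    simp at hv
  have e2 : ∀ v, kX ε e b c i (u v) z * HS (chi t₀) f (rp t x z) v
      = Λ v * g' v - Λ v * fderiv ℝ g v (F v) := by
    intro v
    rw [HS_eq h hη2 hc1 hcv (p := rp t x z) hτ v]
    simp only [rp, hg, hg', hΛ, hF]
    ring
  rw [integral_congr_ae (ae_of_all _ e2), integral_sub i1 i2, S_ibp_gen hgC hgs hΛC, sub_neg_eq_add]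
  have e3 : |∫ v, Λ v * g' v| ≤ m z := by
    rw [hm]
    simp only
    rw [← integral_const_mul, ← Real.norm_eq_abs]
    refine norm_integral_le_of_norm_le ?_ (ae_of_all _ fun v => ?_)
    · refine Integrable.const_mul (Integrable.const_mul ?_ _) _
      exact (hgC'.continuous.abs).integrable_of_hasCompactSupport
        (hgs'.comp_left (g := fun y : ℝ => |y|) abs_zero)
    · rw [norm_mul, Real.norm_eq_abs, Real.norm_eq_abs]
      simp only [rp]
      by_cases hv : D < ‖v‖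
      · have h4 : g' v = 0 := by
          by_cases h5 : t - ‖z‖ ≤ t₀
          · exact hR' (t - ‖z‖, x + z) h5 v hv
          · push Not at h5
            simp only [hg']
            rw [deriv_chi_late h0 h5, zero_mul]
        rw [h4, abs_zero, mul_zero]
        exact mul_nonneg hK0 (mul_nonneg (inv_nonneg.2 (norm_nonneg z)) (abs_nonneg _))
      · push Not at hv
        have h4 := abs_kX_le (e := e) hz hb hc hε hε1 i hv
        calc |Λ v| * |g' v| ≤ (K * ‖z‖⁻¹) * |g' v| := by (clear * - h4; gcongr)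
          _ = _ := by simp only [k1, hg']; ring
  have e4 : ENNReal.ofReal |∫ v, g v * fderiv ℝ Λ v (F v)|
      ≤ ∫⁻ v, ENNReal.ofReal (‖z‖⁻¹ * ‖fderiv ℝ (fun v => Psi ε e (dir z) (u v) b c) v (F v)‖)
        * fl (t₀ / 2) T f (t - ‖z‖) (x + z) v := by
    refine e1.trans (lintegral_mono fun v => ?_)
    rw [abs_mul, ENNReal.ofReal_mul (abs_nonneg _), mul_comm]
    refine mul_le_mul' (ENNReal.ofReal_le_ofReal ?_) (ofReal_F0_le h h0 ht x z v)
    exact fderiv_kX_u hz hc hε b i v (F v)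
  calc ENNReal.ofReal |(∫ v, Λ v * g' v) + ∫ v, g v * fderiv ℝ Λ v (F v)|
      ≤ ENNReal.ofReal (|∫ v, Λ v * g' v| + |∫ v, g v * fderiv ℝ Λ v (F v)|) :=
        ENNReal.ofReal_le_ofReal (abs_add_le _ _)
    _ = ENNReal.ofReal |∫ v, Λ v * g' v| + ENNReal.ofReal |∫ v, g v * fderiv ℝ Λ v (F v)| :=
        ENNReal.ofReal_add (abs_nonneg _) (abs_nonneg _)
    _ ≤ _ := add_le_add (ENNReal.ofReal_le_ofReal e3) e4

theorem path_bound_u (h : IsClassicalSolution T f E B) {t₀ : ℝ} (h0 : 0 < t₀) (R₀ : ℝ)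
    {C1 C2 C3 CD : ℝ} {CX : ℝ≥0} (hC1 : 0 < C1) (hC2 : 0 < C2) (hC3 : 0 < C3) (hCD : 0 ≤ CD)
    (kb1 : ∀ (ε e : ℝ) (w a b c : E3), 0 < ε → ε ≤ 1 → 0 < e → e ≤ 1 →
    ‖w‖ = 1 → ‖a‖ < 1 → ‖b‖ < 1 → ‖c‖ < 1 → ‖b - c‖ ≤ e → 1 - ‖b‖ ^ 2 ≤ e ^ 2 →
    1 - ‖c‖ ^ 2 ≤ e ^ 2 → ‖ck ε e w a c‖ ≤ C1 * bC ε e w a b)
    (kb2 : ∀ (ε e : ℝ) (w b c v F : E3), 0 < ε → ε ≤ 1 → 0 < e →
    e ≤ 1 → ‖w‖ = 1 → ‖b‖ < 1 → ‖c‖ < 1 → ‖b - c‖ ≤ e → 1 - ‖b‖ ^ 2 ≤ e ^ 2 →
    1 - ‖c‖ ^ 2 ≤ e ^ 2 →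
    ‖fderiv ℝ (fun v => Psi ε e w (u v) b c) v F‖
      ≤ C2 * ((q v)⁻¹ * ‖F‖ * bS ε e w (u v) b))
    (kb3 : ∀ (ε e : ℝ) (w a b c : E3), 0 < ε → ε ≤ 1 → 0 < e → e ≤ 1 →
    ‖w‖ = 1 → ‖a‖ < 1 → ‖b‖ < 1 → ‖c‖ < 1 → ‖b - c‖ ≤ e → 1 - ‖b‖ ^ 2 ≤ e ^ 2 →
    1 - ‖c‖ ^ 2 ≤ e ^ 2 → ‖Theta ε e w a b c‖ ≤ C3 * bTT ε e w a b)
    (kbD : ∀ t < T, ∀ x : E3, ‖x‖ ≤ R₀ → ∀ b : E3, ‖b‖ ≤ 1 → ∀ i : Fin 3,
      |DtermL t₀ E B t x b i| ≤ CD) (kbX : UKX T f E B t₀ R₀ CX) :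
    UPB T f E B t₀ R₀ (Real.toNNReal
      (3 * ((sph.real univ)⁻¹ * (CX + CD + max C2 C3 + 2 * C1)))) := by
  set c₀ : ℝ := sph.real univ with hc₀
  have hc₀p : 0 < c₀ := sph_pos
  set K : ℝ := max C2 C3 with hK
  have hK0 : 0 ≤ K := hC2.le.trans (le_max_left _ _)
  set A : ℝ := CX + CD with hA
  have hA0 : 0 ≤ A := add_nonneg (NNReal.coe_nonneg CX) hCD
  set L : ℝ := 3 * (c₀⁻¹ * (A + K + 2 * C1)) with hL
  have hL0 : 0 ≤ L := by (clear * - C1 hC1 C2 hC2 C3 CD hCD CX c₀ hc₀p K A; positivity)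
  intro ε e hε hε1 he he1 X V t₁ t₂ h01 h12 h2T hch hX c hc hce hVs Bd hBd
  -- the integrand
  set g : ℝ → E3 → E3 → ℝ≥0∞ := fun s z v => ENNReal.ofReal
            ((‖z‖⁻¹) ^ 2 * bTT ε e (dir z) (u v) (u (V s))
              + ‖z‖⁻¹ * ((q v)⁻¹ * ‖lor (E (s - ‖z‖) (X s + z)) (B (s - ‖z‖) (X s + z)) v‖
                * bS ε e (dir z) (u v) (u (V s)))) with hg
  have hsT : ∀ s ∈ Icc t₁ t₂, s < T := fun s hs => lt_of_le_of_lt hs.2 h2T
  -- bound of the right hand side of the representation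
  have rho : ∀ s ∈ Icc t₁ t₂, ∀ i : Fin 3,
      ENNReal.ofReal |c₀ * (E s (X s) + cross (u (V s)) (B s (X s))) i
        + bv s (X s) (fun v z => kc ε e c i (u v) z) (HD t₀ f (u (V s)))|
      ≤ ENNReal.ofReal A + ENNReal.ofReal K * coneInt (t₀ / 2) T f s (X s) (g s) := by
    intro s hs i
    have hsT' := hsT s hs
    have hb := norm_u_lt_one (V s)
    obtain ⟨hbc, hbe⟩ := hVs s hs
    rw [repr_sum h h0 (h01.trans hs.1) hsT' (X s) hε hε1 he he1 hb hc i]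
    have p1 : ENNReal.ofReal |bv s (X s) (fun v z => (‖z‖⁻¹) ^ 2
          * (Theta ε e (dir z) (u v) (u (V s)) c) i) (F0 t₀ f)|
        ≤ coneInt (t₀ / 2) T f s (X s) (fun z v => ENNReal.ofReal K * ENNReal.ofReal
          ((‖z‖⁻¹) ^ 2 * bTT ε e (dir z) (u v) (u (V s)))) := by
      refine ofReal_bv_F0_le h h0 hsT' (X s) fun v z hz => ?_
      rw [← ENNReal.ofReal_mul hK0]
      apply ENNReal.ofReal_le_ofReal
      rw [abs_mul, abs_of_nonneg (by positivity : (0 : ℝ) ≤ (‖z‖⁻¹) ^ 2)]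
      have h1 := kb3 ε e (dir z) (u v) (u (V s)) c hε hε1 he he1 (norm_dir_pl hz)
        (norm_u_lt_one v) hb hc hbc hbe hce
      have h2 : 0 ≤ bTT ε e (dir z) (u v) (u (V s)) :=
        nonneg_of_mul_nonneg_right ((norm_nonneg _).trans h1) hC3
      calc (‖z‖⁻¹) ^ 2 * |(Theta ε e (dir z) (u v) (u (V s)) c) i|
          ≤ (‖z‖⁻¹) ^ 2 * (K * bTT ε e (dir z) (u v) (u (V s))) := by
            refine mul_le_mul_of_nonneg_left ?_ (by positivity)
            exact (abs_component_le _ i).trans (h1.trans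
              (mul_le_mul_of_nonneg_right (le_max_right _ _) h2))
        _ = _ := by ring
    have p2 : ENNReal.ofReal |bv s (X s) (fun v z => kX ε e (u (V s)) c i (u v) z)
          (HS (chi t₀) f)|
        ≤ CX + coneInt (t₀ / 2) T f s (X s) (fun z v => ENNReal.ofReal K * ENNReal.ofReal
          (‖z‖⁻¹ * ((q v)⁻¹ * ‖lor (E (s - ‖z‖) (X s + z)) (B (s - ‖z‖) (X s + z)) v‖
                * bS ε e (dir z) (u v) (u (V s))))) := by
      refine (kbX s hsT' (X s) (hX s hs) ε e hε hε1 (u (V s)) c hb hc i).trans ?_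
      refine add_le_add le_rfl (coneInt_mono fun z hz v => ?_)
      rw [← ENNReal.ofReal_mul hK0]
      apply ENNReal.ofReal_le_ofReal
      have h1 := kb2 ε e (dir z) (u (V s)) c v
        (lor (E (s - ‖z‖) (X s + z)) (B (s - ‖z‖) (X s + z)) v) hε hε1 he he1 (norm_dir_pl hz)
        hb hc hbc hbe hce
      have h2 : 0 ≤ (q v)⁻¹ * ‖lor (E (s - ‖z‖) (X s + z)) (B (s - ‖z‖) (X s + z)) v‖
                * bS ε e (dir z) (u v) (u (V s)) :=
        nonneg_of_mul_nonneg_right ((norm_nonneg _).trans h1) hC2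
      calc ‖z‖⁻¹ * ‖fderiv ℝ (fun v => Psi ε e (dir z) (u v) (u (V s)) c) v
            (lor (E (s - ‖z‖) (X s + z)) (B (s - ‖z‖) (X s + z)) v)‖
          ≤ ‖z‖⁻¹ * (K * ((q v)⁻¹ * ‖lor (E (s - ‖z‖) (X s + z)) (B (s - ‖z‖) (X s + z)) v‖
                * bS ε e (dir z) (u v) (u (V s)))) := by
            refine mul_le_mul_of_nonneg_left ?_ (by positivity)
            exact h1.trans (mul_le_mul_of_nonneg_right (le_max_left _ _) h2)
        _ = _ := by ring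
    have p3 : ENNReal.ofReal |DtermL t₀ E B s (X s) (u (V s)) i| ≤ ENNReal.ofReal CD :=
      ENNReal.ofReal_le_ofReal (kbD s hsT' (X s) (hX s hs) (u (V s)) hb.le i)
    -- positivity of the two parts of the integrand
    have q1 : ∀ z ≠ 0, ∀ v, 0 ≤ (‖z‖⁻¹) ^ 2 * bTT ε e (dir z) (u v) (u (V s)) := by
      intro z hz v
      have h1 := kb3 ε e (dir z) (u v) (u (V s)) c hε hε1 he he1 (norm_dir_pl hz)
        (norm_u_lt_one v) hb hc hbc hbe hce
      have h2 : 0 ≤ bTT ε e (dir z) (u v) (u (V s)) :=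
        nonneg_of_mul_nonneg_right ((norm_nonneg _).trans h1) hC3
      positivity
    have q2 : ∀ z ≠ 0, ∀ v, 0 ≤ ‖z‖⁻¹ * ((q v)⁻¹
        * ‖lor (E (s - ‖z‖) (X s + z)) (B (s - ‖z‖) (X s + z)) v‖
                * bS ε e (dir z) (u v) (u (V s))) := by
      intro z hz v
      have h1 := kb2 ε e (dir z) (u (V s)) c v
        (lor (E (s - ‖z‖) (X s + z)) (B (s - ‖z‖) (X s + z)) v) hε hε1 he he1 (norm_dir_pl hz)
        hb hc hbc hbe hce
      have h2 : 0 ≤ (q v)⁻¹ * ‖lor (E (s - ‖z‖) (X s + z)) (B (s - ‖z‖) (X s + z)) v‖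
                * bS ε e (dir z) (u v) (u (V s)) :=
        nonneg_of_mul_nonneg_right ((norm_nonneg _).trans h1) hC2
      exact mul_nonneg (by positivity) h2
    have p4 : coneInt (t₀ / 2) T f s (X s) (fun z v => ENNReal.ofReal K * ENNReal.ofReal
          ((‖z‖⁻¹) ^ 2 * bTT ε e (dir z) (u v) (u (V s))))
        + coneInt (t₀ / 2) T f s (X s) (fun z v => ENNReal.ofReal K * ENNReal.ofReal
          (‖z‖⁻¹ * ((q v)⁻¹ * ‖lor (E (s - ‖z‖) (X s + z)) (B (s - ‖z‖) (X s + z)) v‖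
                * bS ε e (dir z) (u v) (u (V s)))))
        ≤ ENNReal.ofReal K * coneInt (t₀ / 2) T f s (X s) (g s) := by
      refine (coneInt_add_le _ _).trans ?_
      rw [← coneInt_const_mul ENNReal.ofReal_ne_top]
      refine coneInt_mono fun z hz v => ?_
      rw [← mul_add, hg]
      simp only
      rw [ENNReal.ofReal_add (q1 z hz v) (q2 z hz v)]
    calc ENNReal.ofReal |bv s (X s) (fun v z => (‖z‖⁻¹) ^ 2
          * (Theta ε e (dir z) (u v) (u (V s)) c) i) (F0 t₀ f)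
          - bv s (X s) (fun v z => kX ε e (u (V s)) c i (u v) z) (HS (chi t₀) f)
          - DtermL t₀ E B s (X s) (u (V s)) i|
        ≤ ENNReal.ofReal (|bv s (X s) (fun v z => (‖z‖⁻¹) ^ 2
          * (Theta ε e (dir z) (u v) (u (V s)) c) i) (F0 t₀ f)|
          + |bv s (X s) (fun v z => kX ε e (u (V s)) c i (u v) z) (HS (chi t₀) f)|
          + |DtermL t₀ E B s (X s) (u (V s)) i|) :=
          ENNReal.ofReal_le_ofReal ((abs_sub _ _).trans (add_le_add (abs_sub _ _) le_rfl))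
      _ = ENNReal.ofReal |bv s (X s) (fun v z => (‖z‖⁻¹) ^ 2
          * (Theta ε e (dir z) (u v) (u (V s)) c) i) (F0 t₀ f)|
          + ENNReal.ofReal |bv s (X s) (fun v z => kX ε e (u (V s)) c i (u v) z)
            (HS (chi t₀) f)|
          + ENNReal.ofReal |DtermL t₀ E B s (X s) (u (V s)) i| := by
          rw [ENNReal.ofReal_add (by (clear * -; positivity)) (abs_nonneg _),
            ENNReal.ofReal_add (abs_nonneg _) (abs_nonneg _)]
      _ ≤ _ := add_le_add (add_le_add p1 p2) p3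
      _ = (CX + ENNReal.ofReal CD) + (coneInt (t₀ / 2) T f s (X s)
          (fun z v => ENNReal.ofReal K * ENNReal.ofReal
          ((‖z‖⁻¹) ^ 2 * bTT ε e (dir z) (u v) (u (V s))))
        + coneInt (t₀ / 2) T f s (X s) (fun z v => ENNReal.ofReal K * ENNReal.ofReal
          (‖z‖⁻¹ * ((q v)⁻¹ * ‖lor (E (s - ‖z‖) (X s + z)) (B (s - ‖z‖) (X s + z)) v‖
                * bS ε e (dir z) (u v) (u (V s)))))) := by ring
      _ ≤ _ := by
          refine add_le_add (le_of_eq ?_) p4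
          rw [hA, ENNReal.ofReal_add (NNReal.coe_nonneg CX) hCD, ENNReal.ofReal_coe_nnreal]
  -- the momentum correction
  have hbeta : ∀ s ∈ Icc t₁ t₂, ∀ i : Fin 3,
      ENNReal.ofReal |bv s (X s) (fun v z => kc ε e c i (u v) z) (F0 t₀ f)|
        ≤ ENNReal.ofReal C1 * Bd := by
    intro s hs i
    have hb := norm_u_lt_one (V s)
    obtain ⟨hbc, hbe⟩ := hVs s hs
    have h3 : ENNReal.ofReal |bv s (X s) (fun v z => kc ε e c i (u v) z) (F0 t₀ f)|
        ≤ coneInt (t₀ / 2) T f s (X s) (fun z v => ENNReal.ofReal C1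
          * ENNReal.ofReal (‖z‖⁻¹ * bC ε e (dir z) (u v) (u (V s)))) := by
      refine ofReal_bv_F0_le h h0 (hsT s hs) (X s) fun v z hz => ?_
      rw [← ENNReal.ofReal_mul hC1.le]
      apply ENNReal.ofReal_le_ofReal
      have h1 := kb1 ε e (dir z) (u v) (u (V s)) c hε hε1 he he1 (norm_dir_pl hz)
        (norm_u_lt_one v) hb hc hbc hbe hce
      unfold kc
      rw [abs_mul, abs_of_nonneg (by positivity : (0 : ℝ) ≤ ‖z‖⁻¹)]
      calc ‖z‖⁻¹ * |(ck ε e (dir z) (u v) c) i|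
          ≤ ‖z‖⁻¹ * (C1 * bC ε e (dir z) (u v) (u (V s))) :=
            mul_le_mul_of_nonneg_left ((abs_component_le _ i).trans h1) (by positivity)
        _ = _ := by ring
    refine h3.trans ?_
    rw [coneInt_const_mul ENNReal.ofReal_ne_top]
    exact mul_le_mul' le_rfl (hBd s hs)
  -- integration in time
  have hcomp : ∀ i : Fin 3, ENNReal.ofReal |(V t₂ - V t₁) i| ≤ ENNReal.ofReal c₀⁻¹
      * (ENNReal.ofReal A * ENNReal.ofReal (t₂ - t₁)
        + ENNReal.ofReal K * pathInt (t₀ / 2) T f X t₁ t₂ g + 2 * (ENNReal.ofReal C1 * Bd)) := by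
    intro i
    obtain ⟨hcont, hder⟩ := hasDerivAt_path h h0 (kerV_kc hε hε1 he he1 hc i) h12 h2T hch.hX
    set β : ℝ → ℝ := fun s => bv s (X s) (fun v z => kc ε e c i (u v) z) (F0 t₀ f) with hβ
    set φ : ℝ → ℝ := fun s => c₀ * (V s) i + β s with hφ
    have hVc : ContinuousOn (fun s => (V s) i) (Icc t₁ t₂) := fun s hs =>
      ((EuclideanSpace.proj i : E3 →L[ℝ] ℝ).continuous.continuousAt.comp_continuousWithinAt
        (hch.hV s hs).continuousWithinAt)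
    have hφc : ContinuousOn φ (Icc t₁ t₂) := (continuousOn_const.mul hVc).add hcont
    have hφd : ∀ s ∈ Ioo t₁ t₂, HasDerivAt φ
        (c₀ * (E s (X s) + cross (u (V s)) (B s (X s))) i
        + bv s (X s) (fun v z => kc ε e c i (u v) z) (HD t₀ f (u (V s)))) s := by
      intro s hs
      have h1 : HasDerivAt V (E s (X s) + cross (u (V s)) (B s (X s))) s :=
        (hch.hV s (Ioo_subset_Icc_self hs)).hasDerivAt (Icc_mem_nhds hs.1 hs.2)
      have h2 : HasDerivAt (fun s => (V s) i) ((E s (X s) + cross (u (V s)) (B s (X s))) i) s :=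
        (EuclideanSpace.proj i : E3 →L[ℝ] ℝ).hasFDerivAt.comp_hasDerivAt s h1
      exact (h2.const_mul c₀).add (hder s hs)
    have hft := ftc_bound h12 hφc hφd (g := fun s => ENNReal.ofReal A
      + ENNReal.ofReal K * coneInt (t₀ / 2) T f s (X s) (g s))
      (fun s hs => rho s (Ioo_subset_Icc_self hs) i)
    rw [lintegral_add_left measurable_const, setLIntegral_const, Real.volume_Icc,
      lintegral_const_mul' _ _ ENNReal.ofReal_ne_top] at hft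
    have h3 : |(V t₂ - V t₁) i| = c₀⁻¹ * |c₀ * (V t₂) i - c₀ * (V t₁) i| := by
      rw [← mul_sub, abs_mul, abs_of_pos hc₀p, ← mul_assoc, inv_mul_cancel₀ hc₀p.ne', one_mul]
      simp
    rw [h3, ENNReal.ofReal_mul (by positivity)]
    refine mul_le_mul' le_rfl ?_
    have h4 : |c₀ * (V t₂) i - c₀ * (V t₁) i| ≤ |φ t₂ - φ t₁| + (|β t₂| + |β t₁|) := by
      have : c₀ * (V t₂) i - c₀ * (V t₁) i = (φ t₂ - φ t₁) - (β t₂ - β t₁) := by
        simp only [hφ]; ring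
      rw [this]
      exact (abs_sub _ _).trans (add_le_add le_rfl (abs_sub _ _))
    calc ENNReal.ofReal |c₀ * (V t₂) i - c₀ * (V t₁) i|
        ≤ ENNReal.ofReal (|φ t₂ - φ t₁| + (|β t₂| + |β t₁|)) := ENNReal.ofReal_le_ofReal h4
      _ = ENNReal.ofReal |φ t₂ - φ t₁| + (ENNReal.ofReal |β t₂| + ENNReal.ofReal |β t₁|) := by
          rw [ENNReal.ofReal_add (abs_nonneg _) (by (clear * -; positivity)),
            ENNReal.ofReal_add (abs_nonneg _) (abs_nonneg _)]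
      _ ≤ (ENNReal.ofReal A * ENNReal.ofReal (t₂ - t₁)
          + ENNReal.ofReal K * pathInt (t₀ / 2) T f X t₁ t₂ g)
          + (ENNReal.ofReal C1 * Bd + ENNReal.ofReal C1 * Bd) :=
          add_le_add hft (add_le_add (hbeta t₂ ⟨h12, le_rfl⟩ i) (hbeta t₁ ⟨le_rfl, h12⟩ i))
      _ = _ := by rw [two_mul]
  -- conclusion
  have hsum : ENNReal.ofReal ‖V t₂ - V t₁‖ ≤ ∑ i : Fin 3, ENNReal.ofReal |(V t₂ - V t₁) i| := by
    rw [← ENNReal.ofReal_sum_of_nonneg fun i _ => abs_nonneg _]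
    exact ENNReal.ofReal_le_ofReal (norm_le_sum _)
  have hLe : ((Real.toNNReal L : ℝ≥0) : ℝ≥0∞) = ENNReal.ofReal L := rfl
  rw [hLe]
  refine hsum.trans ((Finset.sum_le_sum fun i _ => hcomp i).trans ?_)
  rw [Finset.sum_const, Finset.card_univ, Fintype.card_fin, nsmul_eq_mul]
  set PI := pathInt (t₀ / 2) T f X t₁ t₂ g with hPI
  have k1 : (3 : ℝ≥0∞) * (ENNReal.ofReal c₀⁻¹ * ENNReal.ofReal A) ≤ ENNReal.ofReal L := by
    have : (3 : ℝ≥0∞) = ENNReal.ofReal 3 := by simp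
    rw [this, ← ENNReal.ofReal_mul (by positivity), ← ENNReal.ofReal_mul (by positivity)]
    apply ENNReal.ofReal_le_ofReal
    rw [hL]
    gcongr
    linarith only [hC1, hK0]
  have k2 : (3 : ℝ≥0∞) * (ENNReal.ofReal c₀⁻¹ * ENNReal.ofReal K) ≤ ENNReal.ofReal L := by
    have : (3 : ℝ≥0∞) = ENNReal.ofReal 3 := by simp
    rw [this, ← ENNReal.ofReal_mul (by positivity), ← ENNReal.ofReal_mul (by positivity)]
    apply ENNReal.ofReal_le_ofReal
    rw [hL]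
    gcongr
    linarith only [hC1, hA0]
  have k3 : (3 : ℝ≥0∞) * (ENNReal.ofReal c₀⁻¹ * (2 * ENNReal.ofReal C1)) ≤ ENNReal.ofReal L := by
    have h3 : (3 : ℝ≥0∞) = ENNReal.ofReal 3 := by simp
    have h2 : (2 : ℝ≥0∞) = ENNReal.ofReal 2 := by simp
    rw [h3, h2, ← ENNReal.ofReal_mul (by positivity), ← ENNReal.ofReal_mul (by positivity),
      ← ENNReal.ofReal_mul (by positivity)]
    apply ENNReal.ofReal_le_ofReal
    rw [hL]
    gcongr
    linarith only [hK0, hA0]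
  calc ((3 : ℕ) : ℝ≥0∞) * (ENNReal.ofReal c₀⁻¹
      * (ENNReal.ofReal A * ENNReal.ofReal (t₂ - t₁)
        + ENNReal.ofReal K * PI + 2 * (ENNReal.ofReal C1 * Bd)))
      = (3 * (ENNReal.ofReal c₀⁻¹ * (2 * ENNReal.ofReal C1))) * Bd
        + (3 * (ENNReal.ofReal c₀⁻¹ * ENNReal.ofReal A)) * ENNReal.ofReal (t₂ - t₁)
        + (3 * (ENNReal.ofReal c₀⁻¹ * ENNReal.ofReal K)) * PI := by
        push_cast
        ring
    _ ≤ _ := add_le_add (add_le_add (mul_le_mul' k3 le_rfl) (mul_le_mul' k1 le_rfl))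
        (mul_le_mul' k2 le_rfl)

end Vale.Agent.P107
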