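import Vale.Agent.N107X.U4

/-!
The time induction with explicit constants.
-/

set_option linter.all false

attribute [-instance] ProperSMul.toContinuousSMul IsTopologicalTorsor.toContinuousSMul
  IdemSemiring.toCanonicallyOrderedAdd IdemSemiring.toMulLeftMono IdemSemiring.toMulRightMono
  AddQuantale.instAddLeftMono AddQuantale.instAddRightMono Quantale.instMulLeftMono
  Quantale.instMulRightMono FiniteDimensional.rclike_to_real IsScalarTower.complexToReal
  FiniteDimensional.complexToReal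

open MeasureTheory Set Filter Topology
open scoped RealInnerProductSpace ENNReal NNReal

namespace Vale.Agent.P107

open Vale.Agent.P107.Ar

variable {T : ℝ} {f : ℝ → E3 → E3 → ℝ} {E B : ℝ → E3 → E3}

/-- A statement with explicit constants. -/
def UME (T : ℝ) (f : ℝ → E3 → E3 → ℝ) (E B : ℝ → E3 → E3) (t₀ C c₁ θ : ℝ) (p : ℕ) : Prop :=
    ∀ (th : ℝ) (j : ℕ) (X V : ℝ → E3) (t₁ t₂ : ℝ), Ctx T f E B t₀ th c₁ p j X V t₁ t₂ →
      pathInt (t₀ / 2) T f X t₁ t₂ (kerT j (Ar.ee p j) V)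
          + pathInt (t₀ / 2) T f X t₁ t₂ (kerS j (Ar.ee p j) E B X V)
        ≤ ENNReal.ofReal (C * √c₁ * qq p j) ∧
      ∀ s ∈ Icc t₁ t₂, coneInt (t₀ / 2) T f s (X s) (kerB j (Ar.ee p j) V s)
        ≤ ENNReal.ofReal (θ * (Ar.ee p j * qq p j))

/-- A statement with explicit constants. -/
def UQS (T : ℝ) (f : ℝ → E3 → E3 → ℝ) (E B : ℝ → E3 → E3) (t₀ c₁ : ℝ) (p : ℕ) : Prop :=
    ∀ (th : ℝ) (j : ℕ) (X V : ℝ → E3) (t₁ t₂ : ℝ), Ctx T f E B t₀ th c₁ p j X V t₁ t₂ →
      QV V t₁ t₂ (qq p j / 32) (Ar.ee p j * qq p j / 2)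

/-- A statement with explicit constants. -/
def UBS (T : ℝ) (f : ℝ → E3 → E3 → ℝ) (t₀ c₁ : ℝ) (p : ℕ) : Prop :=
    ∀ t : ℝ, t₀ ≤ t → t < T →
      (∀ s ∈ Icc 0 t, ∀ x v, f s x v ≠ 0 → q v ≤ 2 ^ p) →
      ∀ Q : ℝ, 2 ^ p / 2 ≤ Q → (∃ s ∈ Icc 0 t, ∃ x v, f s x v ≠ 0 ∧ Q ≤ q v) →
      t₀ ≤ t - c₁ / (2 + p) ∧
        ∃ s ∈ Icc 0 (t - c₁ / (2 + p)), ∃ x v, f s x v ≠ 0 ∧ 7 / 8 * Q ≤ q v

theorem main_estimate_u {t₀ DT Dg Db c₁ θ : ℝ} {CT CS CB : ℝ≥0} {pT pS p : ℕ}
    (hT : UDT T f E B t₀ CT pT) (hS : UDS T f E B t₀ CS pS) (hB : UDB T f E B t₀ CB)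
    (hDT : 0 < DT) (hDg : 0 < Dg) (hDb : 0 < Db) (hc₁ : 0 < c₁) (hθ : 0 < θ) (hpT : pT ≤ p)
    (hpS : pS ≤ p) (sT : UST DT c₁ p) (sSg : USg Dg c₁ p) (sSb : USb Db c₁ p)
    (sB : USB (θ / (CB + 1)) p) :
    UME T f E B t₀ (CT * (3 * DT) + CS * (3 * Dg + 3 * Db) + 1) c₁ θ p := by
  intro th j X V t₁ t₂ hctx
  have hj := hctx.hj
  obtain ⟨a1, a2, a3⟩ := sT j hj
  obtain ⟨b1, b2, b3⟩ := sSg j hj
  obtain ⟨d1, d2, d3⟩ := sSb j hj
  have sB' := sB j hj
  have hTT := hT th c₁ p j X V t₁ t₂ hpT hctx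
  have hSS := hS th c₁ p j X V t₁ t₂ hpS hctx
  have hqp := QvS.qq_pos' p j
  have hcq : 0 ≤ √c₁ * qq p j := by positivity
  constructor
  · have h1 : pathInt (t₀ / 2) T f X t₁ t₂ (kerT j (Ar.ee p j) V)
        ≤ ENNReal.ofReal (CT * (3 * DT) * (√c₁ * qq p j)) := by
      refine hTT.trans ?_
      refine (add_le_add (add_le_add (mul_le_mul_right a1 _) (mul_le_mul_right a2 _))
        (mul_le_mul_right a3 _)).trans ?_
      rw [← ENNReal.ofReal_coe_nnreal, ← ENNReal.ofReal_mul (by positivity),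
        ← ENNReal.ofReal_add (by (clear * - hDT hc₁ hqp; positivity)) (by (clear * - hDT hc₁ hqp; positivity)),
        ← ENNReal.ofReal_add (by (clear * - hDT hc₁ hqp; positivity)) (by (clear * - hDT hc₁ hqp; positivity))]
      exact ENNReal.ofReal_le_ofReal (le_of_eq (by ring))
    have h2 : pathInt (t₀ / 2) T f X t₁ t₂ (kerS j (Ar.ee p j) E B X V)
        ≤ ENNReal.ofReal (CS * (3 * Dg + 3 * Db) * (√c₁ * qq p j)) := by
      refine hSS.trans ?_
      refine (add_le_add (add_le_add (add_le_add (add_le_add (add_le_add (mul_le_mul_right b1 _)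
        (mul_le_mul_right b2 _)) (mul_le_mul_right b3 _)) (mul_le_mul_right d1 _))
        (mul_le_mul_right d2 _)) (mul_le_mul_right d3 _)).trans ?_
      rw [← ENNReal.ofReal_coe_nnreal, ← ENNReal.ofReal_mul (by positivity),
        ← ENNReal.ofReal_mul (by positivity),
        ← ENNReal.ofReal_add (by (clear * - hDg hc₁ hqp; positivity)) (by (clear * - hDg hc₁ hqp; positivity)),
        ← ENNReal.ofReal_add (by (clear * - hDg hc₁ hqp; positivity)) (by (clear * - hDg hc₁ hqp; positivity)),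
        ← ENNReal.ofReal_add (by (clear * - hDg hc₁ hqp; positivity)) (by positivity),
        ← ENNReal.ofReal_add (by (clear * - hDg hDb hc₁ hqp; positivity)) (by positivity),
        ← ENNReal.ofReal_add (by (clear * - hDg hDb hc₁ hqp; positivity)) (by positivity)]
      exact ENNReal.ofReal_le_ofReal (le_of_eq (by ring))
    refine (add_le_add h1 h2).trans ?_
    rw [← ENNReal.ofReal_add (by (clear * - hDT hc₁ hqp; positivity)) (by (clear * - hDg hDb hc₁ hqp; positivity))]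
    refine ENNReal.ofReal_le_ofReal ?_
    nlinarith only [hcq]
  · intro s hs
    refine (hB th c₁ p j X V t₁ t₂ hctx s hs).trans ?_
    refine (mul_le_mul_right sB' _).trans ?_
    have hee := QvS.ee_pos' p j
    rw [← ENNReal.ofReal_coe_nnreal, ← ENNReal.ofReal_mul (by positivity)]
    refine ENNReal.ofReal_le_ofReal ?_
    have h3 : (CB : ℝ) * (θ / (CB + 1)) ≤ θ := by
      have h4 : (CB : ℝ) * (θ / (CB + 1)) = (CB / (CB + 1)) * θ := by ring
      rw [h4]
      have h5 : (CB : ℝ) / (CB + 1) ≤ 1 := by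
        rw [div_le_one (by positivity)]; linarith only []
      nlinarith only [hθ, h5]
    calc (CB : ℝ) * (θ / (CB + 1) * (Ar.ee p j * qq p j))
        = (CB * (θ / (CB + 1))) * (Ar.ee p j * qq p j) := by ring
      _ ≤ θ * (Ar.ee p j * qq p j) := mul_le_mul_of_nonneg_right h3 (by positivity)

lemma half_le_qq {p j : ℕ} (hj : 12 * j ≤ 5 * p) : (p : ℝ) / 2 ≤ qq p j := by
  obtain ⟨n, rfl⟩ : ∃ n, p = j + n := ⟨p - j, by omega⟩
  have h1 : qq (j + n) j = 2 ^ n := by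
    unfold qq
    rw [pow_add]
    field_simp
  have h2 : (n : ℝ) < 2 ^ n := by exact_mod_cast Nat.lt_two_pow_self
  have h3 : (j : ℝ) ≤ n := by exact_mod_cast (by omega : j ≤ n)
  rw [h1]
  push_cast
  linarith only [h2, h3]

open QvS in
theorem qv_strong_u (h : IsClassicalSolution T f E B) {t₀ : ℝ} (h0 : 0 < t₀) {R₀ : ℝ}
    (hR₀ : ∀ t ∈ Ico t₀ T, ∀ x v, f t x v ≠ 0 → ‖x‖ ≤ R₀) {C : ℝ≥0}
    (hC : UPB T f E B t₀ R₀ C) {K Cm r : ℝ} (hK : (C : ℝ) + 1 ≤ K) (hCm0 : 0 ≤ Cm)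
    (hr0 : 0 < r) (hr2 : 128 * K * Cm * r ≤ 1) {p : ℕ}
    (hME : UME T f E B t₀ Cm (r ^ 2) (1 / (64 * K)) p) (hp1 : (512 : ℝ) ≤ p)
    (hp2 : 256 * K ≤ p) : UQS T f E B t₀ (r ^ 2) p := by
  intro th j X V t₁ t₂ hctx
  obtain ⟨hTS, hB⟩ := hME th j X V t₁ t₂ hctx
  have hqq := half_le_qq hctx.hj
  have hqp := qq_pos' p j
  refine qv_window h h0 hR₀ hC (K := K) (M := Cm * √(r ^ 2) * qq p j) hK hctx
    (by linarith only [hqq, hp1]) (by linarith only [hqq, hp2]) (by positivity) ?_ hTS hB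
  rw [Real.sqrt_sq hr0.le]
  have h1 : K * (Cm * r * qq p j) = (128 * K * Cm * r) * qq p j / 128 := by ring
  rw [h1]
  have h2 : 128 * K * Cm * r * qq p j ≤ 1 * qq p j := by (clear * - hr2 hqp; gcongr)
  linarith only [h2]

open SoW in
theorem strong_of_weak_u (h : IsClassicalSolution T f E B) {t₀ : ℝ} (h0 : 0 < t₀) {c₁ : ℝ}
    (hc1 : 0 < c₁) (hc1' : c₁ ≤ 1) {p : ℕ} (hp12 : 12 ≤ p) (hmain : UQS T f E B t₀ c₁ p) :
    ∀ th : ℝ, t₀ ≤ th → th < T →
      (∀ s ∈ Icc 0 th, ∀ x v, f s x v ≠ 0 → q v ≤ 2 ^ p) →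
      GoodWeak f E B c₁ t₀ th p → GoodStrong f E B c₁ t₀ th p := by
  intro th ht0 hthT hP hweak i hi a b hta hab hbth hlen X V hchar hsupp ⟨s₀, hs₀, hq1, hq2⟩
  have hqpos := qq_pos p i
  have hepos := ee_pos p i
  have hesm := ee_small hp12 hi
  -- uniform continuity
  have hVc : ContinuousOn V (Icc a b) := fun s hs => (hchar.hV s hs).continuousWithinAt
  have hVu := isCompact_Icc.uniformContinuousOn_of_continuous hVc
  set ν : ℝ := Ar.ee p i * qq p i / 8 with hν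
  have hνpos : 0 < ν := by (clear * - p i hqpos hepos; positivity)
  obtain ⟨δ, hδ, hδ2⟩ := Metric.uniformContinuousOn_iff.1 hVu ν hνpos
  set r : ℝ := δ / 2 with hr
  have hrpos : 0 < r := by positivity
  have hunif : ∀ s ∈ Icc a b, ∀ s' ∈ Icc a b, |s - s'| ≤ r → ‖V s - V s'‖ ≤ ν := by
    intro s hs s' hs' hss
    have := hδ2 s hs s' hs' (by rw [Real.dist_eq]; linarith only [hr, hrpos, hss])
    rw [dist_eq_norm] at this
    exact this.le
  -- the induction
  have claim : ∀ n : ℕ, QV V (max a (s₀ - n * r)) (min b (s₀ + n * r)) (qq p i / 32)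
      (Ar.ee p i * qq p i / 2) := by
    intro n
    induction n with
    | zero =>
      have e1 : max a (s₀ - (0 : ℕ) * r) = s₀ := by simp [hs₀.1]
      have e2 : min b (s₀ + (0 : ℕ) * r) = s₀ := by simp [hs₀.2]
      rw [e1, e2]
      refine ⟨fun _ => 0, fun _ _ _ _ _ => le_rfl, by simp; positivity, ?_⟩
      intro s hs s' hs' _
      have h1 : s = s₀ := le_antisymm hs.2 hs.1
      have h2 : s' = s₀ := le_antisymm hs'.2 hs'.1
      rw [h1, h2]
      simp only [sub_self, norm_zero, zero_add]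
      (clear * - hqpos hepos; positivity)
    | succ n ih =>
      set an : ℝ := max a (s₀ - n * r) with han
      set bn : ℝ := min b (s₀ + n * r) with hbn
      have hn0 : (0 : ℝ) ≤ n * r := by (clear * - δ hδ; positivity)
      have hs0n : s₀ ∈ Icc an bn :=
        ⟨max_le hs₀.1 (by linarith only [hn0]), le_min hs₀.2 (by linarith only [hn0])⟩
      have hnn : an ≤ bn := hs0n.1.trans hs0n.2
      set a' : ℝ := max a (s₀ - ((n + 1 : ℕ) : ℝ) * r) with ha'
      set b' : ℝ := min b (s₀ + ((n + 1 : ℕ) : ℝ) * r) with hb'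
      have hcast : ((n + 1 : ℕ) : ℝ) * r = n * r + r := by push_cast; ring
      have haa : a ≤ a' := le_max_left _ _
      have hbb : b' ≤ b := min_le_left _ _
      have haa' : a' ≤ an := max_le_max le_rfl (by rw [hcast]; linarith only [hrpos])
      have hbb' : bn ≤ b' := min_le_min le_rfl (by rw [hcast]; linarith only [hrpos])
      have hA : an - r ≤ a' := by
        rw [han, sub_le_iff_le_add]
        refine max_le (by linarith only [hrpos, haa]) ?_
        have : s₀ - ((n + 1 : ℕ) : ℝ) * r ≤ a' := le_max_right _ _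
        rw [hcast] at this
        linarith only [this]
      have hB : b' ≤ bn + r := by
        rw [← sub_le_iff_le_add, hbn]
        refine le_min (by linarith only [hrpos, hbb]) ?_
        have : b' ≤ s₀ + ((n + 1 : ℕ) : ℝ) * r := min_le_right _ _
        rw [hcast] at this
        linarith only [this]
      have hsub : Icc a' b' ⊆ Icc a b := Icc_subset_Icc haa hbb
      have hs0' : s₀ ∈ Icc a' b' := ⟨haa'.trans hs0n.1, hs0n.2.trans hbb'⟩
      have hext : QV V a' b' (qq p i / 32) (Ar.ee p i * qq p i / 2 + 2 * ν) :=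
        QV_extend hnn hrpos.le hA hB haa' hbb'
          (fun s hs s' hs' hss => hunif s (hsub hs) s' (hsub hs') hss) ih
      have hab' : a' ≤ b' := hs0'.1.trans hs0'.2
      refine hmain th i X V a' b'
        { hsol := h
          ht₀ := h0
          ht₁ := hta.trans haa
          h12 := hab'
          h2 := hbb.trans hbth
          hth := hthT
          hc₁ := hc1
          hc₁' := hc1'
          hP := hP
          hlen := by linarith only [hlen, haa, hbb]
          hj := hi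
          hchar := isChar_mono hchar haa hbb
          hsupp := ?_
          hq := ?_
          hQV := QV_weaken hext (by linarith only [hqpos]) (by rw [hν]; nlinarith only [hν, hνpos])
          hgood := hweak }
      · have hbT : b < T := hbth.trans_lt hthT
        rw [h.const_along (h0.trans_le hta) hbT hchar.hX hchar.hV (hsub (left_mem_Icc.2 hab'))
          (left_mem_Icc.2 hab)]
        exact hsupp
      · intro s hs
        have h1 := QV_dist hext hs0' hs
        have h2 := q_lip (V s) (V s₀)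
        have h3 : ‖V s - V s₀‖ ≤ qq p i / 8 := by
          refine h1.trans ?_
          rw [hν]
          nlinarith only [hq1, hq2, hesm]
        rw [abs_le] at h2
        constructor
        · linarith only [hq1, h3, h2.1]
        · linarith only [hq2, h2, h3]
  obtain ⟨n, hn⟩ := exists_nat_gt ((b - a) / r)
  have hn' : b - a ≤ n * r := by
    rw [div_lt_iff₀ hrpos] at hn
    exact hn.le
  have e1 : max a (s₀ - n * r) = a := max_eq_left (by linarith only [hn', hs₀.2])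
  have e2 : min b (s₀ + n * r) = b := min_eq_left (by linarith only [hn', hs₀.1])
  have := claim n
  rwa [e1, e2] at this

open GS in
theorem back_step_u (h : IsClassicalSolution T f E B) {t₀ : ℝ} (h0 : 0 < t₀) {c₁ M : ℝ}
    (hc₁ : 0 < c₁) {p : ℕ} (hp8 : 8 ≤ p) (hM : ∀ s ∈ Icc 0 t₀, ∀ x v, f s x v ≠ 0 → q v ≤ M)
    (hMp : 4 * M < 2 ^ p) (hmain : ∀ th : ℝ, t₀ ≤ th → th < T →
      (∀ s ∈ Icc 0 th, ∀ x v, f s x v ≠ 0 → q v ≤ 2 ^ p) → GoodStrong f E B c₁ t₀ th p) :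
    UBS T f t₀ c₁ p := by
  intro t h0t htT hP Q hQ ⟨s, hs, x, v, hne, hQv⟩
  have h2p : (0 : ℝ) < 2 ^ p := by positivity
  have hd : 0 < c₁ / (2 + p) := by positivity
  have hst : t₀ < s := by
    by_contra hcon
    push Not at hcon
    have := hM s ⟨hs.1, hcon⟩ x v hne
    linarith only [hQ, hQv, h2p, hMp, this]
  set a : ℝ := max t₀ (s - c₁ / (2 + p)) with ha
  have h0a : t₀ ≤ a := le_max_left _ _
  have has : a ≤ s := max_le hst.le (by linarith only [hd])
  obtain ⟨X, V, -, -, hXs, hVs, hX, hV, hfc⟩ :=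
    exists_characteristic h (h0.trans_le h0a) has (hs.2.trans_lt htT) x v
  have hchar : IsChar E B X V a s := ⟨hX, hV⟩
  have haI : a ∈ Icc a s := ⟨le_rfl, has⟩
  have hsI : s ∈ Icc a s := ⟨has, le_rfl⟩
  have hfa : f a (X a) (V a) ≠ 0 := by rw [hfc a haI]; exact hne
  have hvP := hP s hs x v hne
  have hGS := hmain t h0t htT hP 0 (by omega) a s h0a has hs.2 (by
      rw [dl_zero]
      have := le_max_right t₀ (s - c₁ / (2 + p))
      linarith only [this]) X V hchar hfa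
      ⟨s, hsI, by rw [hVs, qq_zero]; linarith only [hQ, hQv, h2p], by rw [hVs, qq_zero]; linarith only [h2p, hvP]⟩
  obtain ⟨G, hG, hGb, hGV⟩ := hGS
  have h1 := hGV a haI s hsI has
  rw [qq_zero] at hGb h1
  have hee := ee_zero_le hp8
  have h2 : ‖V s - V a‖ ≤ Q / 8 := by
    have : Ar.ee p 0 * 2 ^ p ≤ 1 / 32 * 2 ^ p := mul_le_mul_of_nonneg_right hee h2p.le
    linarith only [hQ, h2p, hGb, h1, this]
  have h3 := q_sub_le (V s) (V a)
  rw [hVs] at h3 h2
  have h4 : 7 / 8 * Q ≤ q (V a) := by linarith only [hQv, h2, h3]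
  have h5 : t₀ < a := by
    by_contra hcon
    push Not at hcon
    have := hM a ⟨h0.le.trans h0a, hcon⟩ (X a) (V a) hfa
    linarith only [hQ, hQv, h2p, hMp, h2, h3, this]
  have h6 : a = s - c₁ / (2 + p) := by
    rcases max_choice t₀ (s - c₁ / (2 + p)) with h7 | h7
    · rw [← ha] at h7
      linarith only [h5, h7]
    · exact h7
  refine ⟨by linarith only [h5, h6, hs.2], a, ⟨h0.le.trans h0a, by linarith only [h6, hs.2]⟩, X a, V a, hfa, h4⟩

open GS in
theorem momentum_le_u (h : IsClassicalSolution T f E B) {t₀ : ℝ} (h0 : 0 < t₀) (h0T : t₀ < T)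
    {c₁ : ℝ} (hc₁ : 0 < c₁) {p₀ m₁ : ℕ} (hbs : ∀ p ≥ p₀, UBS T f t₀ c₁ p) (hm₁ : m₁ ≥ p₀)
    (hsum : T < ∑ k ∈ Finset.Icc p₀ m₁, c₁ / (2 + k : ℝ)) :
    ∀ t ∈ Ico 0 T, ∀ x v, f t x v ≠ 0 → ‖v‖ ≤ 2 ^ m₁ := by
  intro t ht x v hne
  by_contra hcon
  push Not at hcon
  have hv : 2 ^ m₁ < q v := hcon.trans (norm_lt_q v)
  set t' := max t t₀ with ht'
  have ht'T : t' < T := max_lt ht.2 h0T
  have ht'0 : t₀ ≤ t' := le_max_right _ _
  obtain ⟨M, hM⟩ := exists_q_bound h (t := t') ⟨h0.le.trans ht'0, ht'T⟩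
  have hex : ∃ m : ℕ, ∀ s ∈ Icc 0 t', ∀ x v, f s x v ≠ 0 → q v ≤ 2 ^ m := by
    obtain ⟨n, hn⟩ := pow_unbounded_of_one_lt M (one_lt_two : (1 : ℝ) < 2)
    exact ⟨n, fun s hs x v hne => (hM s hs x v hne).trans hn.le⟩
  classical
  set m := Nat.find hex with hm
  have hmspec := Nat.find_spec hex
  rw [← hm] at hmspec
  have htI : t ∈ Icc 0 t' := ⟨ht.1, le_max_left _ _⟩
  have hmm : m₁ < m := by
    have h1 := hmspec t htI x v hne
    by_contra h2
    push Not at h2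
    have h3 : (2 : ℝ) ^ m ≤ 2 ^ m₁ := pow_le_pow_right₀ (by norm_num) h2
    linarith only [hv, h1, h3]
  have hmin := Nat.find_min hex (m := m - 1) (by omega)
  push Not at hmin
  obtain ⟨s, hs, x', v', hne', hv'⟩ := hmin
  have h2m : (2 : ℝ) ^ m / 2 = 2 ^ (m - 1) := by
    have : m = (m - 1) + 1 := by omega
    conv_lhs => rw [this, pow_succ]
    ring
  have := time_lower hc₁ hbs m (by omega) t' ht'0 ht'T hmspec
    ⟨s, hs, x', v', hne', by rw [h2m]; exact hv'.le⟩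
  have hmono : ∑ k ∈ Finset.Icc p₀ m₁, c₁ / (2 + k : ℝ)
      ≤ ∑ k ∈ Finset.Icc p₀ m, c₁ / (2 + k : ℝ) := by
    apply Finset.sum_le_sum_of_subset_of_nonneg
    · exact Finset.Icc_subset_Icc le_rfl hmm.le
    · intro i _ _
      (clear * - hc₁; positivity)
  linarith only [h0, hsum, ht'T, this, hmono]

lemma log_le_sum (p₀ m : ℕ) (hm : p₀ ≤ m) :
    Real.log ((m + 3) / (p₀ + 2)) ≤ ∑ k ∈ Finset.Icc p₀ m, 1 / (2 + k : ℝ) := by
  have key : ∀ k : ℕ, Real.log ((k + 3) / (k + 2)) ≤ 1 / (2 + k : ℝ) := by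
    intro k
    have h1 := Real.log_le_sub_one_of_pos (show (0 : ℝ) < (k + 3) / (k + 2) by positivity)
    have h2 : ((k : ℝ) + 3) / (k + 2) - 1 = 1 / (2 + k : ℝ) := by field_simp; ring
    linarith only [h1, h2]
  induction m, hm using Nat.le_induction with
  | base => simpa using key p₀
  | succ m hm ih =>
    rw [Finset.sum_Icc_succ_top (by omega)]
    have h1 := key (m + 1)
    have h2 : Real.log ((((m + 1 : ℕ) : ℝ) + 3) / (p₀ + 2)) = Real.log ((m + 3) / (p₀ + 2))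
        + Real.log ((((m + 1 : ℕ) : ℝ) + 3) / ((m + 1 : ℕ) + 2)) := by
      rw [← Real.log_mul (by positivity) (by positivity)]
      congr 1
      push_cast
      field_simp
      ring
    linarith only [h1, h2, ih]

theorem momentum_exp_u (h : IsClassicalSolution T f E B) {t₀ : ℝ} (h0 : 0 < t₀) (h0T : t₀ < T)
    {c₁ : ℝ} (hc₁ : 0 < c₁) {p₀ : ℕ} (hbs : ∀ p ≥ p₀, UBS T f t₀ c₁ p) :
    ∀ t ∈ Ico 0 T, ∀ x v, f t x v ≠ 0 →
      ‖v‖ ≤ Real.exp ((p₀ + 2) * Real.exp (T / c₁) + 1) := by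
  intro t ht x v hne
  have hT0 : 0 < T := h0.trans h0T
  set y : ℝ := (p₀ + 2) * Real.exp (T / c₁) with hy
  have he1 : 1 ≤ Real.exp (T / c₁) := Real.one_le_exp (by positivity)
  have hy1 : (p₀ : ℝ) + 2 ≤ y := le_mul_of_one_le_right (by positivity) he1
  have hc1 : y ≤ ⌈y⌉₊ := Nat.le_ceil y
  have hc2 : (⌈y⌉₊ : ℝ) < y + 1 := Nat.ceil_lt_add_one (by positivity)
  have hm : ⌈y⌉₊ ≥ p₀ := by
    have : (p₀ : ℝ) ≤ ⌈y⌉₊ := by linarith only [hy1, hc1]
    exact_mod_cast this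
  have hsum : T < ∑ k ∈ Finset.Icc p₀ ⌈y⌉₊, c₁ / (2 + k : ℝ) := by
    have h1 := log_le_sum p₀ ⌈y⌉₊ hm
    have h2 : T / c₁ < Real.log ((⌈y⌉₊ + 3) / (p₀ + 2)) := by
      rw [Real.lt_log_iff_exp_lt (by positivity), lt_div_iff₀ (by positivity)]
      linarith only [hc1, hy]
    have h5 : ∑ k ∈ Finset.Icc p₀ ⌈y⌉₊, c₁ / (2 + k : ℝ)
        = c₁ * ∑ k ∈ Finset.Icc p₀ ⌈y⌉₊, 1 / (2 + k : ℝ) := by
      rw [Finset.mul_sum]
      exact Finset.sum_congr rfl fun i _ => by ring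
    rw [h5]
    have h6 := h2.trans_le h1
    rw [div_lt_iff₀ hc₁] at h6
    linarith only [h6]
  refine (momentum_le_u h h0 h0T hc₁ hbs hm hsum t ht x v hne).trans ?_
  calc (2 : ℝ) ^ ⌈y⌉₊ ≤ Real.exp 1 ^ ⌈y⌉₊ :=
        pow_le_pow_left₀ (by norm_num) (by linarith only [Real.add_one_le_exp 1]) _
    _ = Real.exp ⌈y⌉₊ := by rw [← Real.exp_nat_mul, mul_one]
    _ ≤ _ := Real.exp_le_exp.2 hc2.le

end Vale.Agent.P107
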