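import Vale.Agent.N107X.U5

/-!
The growth of the momenta: dependence of all constants on the final time.
-/

set_option linter.all false

attribute [-instance] ProperSMul.toContinuousSMul IsTopologicalTorsor.toContinuousSMul
  IdemSemiring.toCanonicallyOrderedAdd IdemSemiring.toMulLeftMono IdemSemiring.toMulRightMono
  AddQuantale.instAddLeftMono AddQuantale.instAddRightMono Quantale.instMulLeftMono
  Quantale.instMulRightMono FiniteDimensional.rclike_to_real IsScalarTower.complexToReal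
  FiniteDimensional.complexToReal

open MeasureTheory Set Filter Topology
open scoped RealInnerProductSpace ENNReal NNReal

namespace Vale.Agent.P107

open Vale.Agent.P107.Ar

open DecS DecB MSt in
theorem decomp_T (D : ℝ) : ∃ G : ℝ, 1 ≤ G ∧ ∀ (T : ℝ) (f : ℝ → E3 → E3 → ℝ) (E B : ℝ → E3 → E3)
    (t₀ : ℝ), IsClassicalSolution T f E B → 0 < t₀ → t₀ < T → 1 ≤ T → Ear f E B t₀ D →
    ∃ CT CS CB : ℝ≥0, (CT : ℝ) ≤ G * T ^ 15 ∧ (CS : ℝ) ≤ G * T ^ 15 ∧ (CB : ℝ) ≤ G * T ^ 3 ∧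
      ∀ p₀ : ℕ, 4 * (1 + D) ≤ p₀ →
        UDT T f E B t₀ CT p₀ ∧ UDS T f E B t₀ CS p₀ ∧ UDB T f E B t₀ CB := by
  obtain ⟨Cs, hCs⟩ := vol_shell
  obtain ⟨Cv, hCv⟩ := vol_mom
  obtain ⟨Cr, hCr⟩ := vol_rel
  have s0 := Cs.coe_nonneg
  have v0 := Cv.coe_nonneg
  have r0 := Cr.coe_nonneg
  obtain ⟨g, hg⟩ : ∃ g : ℝ, g = 2 + |D| * (Cv + Cr) * Cs * 8 + 176000 * |D| + 2 * Cv + 4 * Cr :=
    ⟨_, rfl⟩
  have d0 := abs_nonneg D
  have a0 : 0 ≤ |D| * (Cv + Cr) * Cs * 8 := by positivity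
  have g1 : 1 ≤ g := by linarith only [hg, a0, d0, v0, r0]
  have g5 : g ≤ g ^ 5 := le_self_pow₀ g1 (by norm_num)
  refine ⟨40000 * g ^ 5, by linarith only [g1, g5], ?_⟩
  intro T f E B t₀ h h0 h0T hT hD
  have hD1 := hD.one_le
  have hDa : |D| = D := abs_of_nonneg (by linarith only [hD1])
  rw [hDa] at hg a0 d0
  have hT0 : 0 ≤ T := by linarith only [hT]
  have hmax : max T 1 = T := max_eq_left hT
  have hta : 0 < t₀ / 2 := by linarith only [h0]
  have hb : ∀ (a : ℝ) (k : ℕ), a ≤ g → k ≤ 3 → a * T ^ k ≤ g * T ^ 3 := fun a k ha hk =>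
    mul_le_mul ha (pow_le_pow_right₀ hT hk) (by positivity) (by linarith only [g1])
  have hb0 : ∀ a : ℝ, a ≤ g → a ≤ g * T ^ 3 := fun a ha => by simpa using hb a 0 ha (by norm_num)
  set F : ℝ≥0 := D.toNNReal with hF
  have hFD : (F : ℝ) = D := Real.coe_toNNReal _ d0
  set M : ℝ≥0 := 2 * (energy0 f E B).toNNReal with hM
  have hMD : (M : ℝ) ≤ 2 * D := by
    have : ((energy0 f E B).toNNReal : ℝ) ≤ D := by
      rw [Real.coe_toNNReal']
      exact max_le hD.en d0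
    rw [hM]
    push_cast
    linarith only [this]
  have M0 := M.coe_nonneg
  set L : ℝ≥0 := (g * T ^ 3).toNNReal with hL
  have hLe : (L : ℝ) = g * T ^ 3 := Real.coe_toNNReal _ (by positivity)
  have hEn : UEn T f E B M := energy_bound_u h
  have hFx : UFx T f E B (t₀ / 2) M := cone_flux_u h hta
  have hSp : USp T f (t₀ / 2) F := sup_bound_u h hta fun x v => by rw [hFD]; exact hD.sup x v
  have hBas : UBasic T f E B t₀ L := by
    refine mass_basic_u h h0 hSp hFx hEn hCs hCv hCr ?_ ?_ ?_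
    · rw [hLe, hmax, hFD]
      exact hb _ 3 (by linarith only [hg, d0, v0, r0]) le_rfl
    · rw [hLe]
      exact hb0 _ (by linarith only [hg, a0, d0, v0, r0, hMD])
    · rw [hLe, hmax]
      simpa using hb (4 * M) 1 (by linarith only [hg, a0, d0, v0, r0, hMD]) (by norm_num)
  have T3 : T ^ 3 ≤ T ^ 15 := pow_le_pow_right₀ hT (by norm_num)
  refine ⟨40000 * L, 30000 * L ^ 5, 10 * max (F * Cs * Cv * (4 * (max T 1) ^ 3).toNNReal) (4 * M),
    ?_, ?_, ?_, fun p₀ hp₀ => ?_⟩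
  · push_cast
    rw [hLe]
    have := mul_le_mul g5 T3 (by positivity) (by positivity)
    linarith only [this]
  · push_cast
    have e : (g * T ^ 3) ^ 5 = g ^ 5 * T ^ 15 := by ring
    rw [hLe, e]
    have : 0 ≤ g ^ 5 * T ^ 15 := by positivity
    linarith only [this]
  · push_cast
    rw [hFD, hmax, Real.coe_toNNReal (4 * T ^ 3) (by positivity)]
    have e1 : D * Cs * Cv * (4 * T ^ 3) ≤ g * T ^ 3 := by
      have e2 : 0 ≤ D * Cs * Cv := by positivity
      have e3 : 0 ≤ D * Cs * Cr := by positivity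
      have := hb (D * Cs * Cv * 4) 3 (by nlinarith only [hg, d0, v0, r0, e2, e3]) le_rfl
      linarith only [this]
    have e2 : 4 * (M : ℝ) ≤ g * T ^ 3 := hb0 _ (by linarith only [hg, a0, d0, v0, r0, hMD])
    have e3 := max_le e1 e2
    have e4 := mul_le_mul_of_nonneg_right g5 (show 0 ≤ T ^ 3 by positivity)
    have e5 : 0 ≤ g ^ 5 * T ^ 3 := by positivity
    linarith only [e3, e4, e5]
  · have hSt := mass_stay_u (core_u h h0 (counting_u h hEn) hD.supp hp₀)
    have hMass : UMass T f E B t₀ L p₀ := by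
      refine mass_le_u hBas hSt le_rfl (NNReal.coe_le_coe.1 ?_)
      push_cast
      rw [Real.coe_toNNReal _ (by positivity), hmax, hLe]
      have := hb (M * 88000) 2 (by linarith only [hg, a0, d0, v0, r0, hMD]) (by norm_num)
      linarith only [this]
    refine ⟨decompT_u h h0 h0T hMass, ?_, decompB_u h h0 (mass_V_u h hta hSp hCs hCv)
      (mass_F_u h hta hFx)⟩
    refine decompS_u h h0 h0T (cs_cell_u h h0 hSp) (Wg_budget_u hta hFx)
      (bet_budget_u h (shell_budget_u h (GB_budget_u (t₀ / 2) hEn))) hCv hCr hMass ?_ ?_ ?_ ?_ ?_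
      le_rfl ?_
    · have F1 : 1 ≤ F := NNReal.coe_le_coe.1 (by rw [hFD]; exact hD1)
      refine (NNReal.rpow_le_rpow_of_exponent_le F1 (show (1 / 2 : ℝ) ≤ 1 by norm_num)).trans ?_
      rw [NNReal.rpow_one]
      refine NNReal.coe_le_coe.1 ?_
      rw [hFD, hLe]
      exact hb0 _ (by linarith only [hg, a0, d0, v0, r0])
    · refine NNReal.coe_le_coe.1 ?_
      rw [hLe]
      exact hb0 _ (by linarith only [hg, a0, d0, v0, r0, hMD])
    · refine NNReal.coe_le_coe.1 ?_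
      push_cast
      rw [Real.coe_toNNReal _ (by positivity), hmax, hLe]
      have := hb ((M + 1) * 2) 1 (by linarith only [hg, a0, d0, v0, r0, hMD]) (by norm_num)
      rw [pow_one] at this
      linarith only [this]
    · refine NNReal.coe_le_coe.1 ?_
      push_cast
      rw [hLe]
      exact hb0 _ (by linarith only [hg, a0, d0, v0, r0])
    · refine NNReal.coe_le_coe.1 ?_
      push_cast
      rw [hLe]
      exact hb0 _ (by linarith only [hg, a0, d0, v0, r0])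
    · refine NNReal.coe_le_coe.1 ?_
      push_cast
      rw [hLe]
      exact hb0 _ g1

theorem path_T (D : ℝ) : ∃ G : ℝ, 1 ≤ G ∧ ∀ (T : ℝ) (f : ℝ → E3 → E3 → ℝ) (E B : ℝ → E3 → E3)
    (t₀ : ℝ), IsClassicalSolution T f E B → 0 < t₀ → 1 ≤ T → Ear f E B t₀ D → ∀ R₀ : ℝ,
    ∃ C : ℝ≥0, (C : ℝ) + 1 ≤ G * T ^ 2 ∧ UPB T f E B t₀ R₀ C := by
  obtain ⟨C1, hC1, kb1⟩ := ck_bound
  obtain ⟨C2, hC2, kb2⟩ := Psi_grad_bound
  obtain ⟨C3, hC3, kb3⟩ := Theta_bound
  have hs : 0 < (sph.real univ)⁻¹ := inv_pos.2 sph_pos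
  set c : ℝ := (sph.real univ)⁻¹ with hc
  have hJ := cJ_nonneg
  have hK : 0 ≤ cK D := by unfold cK; positivity
  have hV : 0 ≤ (volume : Measure E3).real (Metric.closedBall 0 D) := measureReal_nonneg
  set V := (volume : Measure E3).real (Metric.closedBall 0 D) with hVe
  have hm : 0 ≤ max C2 C3 := hC2.le.trans (le_max_left _ _)
  have d0 := abs_nonneg D
  set a : ℝ := 3 * (c * (cK D * (2 * cJ * |D| * V) + 30 * cJ * |D| + max C2 C3 + 2 * C1)) with ha
  have a0 : 0 ≤ a := by positivity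
  refine ⟨a + 1, by linarith only [a0], ?_⟩
  intro T f E B t₀ h h0 hT hD R₀
  have hDa : |D| = D := abs_of_nonneg (by linarith only [hD.one_le])
  rw [hDa] at ha d0
  have T2 : 1 ≤ T ^ 2 := one_le_pow₀ hT
  refine ⟨_, ?_, path_bound_u h h0 R₀ hC1 hC2 hC3 (show 0 ≤ 30 * cJ * D * T ^ 2 by positivity)
    kb1 kb2 kb3 (fun t ht x _ => DtermL_u h h0 hT hD t ht x) (kX_term_u h h0 hT hD R₀)⟩
  rw [Real.coe_toNNReal _ (by positivity), Real.coe_toNNReal _ (by positivity), ← hc, ← hVe]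
  have e1 : 0 ≤ c * (max C2 C3 + 2 * C1) * (T ^ 2 - 1) :=
    mul_nonneg (by positivity) (by linarith only [T2])
  rw [ha]
  nlinarith only [e1, T2]

theorem growth_T (D : ℝ) : ∃ C : ℝ, ∀ (T : ℝ) (f : ℝ → E3 → E3 → ℝ) (E B : ℝ → E3 → E3)
    (t₀ : ℝ), IsClassicalSolution T f E B → 0 < t₀ → t₀ < T → 1 ≤ T → Ear f E B t₀ D →
    ∀ t ∈ Ico 0 T, ∀ x v, f t x v ≠ 0 → ‖v‖ ≤ Real.exp (Real.exp (C * T ^ 35)) := by
  obtain ⟨GA, hGA, hA⟩ := decomp_T D
  obtain ⟨GB, hGB, hB⟩ := path_T D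
  obtain ⟨DS, hDS, hst⟩ := stat_u
  obtain ⟨a, ha⟩ : ∃ a : ℝ, a = 128 * GB * (3000000 * GA) := ⟨_, rfl⟩
  have a1 : 1 ≤ a := by nlinarith only [ha, hGA, hGB]
  obtain ⟨b, hb⟩ : ∃ b : ℝ, b = DS * a ^ 22 + 128 * DS * GA * GB + 256 * GB + 512 + 4 * (1 + |D|) :=
    ⟨_, rfl⟩
  refine ⟨b + 4 + 374 + a ^ 2, ?_⟩
  intro T f E B t₀ h h0 h0T hT hD t ht x v hne
  have hD1 := hD.one_le
  have hDa : |D| = D := abs_of_nonneg (by linarith only [hD1])
  rw [hDa] at hb
  have hT0 : 0 < T := by linarith only [hT]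
  obtain ⟨CT, CS, CB, lT, lS, lB, hdec⟩ := hA T f E B t₀ h h0 h0T hT hD
  obtain ⟨R₀, hR₀⟩ := exists_x_bound h h0 h0T
  obtain ⟨C, lC, hPB⟩ := hB T f E B t₀ h h0 hT hD R₀
  obtain ⟨r, hr⟩ : ∃ r : ℝ, r = 1 / (a * T ^ 17) := ⟨_, rfl⟩
  have T17 : 1 ≤ T ^ 17 := one_le_pow₀ hT
  have aT : 1 ≤ a * T ^ 17 := one_le_mul_of_one_le_of_one_le a1 T17
  have hr0 : 0 < r := by rw [hr]; positivity
  have hr1 : r ≤ 1 := by rw [hr, div_le_one (by positivity)]; exact aT
  have hc0 : 0 < r ^ 2 := by positivity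
  have hc1 : r ^ 2 ≤ 1 := pow_le_one₀ hr0.le hr1
  have b1 : 0 ≤ DS * a ^ 22 := by positivity
  have b2 : 0 ≤ 128 * DS * GA * GB := by positivity
  have hle : ∀ (y : ℝ) (k : ℕ), y ≤ b → k ≤ 374 → y * T ^ k ≤ b * T ^ 374 := fun y k hy hk =>
    mul_le_mul hy (pow_le_pow_right₀ hT hk) (by positivity)
      (by linarith only [hb, b1, b2, hGB, hD1])
  have b0 : 0 ≤ b := by linarith only [hb, b1, b2, hGB, hD1]
  have hbs : ∀ p ≥ ⌈b * T ^ 374⌉₊, UBS T f t₀ (r ^ 2) p := by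
    intro p hp
    have hp' : b * T ^ 374 ≤ p := Nat.ceil_le.1 hp
    have p0 : ∀ y : ℝ, y ≤ b → y ≤ p := fun y hy => by
      have := hle y 0 hy (by norm_num)
      rw [pow_zero, mul_one] at this
      exact this.trans hp'
    have p512 : (512 : ℝ) ≤ p := p0 _ (by linarith only [hb, b1, b2, hGB, hD1])
    have p512' : 512 ≤ p := by exact_mod_cast p512
    have pD : 4 * (1 + D) ≤ p := p0 _ (by linarith only [hb, b1, b2, hGB])
    obtain ⟨dT, dS, dB⟩ := hdec p pD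
    have K0 : 0 < GB * T ^ 2 := by positivity
    have hθ : 0 < 1 / (64 * (GB * T ^ 2)) := by positivity
    have CB0 := CB.coe_nonneg
    obtain ⟨s1, s2, s3, s4⟩ := hst (r ^ 2) (1 / (64 * (GB * T ^ 2)) / (CB + 1)) p hc0 hc1
      (by positivity) (by omega) (by
        have e : DS / (r ^ 2) ^ 11 = DS * a ^ 22 * T ^ 374 := by
          rw [hr]; field_simp
        rw [e]
        exact (hle _ 374 (by linarith only [hb, b2, hGB, hD1]) le_rfl).trans hp') (by
        have e : DS / (1 / (64 * (GB * T ^ 2)) / (CB + 1)) = 64 * DS * GB * T ^ 2 * (CB + 1) := by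
          field_simp
        rw [e]
        have e1 : 1 ≤ GA * T ^ 3 := one_le_mul_of_one_le_of_one_le hGA (one_le_pow₀ hT)
        have e2 : 64 * DS * GB * T ^ 2 * (CB + 1) ≤ 64 * DS * GB * T ^ 2 * (2 * (GA * T ^ 3)) :=
          mul_le_mul_of_nonneg_left (by linarith only [e1, lB]) (by positivity)
        have e3 := hle (128 * DS * GA * GB) 5 (by linarith only [hb, b1, hGB, hD1]) (by norm_num)
        have e4 : 64 * DS * GB * T ^ 2 * (2 * (GA * T ^ 3)) = 128 * DS * GA * GB * T ^ 5 := by ring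
        linarith only [e2, e3, e4, hp'])
    have hME := main_estimate_u dT dS dB (by norm_num) (by norm_num) (by norm_num) hc0 hθ le_rfl
      le_rfl s1 s2 s3 s4
    have CT0 := CT.coe_nonneg
    have CS0 := CS.coe_nonneg
    have hQS : UQS T f E B t₀ (r ^ 2) p := by
      refine qv_strong_u h h0 hR₀ hPB lC (by positivity) hr0 ?_ hME p512 ?_
      · have e1 : 1 ≤ GA * T ^ 15 := one_le_mul_of_one_le_of_one_le hGA (one_le_pow₀ hT)
        have e2 : (CT : ℝ) * (3 * 16000) + CS * (3 * 400001 + 3 * (400001 + 2501)) + 1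
            ≤ 3000000 * GA * T ^ 15 := by linarith only [e1, lT, lS]
        calc 128 * (GB * T ^ 2) * ((CT : ℝ) * (3 * 16000)
              + CS * (3 * 400001 + 3 * (400001 + 2501)) + 1) * r
            ≤ 128 * (GB * T ^ 2) * (3000000 * GA * T ^ 15) * r := by gcongr
          _ = 1 := by rw [hr, ha]; field_simp
      · have := hle (256 * GB) 2 (by linarith only [hb, b1, b2, hD1]) (by norm_num)
        linarith only [this, hp']
    refine back_step_u h h0 hc0 (M := 1 + D) (by omega) (fun s hs x v hne => ?_) ?_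
      fun th h1 h2 hP => good_strong_of h h0
        (strong_of_weak_u h h0 hc0 hc1 (by omega) hQS) h1 h2 hP
    · have := (hD.supp s hs x v hne).2
      linarith only [this, q_le_one_add_norm v]
    · have : (p : ℝ) < 2 ^ p := by exact_mod_cast Nat.lt_two_pow_self
      linarith only [this, pD]
  refine (momentum_exp_u h h0 h0T hc0 hbs t ht x v hne).trans (Real.exp_le_exp.2 ?_)
  have e0 : T / r ^ 2 = a ^ 2 * T ^ 35 := by rw [hr]; field_simp
  rw [e0]
  have e1 : (⌈b * T ^ 374⌉₊ : ℝ) < b * T ^ 374 + 1 := Nat.ceil_lt_add_one (by positivity)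
  have e2 : 1 ≤ Real.exp (a ^ 2 * T ^ 35) := Real.one_le_exp (by positivity)
  have T374 : 1 ≤ T ^ 374 := one_le_pow₀ hT
  have T35 : T ≤ T ^ 35 := le_self_pow₀ hT (by norm_num)
  have e3 : b + 4 ≤ Real.exp ((b + 4) * T ^ 35) := by
    have h1 : b + 4 ≤ (b + 4) * T ^ 35 :=
      le_mul_of_one_le_right (by linarith only [b0]) (by linarith only [T35, hT])
    linarith only [h1, Real.add_one_le_exp ((b + 4) * T ^ 35)]
  have e4 : T ^ 374 ≤ Real.exp (374 * T ^ 35) := by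
    have h1 : T ≤ Real.exp (T ^ 35) := by linarith only [T35, Real.add_one_le_exp (T ^ 35)]
    calc T ^ 374 ≤ Real.exp (T ^ 35) ^ 374 := pow_le_pow_left₀ hT0.le h1 _
      _ = _ := by rw [← Real.exp_nat_mul]; norm_num
  calc ((⌈b * T ^ 374⌉₊ : ℝ) + 2) * Real.exp (a ^ 2 * T ^ 35) + 1
      ≤ ((⌈b * T ^ 374⌉₊ : ℝ) + 3) * Real.exp (a ^ 2 * T ^ 35) := by linarith only [e2]
    _ ≤ ((b + 4) * T ^ 374) * Real.exp (a ^ 2 * T ^ 35) :=
        mul_le_mul_of_nonneg_right (by linarith only [e1, T374]) (by positivity)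
    _ ≤ (Real.exp ((b + 4) * T ^ 35) * Real.exp (374 * T ^ 35)) * Real.exp (a ^ 2 * T ^ 35) := by
        gcongr
    _ = _ := by rw [← Real.exp_add, ← Real.exp_add]; congr 1; ring

end Vale.Agent.P107
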